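import Vale.Agent.P100.Sector.Main

/-!
P100, the sector argument: the range `pq ≤ 1`. The mean bound on the shell of radius `R`, used at a
point of the shell and at the centre, bounds a positive power of `R` by a power of `u 0`.
-/

open MeasureTheory Metric Set Filter Topology
open scoped Laplacian

namespace Vale.Agent.P100.Sector

open Vale.Agent.P100.Sys

variable {n : ℕ} {A B p q : ℝ} {u v : EuclideanSpace ℝ (Fin n) → ℝ}

/-- A weighted source is bounded below on the shell by the least value of the function. -/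
theorem exists_shell_lower (hn : 1 ≤ n) (E : ℝ) :
    ∃ c : ℝ, 0 < c ∧ ∀ (w : EuclideanSpace ℝ (Fin n) → ℝ) (r : ℝ) (x₀ : EuclideanSpace ℝ (Fin n)),
      0 ≤ r → Continuous w → (∀ y, 0 < w y) → IsMinOn w (shell n) x₀ →
      c * w x₀ ^ r ≤ ∫ y in shell n, ‖y‖ ^ E * w y ^ r := by
  have hball : closedBall (EuclideanSpace.single (⟨0, hn⟩ : Fin n) (3 / 2 : ℝ)) (1 / 4) ⊆ shell n := by
    intro y hy
    rw [mem_closedBall, dist_eq_norm] at hy
    have e : ‖EuclideanSpace.single (⟨0, hn⟩ : Fin n) (3 / 2 : ℝ)‖ = 3 / 2 := by simp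
    have a1 := norm_sub_norm_le y (EuclideanSpace.single (⟨0, hn⟩ : Fin n) (3 / 2 : ℝ))
    have a2 := norm_sub_norm_le (EuclideanSpace.single (⟨0, hn⟩ : Fin n) (3 / 2 : ℝ)) y
    rw [norm_sub_rev _ y] at a2
    exact mem_shell.2 ⟨by linarith, by linarith⟩
  have hV : 0 < volume.real (shell n) := ENNReal.toReal_pos
    ((measure_closedBall_pos volume _ (by norm_num)).trans_le (measure_mono hball)).ne'
    isCompact_shell.measure_lt_top.ne
  have hc : ContinuousOn (fun y : EuclideanSpace ℝ (Fin n) => ‖y‖ ^ E) (shell n) :=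
    continuous_norm.continuousOn.rpow_const fun y hy =>
      Or.inl (norm_ne_zero_iff.2 (by simpa using shell_subset hy))
  obtain ⟨y₀, hy₀, hmin⟩ := isCompact_shell.exists_isMinOn
    ⟨_, hball (mem_closedBall_self (by norm_num))⟩ hc
  refine ⟨‖y₀‖ ^ E * volume.real (shell n), mul_pos (Real.rpow_pos_of_pos
    (norm_pos_iff.2 (by simpa using shell_subset hy₀)) _) hV, fun w r x₀ hr hwc hwp hx₀ => ?_⟩
  have := setIntegral_ge_of_const_le_real (μ := volume) isCompact_shell.measurableSet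
    isCompact_shell.measure_lt_top.ne
    (fun y hy => mul_le_mul (hmin hy) (Real.rpow_le_rpow (hwp x₀).le (hx₀ hy) hr)
      (Real.rpow_nonneg (hwp x₀).le _) (Real.rpow_nonneg (norm_nonneg _) _))
    ((hc.mul (hwc.continuousOn.rpow_const fun y _ => Or.inl (hwp y).ne')).integrableOn_compact
      isCompact_shell)
  linarith

/-- The mean bound on the shell of radius `R`, at a point of the shell and at the centre. -/
theorem exists_scaled_bound (hn : 3 ≤ n) (A : ℝ) (hp : 0 ≤ p) :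
    ∃ K : ℝ, 0 < K ∧ ∀ w z : EuclideanSpace ℝ (Fin n) → ℝ, Continuous w → Continuous z →
      (∀ x, 0 < w x) → (∀ x, 0 < z x) → ContDiffOn ℝ 2 w {0}ᶜ →
      (∀ x ≠ 0, lap w x = -(‖x‖ ^ A * z x ^ p)) → ∀ R : ℝ, 0 < R →
      ∀ xz : EuclideanSpace ℝ (Fin n), IsMinOn (fun y => z (R • y)) (shell n) xz →
      ∀ x : EuclideanSpace ℝ (Fin n), ‖x‖ ≤ 3 →
        R ^ (2 + A) * z (R • xz) ^ p ≤ K * w (R • x) := by
  obtain ⟨c, hc, hpt⟩ := exists_point_bound hn
  obtain ⟨c', hc', hlow⟩ := exists_shell_lower (n := n) (by omega) A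
  refine ⟨1 / (c * c'), by positivity, fun w z hwc hzc hw hz hw2 heq R hR xz hxz x hx => ?_⟩
  have hne : ∀ y : EuclideanSpace ℝ (Fin n), y ≠ 0 → R • y ≠ 0 := fun y hy =>
    smul_ne_zero hR.ne' hy
  have hmap : MapsTo (fun y : EuclideanSpace ℝ (Fin n) => R • y) {0}ᶜ {0}ᶜ := fun y hy => by
    simpa using hne y (by simpa using hy)
  have hlap : ∀ y ≠ 0, -lap (fun y => w (R • y)) y =
      R ^ (2 + A) * (‖y‖ ^ A * z (R • y) ^ p) := fun y hy => by
    have e := lap_scale w hR.ne' 1 y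
    simp only [one_mul] at e
    rw [e, heq _ (hne y hy), norm_smul, Real.norm_eq_abs, abs_of_pos hR,
      Real.mul_rpow hR.le (norm_nonneg y), Real.rpow_add hR, Real.rpow_two]
    ring
  have h := hpt (fun y => w (R • y)) (hwc.comp (continuous_const_smul R)) (fun y => (hw _).le)
    (hw2.comp (contDiff_const_smul R).contDiffOn hmap) (fun y hy => neg_nonneg.1 (by
      rw [hlap y hy]
      exact mul_nonneg (Real.rpow_nonneg hR.le _)
        (mul_nonneg (Real.rpow_nonneg (norm_nonneg _) _) (Real.rpow_nonneg (hz _).le _)))) x hx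
  rw [setIntegral_congr_fun isCompact_shell.measurableSet
    (fun y hy => hlap y (by simpa using shell_subset hy)), integral_const_mul] at h
  have h1 : 0 ≤ ∫ y in shell n \ ball x (1 / 4), w (R • y) :=
    setIntegral_nonneg (isCompact_shell.measurableSet.diff measurableSet_ball) fun y _ => (hw _).le
  have h2 := mul_le_mul_of_nonneg_left
    (hlow (fun y => z (R • y)) p xz hp (hzc.comp (continuous_const_smul R)) (fun y => hz _) hxz)
    (Real.rpow_nonneg hR.le (2 + A))
  have h3 := mul_le_mul_of_nonneg_left h2 hc.le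
  have h4 := mul_nonneg hc.le h1
  rw [div_mul_eq_mul_div, one_mul, le_div_iff₀ (mul_pos hc hc')]
  linarith

/-- No solution when `pq ≤ 1`. -/
theorem not_sol_of_le_one (hn : 3 ≤ n) (hA : -2 < A) (hB : -2 < B) (hp : 0 < p) (hq : 0 < q)
    (hpq : p * q ≤ 1) : ¬ Sol n A B p q u v := by
  intro h
  obtain ⟨K₁, hK₁, h₁⟩ := exists_scaled_bound (n := n) hn A hp.le
  obtain ⟨K₂, hK₂, h₂⟩ := exists_scaled_bound (n := n) hn B hq.le
  set E : ℝ := (2 + B) * p + (2 + A) with hE
  have hE0 : 0 < E := add_pos (mul_pos (by linarith) hp) (by linarith)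
  set L : ℝ := K₂ ^ p * K₁ with hL
  have hL0 : 0 < L := mul_pos (Real.rpow_pos_of_pos hK₂ _) hK₁
  set M : ℝ := L * u 0 ^ (1 - p * q) with hM
  have hu0 := h.posu 0
  have hM0 : 0 < M := mul_pos hL0 (Real.rpow_pos_of_pos hu0 _)
  set R : ℝ := (M + 1) ^ (1 / E) with hR
  have hR0 : 0 < R := Real.rpow_pos_of_pos (by linarith) _
  have hne : (shell n).Nonempty :=
    ⟨EuclideanSpace.single ⟨0, by omega⟩ 1, mem_shell.2 (by simp; norm_num)⟩
  obtain ⟨xa, hxa, hma⟩ := isCompact_shell.exists_isMinOn hne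
    (h.contu.comp (continuous_const_smul R)).continuousOn
  obtain ⟨xb, hxb, hmb⟩ := isCompact_shell.exists_isMinOn hne
    (h.contv.comp (continuous_const_smul R)).continuousOn
  have e1 : R ^ (2 + A) * v (R • xb) ^ p ≤ K₁ * u (R • xa) :=
    h₁ u v h.contu h.contv h.posu h.posv h.smoothu h.equ R hR0 xb hmb xa (mem_shell.1 hxa).2
  have e0 : R ^ (2 + A) * v (R • xb) ^ p ≤ K₁ * u 0 := by
    have := h₁ u v h.contu h.contv h.posu h.posv h.smoothu h.equ R hR0 xb hmb 0 (by simp)
    rwa [smul_zero] at this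
  have e2 : R ^ (2 + B) * u (R • xa) ^ q ≤ K₂ * v (R • xb) :=
    h₂ v u h.contv h.contu h.posv h.posu h.smoothv h.eqv R hR0 xa hma xb (mem_shell.1 hxb).2
  set a := u (R • xa)
  set b := v (R • xb)
  have ha : 0 < a := h.posu _
  have hb : 0 < b := h.posv _
  have e3 : R ^ E * a ^ (p * q) ≤ K₂ ^ p * (R ^ (2 + A) * b ^ p) := by
    have e := Real.rpow_le_rpow (by positivity) e2 hp.le
    rw [Real.mul_rpow (by positivity) (by positivity), Real.mul_rpow hK₂.le hb.le,
      ← Real.rpow_mul hR0.le, ← Real.rpow_mul ha.le] at e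
    rw [hE, Real.rpow_add hR0, mul_comm p q]
    have := mul_le_mul_of_nonneg_left e (Real.rpow_nonneg hR0.le (2 + A))
    linarith
  have fa : R ^ E * a ^ (p * q) ≤ L * a := e3.trans
    ((mul_le_mul_of_nonneg_left e1 (by positivity)).trans_eq (by rw [hL]; ring))
  have f0 : R ^ E * a ^ (p * q) ≤ L * u 0 := e3.trans
    ((mul_le_mul_of_nonneg_left e0 (by positivity)).trans_eq (by rw [hL]; ring))
  have hX : 0 < R ^ E * a ^ (p * q) := by positivity
  have h1 : 0 ≤ 1 - p * q := by linarith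
  have key : R ^ E * a ^ (p * q) ≤ M * a ^ (p * q) := by
    calc R ^ E * a ^ (p * q)
        = (R ^ E * a ^ (p * q)) ^ (p * q) * (R ^ E * a ^ (p * q)) ^ (1 - p * q) := by
          rw [← Real.rpow_add hX, add_sub_cancel, Real.rpow_one]
      _ ≤ (L * a) ^ (p * q) * (L * u 0) ^ (1 - p * q) :=
          mul_le_mul (Real.rpow_le_rpow hX.le fa (by positivity)) (Real.rpow_le_rpow hX.le f0 h1)
            (by positivity) (by positivity)
      _ = M * a ^ (p * q) := by
          rw [hM, Real.mul_rpow hL0.le ha.le, Real.mul_rpow hL0.le hu0.le,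
            Real.rpow_sub hL0, Real.rpow_one]
          field_simp
  have := le_of_mul_le_mul_right key (Real.rpow_pos_of_pos ha _)
  rw [hR, ← Real.rpow_mul (by linarith), one_div_mul_cancel hE0.ne', Real.rpow_one] at this
  linarith

/-- The sector, with weights, for all positive exponents. -/
theorem no_solution_sector_all (hn : 3 ≤ n) (hA : -2 < A) (hB : -2 < B) (hp : 0 < p) (hq : 0 < q)
    (hsub : (n : ℝ) - 2 < ((n : ℝ) + A) / (p + 1) + ((n : ℝ) + B) / (q + 1))
    (hcond : ((n : ℝ) - 1) * (p * q - 1) < 2 * max (p * (q + 1)) (q * (p + 1))) :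
    ¬ ∃ u v : EuclideanSpace ℝ (Fin n) → ℝ, Continuous u ∧ Continuous v ∧
      (∀ x, 0 < u x ∧ 0 < v x) ∧
      ∀ x ≠ 0, ContDiffAt ℝ 2 u x ∧ ContDiffAt ℝ 2 v x ∧
        -Δ u x = ‖x‖ ^ A * v x ^ p ∧ -Δ v x = ‖x‖ ^ B * u x ^ q := by
  rcases lt_or_ge 1 (p * q) with h1 | h1
  · exact no_solution_sector hn hA hB hp hq h1 hsub hcond
  rintro ⟨u, v, hu, hv, hpos, h⟩
  refine not_sol_of_le_one hn hA hB hp hq h1 (u := u) (v := v) ⟨hu, hv, fun x => (hpos x).1,
    fun x => (hpos x).2, fun x hx => (h x (by simpa using hx)).1.contDiffWithinAt,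
    fun x hx => (h x (by simpa using hx)).2.1.contDiffWithinAt, fun x hx => ?_, fun x hx => ?_⟩
  · rw [← laplacian_eq_lap (h x hx).1, ← (h x hx).2.2.1, neg_neg]
  · rw [← laplacian_eq_lap (h x hx).2.1, ← (h x hx).2.2.2, neg_neg]

end Vale.Agent.P100.Sector
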