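import Vale.Agent.P100.Sector.Main

/-!
P100, the sector argument: the case without weights, in the shape used by the assembly of the
Lane–Emden conjecture.
-/

open scoped Laplacian

namespace Vale.Agent.P100.Sector

/-- The sector of the Lane–Emden system. -/
theorem no_solution_unweighted {n : ℕ} (hn : 3 ≤ n) {p q : ℝ} (hp : 0 < p) (hq : 0 < q)
    (hpq : 1 < p * q) (hsub : ((n : ℝ) - 2) / n < 1 / (p + 1) + 1 / (q + 1))
    (hsec : ((n : ℝ) - 1) * (p * q - 1) < 2 * max (p * (q + 1)) (q * (p + 1))) :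
    ¬ ∃ u v : EuclideanSpace ℝ (Fin n) → ℝ, Continuous u ∧ Continuous v ∧
      (∀ x, 0 < u x ∧ 0 < v x) ∧
      ∀ x ≠ 0, ContDiffAt ℝ 2 u x ∧ ContDiffAt ℝ 2 v x ∧
        -Δ u x = v x ^ p ∧ -Δ v x = u x ^ q := by
  rintro ⟨u, v, hu, hv, hpos, h⟩
  have hn3 : (3 : ℝ) ≤ n := by exact_mod_cast hn
  refine no_solution_sector hn (by norm_num : (-2 : ℝ) < 0) (by norm_num : (-2 : ℝ) < 0) hp hq hpq
    ?_ hsec ⟨u, v, hu, hv, hpos, fun x hx => ?_⟩
  · rw [div_lt_iff₀ (by linarith)] at hsub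
    rw [add_zero]
    calc ((n : ℝ) - 2) < (1 / (p + 1) + 1 / (q + 1)) * n := hsub
      _ = (n : ℝ) / (p + 1) + n / (q + 1) := by ring
  · simpa using h x hx

end Vale.Agent.P100.Sector
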