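import Vale.Agent.P100.Sector.Step
import Vale.Agent.P100.Sys.Log

/-!
P100, the sector argument: the iteration gives a universal bound on the energy of the unit ball, and
scaling makes the energy of a large ball smaller than that of the unit ball. Hence a subcritical
weighted system with `(n-1)(pq-1) < 2 max (p(q+1), q(p+1))` has no positive entire solution.
-/

open MeasureTheory Metric Set Filter Topology
open scoped Laplacian

namespace Vale.Agent.P100.Sector

open Vale.Agent.P100.Sys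

variable {n : ℕ} {A B p q : ℝ} {u v : EuclideanSpace ℝ (Fin n) → ℝ}

/-- A recursive inequality with linear forcing and contraction factor bounds the first term. -/
theorem first_le_of_rec {x : ℕ → ℝ} {c d γ X : ℝ} (hc : 0 ≤ c) (hd : 0 ≤ d) (hγ : 0 ≤ γ)
    (hγ1 : γ < 1) (hX : ∀ i, x i ≤ X) (hrec : ∀ i : ℕ, x i ≤ c + d * i + γ * x (i + 1)) :
    x 0 ≤ (c + γ * (d / (1 - γ))) / (1 - γ) := by
  have h1 : 0 < 1 - γ := by linarith
  set a : ℝ := d / (1 - γ) with ha
  set e : ℝ := (c + γ * a) / (1 - γ) with he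
  have ha0 : 0 ≤ a := div_nonneg hd h1.le
  have he0 : 0 ≤ e := div_nonneg (by positivity) h1.le
  have ea : d = a * (1 - γ) := by rw [ha, div_mul_cancel₀ _ h1.ne']
  have ee : c + γ * a = e * (1 - γ) := by rw [he, div_mul_cancel₀ _ h1.ne']
  set y : ℕ → ℝ := fun i => x i - (a * i + e) with hy
  have hstep : ∀ i, y i ≤ γ * y (i + 1) := fun i => by
    have := hrec i
    simp only [hy]
    push_cast
    rw [ea] at this
    linarith
  have hiter : ∀ m, y 0 ≤ γ ^ m * y m := fun m => by
    induction m with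
    | zero => simp
    | succ k ih =>
      refine ih.trans ((mul_le_mul_of_nonneg_left (hstep k) (pow_nonneg hγ k)).trans_eq ?_)
      ring
  have hb : ∀ m, y 0 ≤ γ ^ m * X := fun m =>
    (hiter m).trans (mul_le_mul_of_nonneg_left
      (by simp only [hy]; linarith [hX m, mul_nonneg ha0 (Nat.cast_nonneg m : (0:ℝ) ≤ m)])
      (pow_nonneg hγ m))
  have hlim : Tendsto (fun m => γ ^ m * X) atTop (𝓝 0) := by
    simpa using (tendsto_pow_atTop_nhds_zero_of_lt_one hγ hγ1).mul_const X
  have := ge_of_tendsto' hlim hb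
  simp only [hy, Nat.cast_zero, mul_zero, zero_add, sub_nonpos] at this
  exact this

theorem energy_mono (hn : 3 ≤ n) (hA : -2 < A) (hB : -2 < B) (hp : 0 < p) (hq : 0 < q)
    (h : Sol n A B p q u v) {r t : ℝ} (hrt : r ≤ t) :
    energy A B p q u v r ≤ energy A B p q u v t :=
  setIntegral_mono_set (integrableOn_dens hn hA hB hp hq h _)
    (Eventually.of_forall fun y => h.dens_nonneg y)
    (Eventually.of_forall fun _ hy => closedBall_subset_closedBall hrt hy)

/-- The energy of the unit ball is universally bounded. -/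
theorem exists_energy_bound (hn : 3 ≤ n) (hA : -2 < A) (hB : -2 < B) (hp : 0 < p) (hq : 0 < q)
    (hpq : 1 < p * q)
    (hsub : (n : ℝ) - 2 < ((n : ℝ) + A) / (p + 1) + ((n : ℝ) + B) / (q + 1))
    (hcond : ((n : ℝ) - 1) * (p * q - 1) < 2 * (p * (q + 1))) :
    ∃ C : ℝ, ∀ u v : EuclideanSpace ℝ (Fin n) → ℝ, Sol n A B p q u v →
      energy A B p q u v 1 ≤ C := by
  obtain ⟨C, γ, hC, hγ, hγ1, hstep⟩ := exists_step hn hA hB hp hq hpq hsub hcond
  set b : ℝ := ((2 : ℝ) ^ (n + 1)) ^ 2 with hb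
  have hb1 : 1 ≤ b := one_le_pow₀ (one_le_pow₀ (by norm_num))
  set c : ℝ := |Real.log C| + Real.log b with hc
  have hlb : 0 ≤ Real.log b := Real.log_nonneg hb1
  refine ⟨Real.exp ((c + γ * (Real.log b / (1 - γ))) / (1 - γ)), fun u v h => ?_⟩
  set G : ℝ → ℝ := fun r => 1 + energy A B p q u v r with hG
  have hG1 : ∀ r, 1 ≤ G r := fun r => le_add_of_nonneg_right (h.energy_nonneg r)
  set ρ : ℕ → ℝ := fun i => 2 - (1 / 2 : ℝ) ^ i with hρ
  have hρ1 : ∀ i, 1 ≤ ρ i := fun i => by
    have : (1 / 2 : ℝ) ^ i ≤ 1 := pow_le_one₀ (by norm_num) (by norm_num)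
    simp only [hρ]
    linarith
  have hρ2 : ∀ i, ρ i ≤ 2 := fun i => by
    have : 0 ≤ (1 / 2 : ℝ) ^ i := by positivity
    simp only [hρ]
    linarith
  have hρd : ∀ i, ρ (i + 1) - ρ i = (1 / 2 : ℝ) ^ (i + 1) := fun i => by
    simp only [hρ, pow_succ]
    ring
  have hlog : Real.log (G 1) ≤ (c + γ * (Real.log b / (1 - γ))) / (1 - γ) := by
    have key := first_le_of_rec (x := fun i => Real.log (G (ρ i))) (c := c) (d := Real.log b)
      (γ := γ) (X := Real.log (G 2)) (add_nonneg (abs_nonneg _) hlb) hlb hγ hγ1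
      (fun i => Real.log_le_log (by linarith [hG1 (ρ i)])
        (by simp only [hG]; linarith [energy_mono hn hA hB hp hq h (hρ2 i)])) fun i => ?_
    · have e : ρ 0 = 1 := by simp only [hρ, pow_zero]; norm_num
      rwa [e] at key
    · have hlt : ρ i < ρ (i + 1) := by
        have := hρd i
        have : 0 < (1 / 2 : ℝ) ^ (i + 1) := by positivity
        linarith
      have hs := hstep u v h (ρ i) (ρ (i + 1)) (hρ1 i) hlt (hρ2 _)
      have eb : ((ρ (i + 1) - ρ i)⁻¹ ^ (n + 1)) ^ 2 = b ^ (i + 1) := by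
        rw [hρd, hb, ← inv_pow, one_div, inv_inv, ← pow_mul, ← pow_mul, ← pow_mul, ← pow_mul]
        ring_nf
      rw [eb] at hs
      have hGp : 0 < G (ρ (i + 1)) := by linarith [hG1 (ρ (i + 1))]
      have hb0 : 0 < b := by linarith
      have hl := Real.log_le_log (by linarith [hG1 (ρ i)] : 0 < G (ρ i)) hs
      rw [Real.log_mul (by positivity) (Real.rpow_pos_of_pos hGp γ).ne',
        Real.log_mul hC.ne' (pow_pos hb0 _).ne', Real.log_pow, Real.log_rpow hGp] at hl
      push_cast at hl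
      have := le_abs_self (Real.log C)
      show Real.log (G (ρ i)) ≤ c + Real.log b * i + γ * Real.log (G (ρ (i + 1)))
      rw [hc]
      linarith
  have := (Real.log_le_iff_le_exp (by linarith [hG1 1])).1 hlog
  simp only [hG] at this
  linarith [h.energy_nonneg 1]

theorem pd_comp_smul (w : EuclideanSpace ℝ (Fin n) → ℝ) {R : ℝ} (hR : R ≠ 0)
    (x : EuclideanSpace ℝ (Fin n)) (i : Fin n) :
    pd i (fun y => w (R • y)) x = R * pd i w (R • x) := by
  have e : (fun y => w (R • y)) =
      w ∘ (ContinuousLinearEquiv.smulLeft (Units.mk0 R hR) :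
        EuclideanSpace ℝ (Fin n) ≃L[ℝ] EuclideanSpace ℝ (Fin n)) := rfl
  show fderiv ℝ (fun y => w (R • y)) x _ = _
  rw [e, ContinuousLinearEquiv.comp_right_fderiv]
  simp [pd, ContinuousLinearEquiv.smulLeft]

theorem lap_scale (w : EuclideanSpace ℝ (Fin n) → ℝ) {R : ℝ} (hR : R ≠ 0) (a : ℝ)
    (x : EuclideanSpace ℝ (Fin n)) :
    lap (fun y => a * w (R • y)) x = a * R ^ 2 * lap w (R • x) := by
  have hc : ∀ (f : EuclideanSpace ℝ (Fin n) → ℝ) (k : ℝ) (i : Fin n) (z : EuclideanSpace ℝ (Fin n)),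
      pd i (fun y => k * f y) z = k * pd i f z := fun f k i z => by
    show fderiv ℝ (k • f) z _ = _
    rw [fderiv_const_smul_field]
    rfl
  simp only [lap, Finset.mul_sum]
  refine Finset.sum_congr rfl fun i _ => ?_
  have e : pd i (fun y => a * w (R • y)) = fun y => a * R * pd i w (R • y) := funext fun y => by
    rw [hc, pd_comp_smul w hR]
    ring
  rw [e, hc, pd_comp_smul _ hR]
  ring

/-- The rescaled pair solves the same system. -/
theorem Sol.scale (h : Sol n A B p q u v) {R α β : ℝ} (hR : 0 < R) (ha : β * p = α + 2 + A)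
    (hb : α * q = β + 2 + B) :
    Sol n A B p q (fun x => R ^ α * u (R • x)) (fun x => R ^ β * v (R • x)) := by
  have hne : ∀ x : EuclideanSpace ℝ (Fin n), x ≠ 0 → R • x ≠ 0 := fun x hx =>
    smul_ne_zero hR.ne' hx
  have hmap : MapsTo (fun x : EuclideanSpace ℝ (Fin n) => R • x) {0}ᶜ {0}ᶜ := fun x hx => by
    simpa using hne x (by simpa using hx)
  refine ⟨continuous_const.mul (h.contu.comp (continuous_const_smul R)),
    continuous_const.mul (h.contv.comp (continuous_const_smul R)),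
    fun x => mul_pos (Real.rpow_pos_of_pos hR _) (h.posu _),
    fun x => mul_pos (Real.rpow_pos_of_pos hR _) (h.posv _),
    contDiffOn_const.mul (h.smoothu.comp (contDiff_const_smul R).contDiffOn hmap),
    contDiffOn_const.mul (h.smoothv.comp (contDiff_const_smul R).contDiffOn hmap),
    fun x hx => ?_, fun x hx => ?_⟩
  · rw [lap_scale u hR.ne', h.equ _ (hne x hx), norm_smul, Real.norm_eq_abs, abs_of_pos hR,
      Real.mul_rpow hR.le (norm_nonneg x),
      Real.mul_rpow (Real.rpow_nonneg hR.le _) (h.posv _).le, ← Real.rpow_mul hR.le, ha,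
      Real.rpow_add hR, Real.rpow_add hR, Real.rpow_two]
    ring
  · rw [lap_scale v hR.ne', h.eqv _ (hne x hx), norm_smul, Real.norm_eq_abs, abs_of_pos hR,
      Real.mul_rpow hR.le (norm_nonneg x),
      Real.mul_rpow (Real.rpow_nonneg hR.le _) (h.posu _).le, ← Real.rpow_mul hR.le, hb,
      Real.rpow_add hR, Real.rpow_add hR, Real.rpow_two]
    ring

theorem energy_scale (h : Sol n A B p q u v) {R α β : ℝ} (hR : 0 < R) (ha : β * p = α + 2 + A)
    (hb : α * q = β + 2 + B) :
    energy A B p q (fun x => R ^ α * u (R • x)) (fun x => R ^ β * v (R • x)) 1 =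
      R ^ (α + β + 2 - n) * energy A B p q u v R := by
  have e : ∀ x : EuclideanSpace ℝ (Fin n),
      dens A B p q (fun x => R ^ α * u (R • x)) (fun x => R ^ β * v (R • x)) x =
        R ^ (α + β + 2) * dens A B p q u v (R • x) := fun x => by
    have t1 : R ^ (α + β + 2) * R ^ A = (R ^ β) ^ (p + 1) := by
      rw [← Real.rpow_add hR, ← Real.rpow_mul hR.le]
      congr 1
      linarith
    have t2 : R ^ (α + β + 2) * R ^ B = (R ^ α) ^ (q + 1) := by
      rw [← Real.rpow_add hR, ← Real.rpow_mul hR.le]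
      congr 1
      linarith
    simp only [dens]
    rw [Real.mul_rpow (Real.rpow_nonneg hR.le _) (h.posv _).le,
      Real.mul_rpow (Real.rpow_nonneg hR.le _) (h.posu _).le, norm_smul, Real.norm_eq_abs,
      abs_of_pos hR, Real.mul_rpow hR.le (norm_nonneg x), Real.mul_rpow hR.le (norm_nonneg x),
      ← t1, ← t2]
    ring
  rw [energy, setIntegral_congr_fun measurableSet_closedBall (fun x _ => e x), integral_const_mul,
    Measure.setIntegral_comp_smul_of_pos _ _ _ hR, finrank_euclideanSpace_fin, smul_eq_mul,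
    _root_.smul_closedBall _ _ zero_le_one, smul_zero, Real.norm_eq_abs, abs_of_pos hR, mul_one,
    ← mul_assoc, Real.rpow_sub hR, Real.rpow_natCast, div_eq_mul_inv]
  rfl

theorem energy_pos (hn : 3 ≤ n) (hA : -2 < A) (hB : -2 < B) (hp : 0 < p) (hq : 0 < q)
    (h : Sol n A B p q u v) : 0 < energy A B p q u v 1 := by
  refine (setIntegral_pos_iff_support_of_nonneg_ae (Eventually.of_forall fun y => h.dens_nonneg y)
    (integrableOn_dens hn hA hB hp hq h 1)).2 ?_
  refine lt_of_lt_of_le ?_ (measure_mono (?_ : closedBall (0 : EuclideanSpace ℝ (Fin n)) 1 \ {0} ⊆ _))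
  · rw [measure_sdiff_null (volume_singleton_zero (by omega) 0)]
    exact measure_closedBall_pos volume 0 one_pos
  · intro y hy
    have hy0 : 0 < ‖y‖ := norm_pos_iff.2 (by simpa using hy.2)
    refine ⟨?_, hy.1⟩
    exact (add_pos (mul_pos (Real.rpow_pos_of_pos hy0 _) (Real.rpow_pos_of_pos (h.posv y) _))
      (mul_pos (Real.rpow_pos_of_pos hy0 _) (Real.rpow_pos_of_pos (h.posu y) _))).ne'

/-- A universal bound on the energy of the unit ball excludes solutions. -/
theorem not_sol_of_energy_bound (hn : 3 ≤ n) (hA : -2 < A) (hB : -2 < B) (hp : 0 < p) (hq : 0 < q)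
    (hpq : 1 < p * q)
    (hsub : (n : ℝ) - 2 < ((n : ℝ) + A) / (p + 1) + ((n : ℝ) + B) / (q + 1))
    {C : ℝ} (hC : ∀ u v : EuclideanSpace ℝ (Fin n) → ℝ, Sol n A B p q u v →
      energy A B p q u v 1 ≤ C) :
    ¬ Sol n A B p q u v := by
  intro h
  have hD : 0 < p * q - 1 := by linarith
  set α : ℝ := ((2 + A) + (2 + B) * p) / (p * q - 1) with hα
  set β : ℝ := ((2 + B) + (2 + A) * q) / (p * q - 1) with hβ
  have eα : α * (p * q - 1) = (2 + A) + (2 + B) * p := by rw [hα, div_mul_cancel₀ _ hD.ne']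
  have eβ : β * (p * q - 1) = (2 + B) + (2 + A) * q := by rw [hβ, div_mul_cancel₀ _ hD.ne']
  have ha : β * p = α + 2 + A := by
    refine mul_right_cancel₀ hD.ne' ?_
    linear_combination p * eβ - eα
  have hb : α * q = β + 2 + B := by
    refine mul_right_cancel₀ hD.ne' ?_
    linear_combination q * eα - eβ
  have hexp : 0 < α + β + 2 - n := by
    rw [div_add_div _ _ (by positivity) (by positivity), lt_div_iff₀ (by positivity)] at hsub
    have e : α + β + 2 - n = (((2 + A) + (2 + B) * p) + ((2 + B) + (2 + A) * q) -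
        ((n : ℝ) - 2) * (p * q - 1)) / (p * q - 1) := by
      rw [hα, hβ]
      field_simp
      ring
    rw [e]
    exact div_pos (by linarith) hD
  have he := energy_pos hn hA hB hp hq h
  set E : ℝ := energy A B p q u v 1 with hE
  have hCE : E ≤ C := hC u v h
  set K : ℝ := C / E + 1 with hK
  have hK1 : 1 ≤ K := le_add_of_nonneg_left (div_nonneg (by linarith) he.le)
  set R : ℝ := K ^ (1 / (α + β + 2 - n)) with hR
  have hR1 : 1 ≤ R := Real.one_le_rpow hK1 (one_div_nonneg.2 hexp.le)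
  have hbd := hC _ _ (h.scale (R := R) (by linarith) ha hb)
  rw [energy_scale h (by linarith) ha hb, hR, ← Real.rpow_mul (by linarith),
    one_div_mul_cancel hexp.ne', Real.rpow_one] at hbd
  have h1 := (mul_le_mul_of_nonneg_left (energy_mono hn hA hB hp hq h hR1)
    (by linarith : 0 ≤ K)).trans hbd
  rw [← hE, hK, add_mul, div_mul_cancel₀ _ he.ne'] at h1
  linarith

/-- No solution when the first branch of the sector condition holds. -/
theorem not_sol (hn : 3 ≤ n) (hA : -2 < A) (hB : -2 < B) (hp : 0 < p) (hq : 0 < q)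
    (hpq : 1 < p * q)
    (hsub : (n : ℝ) - 2 < ((n : ℝ) + A) / (p + 1) + ((n : ℝ) + B) / (q + 1))
    (hcond : ((n : ℝ) - 1) * (p * q - 1) < 2 * (p * (q + 1))) :
    ¬ Sol n A B p q u v :=
  let ⟨_, hC⟩ := exists_energy_bound hn hA hB hp hq hpq hsub hcond
  not_sol_of_energy_bound hn hA hB hp hq hpq hsub hC

/-- The sector, with weights. -/
theorem no_solution_sector (hn : 3 ≤ n) (hA : -2 < A) (hB : -2 < B) (hp : 0 < p) (hq : 0 < q)
    (hpq : 1 < p * q)
    (hsub : (n : ℝ) - 2 < ((n : ℝ) + A) / (p + 1) + ((n : ℝ) + B) / (q + 1))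
    (hcond : ((n : ℝ) - 1) * (p * q - 1) < 2 * max (p * (q + 1)) (q * (p + 1))) :
    ¬ ∃ u v : EuclideanSpace ℝ (Fin n) → ℝ, Continuous u ∧ Continuous v ∧
      (∀ x, 0 < u x ∧ 0 < v x) ∧
      ∀ x ≠ 0, ContDiffAt ℝ 2 u x ∧ ContDiffAt ℝ 2 v x ∧
        -Δ u x = ‖x‖ ^ A * v x ^ p ∧ -Δ v x = ‖x‖ ^ B * u x ^ q := by
  rintro ⟨u, v, hu, hv, hpos, h⟩
  have hs : Sol n A B p q u v := by
    refine ⟨hu, hv, fun x => (hpos x).1, fun x => (hpos x).2,
      fun x hx => (h x (by simpa using hx)).1.contDiffWithinAt,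
      fun x hx => (h x (by simpa using hx)).2.1.contDiffWithinAt, fun x hx => ?_, fun x hx => ?_⟩
    · rw [← laplacian_eq_lap (h x hx).1, ← (h x hx).2.2.1, neg_neg]
    · rw [← laplacian_eq_lap (h x hx).2.1, ← (h x hx).2.2.2, neg_neg]
  rcases le_total (p * (q + 1)) (q * (p + 1)) with hle | hle
  · rw [max_eq_right hle, mul_comm p q] at hcond
    exact not_sol hn hB hA hq hp (by linarith [mul_comm p q]) (by linarith) hcond hs.swap
  · rw [max_eq_left hle] at hcond
    exact not_sol hn hA hB hp hq hpq hsub hcond hs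

end Vale.Agent.P100.Sector
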