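import Vale.Agent.P100.Sector.Slab

/-!
P100, the sector argument: the slice inequality for potentials.
-/

open MeasureTheory Metric Set Filter Topology
open scoped ENNReal

namespace Vale.Agent.P100.Sector

variable {n : ℕ}

/-- The density of `g` weighted by `||y| - ρ|^(-θ)`. -/
noncomputable def sliceWt (θ : ℝ) (g : EuclideanSpace ℝ (Fin n) → ℝ) (ρ : ℝ) : ℝ≥0∞ :=
  ∫⁻ y, ENNReal.ofReal (g y * |‖y‖ - ρ| ^ (-θ))

/-- The potential of order `s`. -/
noncomputable def pot (s : ℝ) (f : EuclideanSpace ℝ (Fin n) → ℝ) (x : EuclideanSpace ℝ (Fin n)) :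
    ℝ≥0∞ :=
  ∫⁻ y, ENNReal.ofReal (f y * ‖x - y‖ ^ (-s))

theorem ae_norm_ne (hn : 1 ≤ n) (r : ℝ) : ∀ᵐ y : EuclideanSpace ℝ (Fin n), ‖y‖ ≠ r := by
  have : Nontrivial (EuclideanSpace ℝ (Fin n)) := by
    refine ⟨0, EuclideanSpace.single ⟨0, hn⟩ 1, fun h => ?_⟩
    have := congrArg norm h
    simp at this
  rw [ae_iff]
  simpa [Metric.sphere, dist_zero_right] using
    (Measure.addHaar_sphere (volume : Measure (EuclideanSpace ℝ (Fin n))) 0 r)

theorem volume_singleton_zero (hn : 1 ≤ n) (y : EuclideanSpace ℝ (Fin n)) :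
    volume ({y} : Set (EuclideanSpace ℝ (Fin n))) = 0 := by
  have : Nontrivial (EuclideanSpace ℝ (Fin n)) := by
    refine ⟨0, EuclideanSpace.single ⟨0, hn⟩ 1, fun h => ?_⟩
    have := congrArg norm h
    simp at this
  exact measure_singleton y

/-- A kernel below the dimension, on balls. -/
theorem exists_ball_kernel (hn : 1 ≤ n) {a : ℝ} (ha : a < n) :
    ∃ C : ℝ, 0 < C ∧ ∀ (y : EuclideanSpace ℝ (Fin n)) (R : ℝ), 0 < R →
      ∫⁻ x in closedBall y R, ENNReal.ofReal (‖x - y‖ ^ (-a)) ≤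
        ENNReal.ofReal (C * R ^ ((n : ℝ) - a)) := by
  obtain ⟨C, hC, h⟩ := exists_kernel (n := n) ha
  have hV := ballVol_pos n
  refine ⟨C * ballVol n, by positivity, fun y R hR => ?_⟩
  refine (h volume y (ballVol n) R hV.le hR (volume_singleton_zero hn y) fun r hr _ => ?_).trans_eq
    rfl
  rw [volume_closedBall_eq y hr.le, Real.rpow_natCast, mul_comm]

/-- A kernel below the dimension of a sphere, on slabs. -/
theorem exists_slab_kernel (hn : 2 ≤ n) {a : ℝ} (ha : a < (n : ℝ) - 1) :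
    ∃ C : ℝ, 0 < C ∧ ∀ ρ δ : ℝ, 1 / 2 ≤ ρ → ρ ≤ 3 → 0 < δ → δ ≤ 1 / 24 →
      ∀ y ∈ closedBall (0 : EuclideanSpace ℝ (Fin n)) 4,
        ∫⁻ x in slab n ρ δ, ENNReal.ofReal (‖x - y‖ ^ (-a)) ≤ ENNReal.ofReal (C * δ) := by
  obtain ⟨C, hC, h⟩ := exists_kernel (n := n) ha
  obtain ⟨C', hC', hs⟩ := exists_slab_ball (n := n) (by omega)
  refine ⟨C * C' * 8 ^ ((n : ℝ) - 1 - a), by positivity, fun ρ δ h1 h2 hδ hδ' y hy => ?_⟩
  have hsub : slab n ρ δ ⊆ closedBall y 8 := fun x hx => by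
    have hx4 := slab_subset_closedBall h2 (by linarith) hx
    rw [mem_closedBall] at hx4 hy ⊢
    linarith [dist_triangle x 0 y, dist_comm y 0]
  set μ := (volume : Measure (EuclideanSpace ℝ (Fin n))).restrict (slab n ρ δ) with hμ
  have h0 := h μ y (C' * δ) 8 (by positivity) (by norm_num)
    (le_antisymm ((Measure.restrict_apply_le _ _).trans (volume_singleton_zero (by omega) y).le)
      zero_le) fun r hr _ => ?_
  · rw [hμ, Measure.restrict_restrict measurableSet_closedBall, inter_eq_right.2 hsub] at h0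
    refine h0.trans_eq ?_
    congr 1
    ring
  · rw [hμ, Measure.restrict_apply measurableSet_closedBall, inter_comm]
    refine (hs ρ δ h1 h2 hδ hδ' y r hr).trans_eq ?_
    rw [show ((n : ℝ) - 1) = ((n - 1 : ℕ) : ℝ) by rw [Nat.cast_sub (by omega)]; simp,
      Real.rpow_natCast]

/-- A kernel between the two dimensions, on slabs: it decays with the distance to the sphere. -/
theorem exists_slab_kernel_dist (hn : 2 ≤ n) {a θ : ℝ} (ha : a < (n : ℝ) - 1) (hθ : 0 < θ)
    (hθ1 : θ < 1) :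
    ∃ C : ℝ, 0 < C ∧ ∀ ρ δ : ℝ, 1 / 2 ≤ ρ → ρ ≤ 3 → 0 < δ → δ ≤ 1 / 24 →
      ∀ y ∈ closedBall (0 : EuclideanSpace ℝ (Fin n)) 4, ‖y‖ ≠ ρ →
        ∫⁻ x in slab n ρ δ, ENNReal.ofReal (‖x - y‖ ^ (-(a + θ))) ≤
          ENNReal.ofReal (C * δ * |‖y‖ - ρ| ^ (-θ)) := by
  obtain ⟨C, hC, h⟩ := exists_slab_kernel hn ha
  obtain ⟨D, hD, hb⟩ := exists_ball_kernel (n := n) (by omega) (a := a + θ) (by linarith)
  refine ⟨2 * (C + D) * 2 ^ θ, by positivity, fun ρ δ h1 h2 hδ hδ' y hy hne => ?_⟩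
  set d := |‖y‖ - ρ| with hd
  have hd0 : 0 < d := abs_pos.2 (sub_ne_zero.2 hne)
  have hdx : ∀ x ∈ slab n ρ δ, d - δ ≤ ‖x - y‖ := fun x hx => by
    have e1 := abs_norm_sub_norm_le x y
    have e2 := abs_sub_le ‖y‖ ‖x‖ ρ
    rw [abs_sub_comm ‖y‖ ‖x‖] at e2
    have e3 : |‖x‖ - ρ| ≤ δ := hx
    linarith
  have hh : (d / 2) ^ (-θ) = 2 ^ θ * d ^ (-θ) := by
    rw [Real.div_rpow hd0.le two_pos.le, Real.rpow_neg two_pos.le]
    field_simp
  have hsplit : ∀ (x : EuclideanSpace ℝ (Fin n)) (c : ℝ), 0 < c → c ≤ ‖x - y‖ →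
      ‖x - y‖ ^ (-(a + θ)) ≤ c ^ (-θ) * ‖x - y‖ ^ (-a) := fun x c hc hle => by
    rw [show -(a + θ) = -θ + -a by ring, Real.rpow_add (hc.trans_le hle)]
    exact mul_le_mul_of_nonneg_right (Real.rpow_le_rpow_of_nonpos hc hle (by linarith))
      (Real.rpow_nonneg (norm_nonneg _) _)
  rcases le_total (2 * δ) d with hfar | hnear
  · calc ∫⁻ x in slab n ρ δ, ENNReal.ofReal (‖x - y‖ ^ (-(a + θ)))
        ≤ ∫⁻ x in slab n ρ δ,
            ENNReal.ofReal ((d / 2) ^ (-θ)) * ENNReal.ofReal (‖x - y‖ ^ (-a)) := by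
          refine setLIntegral_mono (by fun_prop) fun x hx => ?_
          rw [← ENNReal.ofReal_mul (by positivity)]
          exact ENNReal.ofReal_le_ofReal (hsplit x _ (half_pos hd0) (by linarith [hdx x hx]))
      _ = ENNReal.ofReal ((d / 2) ^ (-θ)) *
            ∫⁻ x in slab n ρ δ, ENNReal.ofReal (‖x - y‖ ^ (-a)) := lintegral_const_mul _ (by fun_prop)
      _ ≤ ENNReal.ofReal ((d / 2) ^ (-θ)) * ENNReal.ofReal (C * δ) :=
          mul_le_mul' le_rfl (h ρ δ h1 h2 hδ hδ' y hy)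
      _ ≤ _ := by
          rw [← ENNReal.ofReal_mul (by positivity)]
          refine ENNReal.ofReal_le_ofReal ?_
          rw [hh]
          have : 0 ≤ (2 * (C + D) - C) * (δ * (2 ^ θ * d ^ (-θ))) :=
            mul_nonneg (by linarith) (by positivity)
          linarith
  · have hpow : δ ^ (-θ) ≤ 2 ^ θ * d ^ (-θ) := by
      rw [← hh]
      exact Real.rpow_le_rpow_of_nonpos (half_pos hd0) (by linarith) (by linarith)
    have hball : δ ^ ((n : ℝ) - (a + θ)) ≤ δ * δ ^ (-θ) := by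
      conv_rhs => rw [show δ * δ ^ (-θ) = δ ^ (1 - θ) by
        rw [sub_eq_add_neg, Real.rpow_add hδ, Real.rpow_one]]
      exact Real.rpow_le_rpow_of_exponent_ge hδ (by linarith) (by linarith)
    calc ∫⁻ x in slab n ρ δ, ENNReal.ofReal (‖x - y‖ ^ (-(a + θ)))
        ≤ ∫⁻ x in slab n ρ δ, (ENNReal.ofReal (δ ^ (-θ)) * ENNReal.ofReal (‖x - y‖ ^ (-a)) +
            (closedBall y δ).indicator (fun z => ENNReal.ofReal (‖z - y‖ ^ (-(a + θ)))) x) := by
          have hk : Measurable fun z : EuclideanSpace ℝ (Fin n) =>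
              ENNReal.ofReal (‖z - y‖ ^ (-(a + θ))) := by fun_prop
          refine setLIntegral_mono (Measurable.add (by fun_prop)
            (hk.indicator measurableSet_closedBall)) fun x _ => ?_
          by_cases hx : x ∈ closedBall y δ
          · rw [indicator_of_mem hx]; exact le_add_self
          · rw [indicator_of_notMem hx, add_zero, ← ENNReal.ofReal_mul (by positivity)]
            rw [mem_closedBall, dist_eq_norm, not_le] at hx
            exact ENNReal.ofReal_le_ofReal (hsplit x δ hδ hx.le)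
      _ = ENNReal.ofReal (δ ^ (-θ)) * (∫⁻ x in slab n ρ δ, ENNReal.ofReal (‖x - y‖ ^ (-a))) +
            ∫⁻ x in slab n ρ δ,
              (closedBall y δ).indicator (fun z => ENNReal.ofReal (‖z - y‖ ^ (-(a + θ)))) x := by
          rw [lintegral_add_left (by fun_prop), lintegral_const_mul _ (by fun_prop)]
      _ ≤ ENNReal.ofReal (δ ^ (-θ)) * ENNReal.ofReal (C * δ) +
            ENNReal.ofReal (D * δ ^ ((n : ℝ) - (a + θ))) := by
          refine add_le_add (mul_le_mul' le_rfl (h ρ δ h1 h2 hδ hδ' y hy)) ?_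
          refine (setLIntegral_le_lintegral _ _).trans ?_
          rw [lintegral_indicator measurableSet_closedBall]
          exact hb y δ hδ
      _ ≤ _ := by
          rw [← ENNReal.ofReal_mul (by positivity), ← ENNReal.ofReal_add (by positivity)
            (by positivity)]
          refine ENNReal.ofReal_le_ofReal ?_
          have k1 := mul_le_mul_of_nonneg_left hpow (by positivity : (0:ℝ) ≤ (C + D) * δ)
          have k2 := mul_le_mul_of_nonneg_left hball hD.le
          have : 0 ≤ (C + D) * δ * (2 ^ θ * d ^ (-θ)) := by positivity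
          linarith

/-- The slice inequality: potentials in `L^b` of a slab. -/
theorem exists_slice (hn : 2 ≤ n) {s m b θ : ℝ} (hm : 0 < m) (hm1 : m < 1)
    (hb : 0 < b) (hbm : 1 / b ≤ m) (hθ : 0 < θ) (hθ1 : θ < 1)
    (hcond : s < n - (n - θ) * m + (n - 1) / b) :
    ∃ C : ℝ, 0 < C ∧ ∀ (ρ δ M : ℝ), 1 / 2 ≤ ρ → ρ ≤ 3 → 0 < δ → δ ≤ 1 / 24 → 0 ≤ M →
      ∀ f : EuclideanSpace ℝ (Fin n) → ℝ, Continuous f → (∀ y, 0 ≤ f y) →
        (∀ y ∉ closedBall (0 : EuclideanSpace ℝ (Fin n)) 4, f y = 0) →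
        (∀ ρ', |ρ' - ρ| ≤ δ → sliceWt θ (fun y => f y ^ (1 / m)) ρ' ≤ ENNReal.ofReal M) →
        ∫⁻ x in slab n ρ δ, pot s f x ^ b ≤ ENNReal.ofReal (C * δ * M ^ (b * m)) := by
  set R₀ : ℝ := (n : ℝ) - (n - θ) * m - s + (n - 1) / b with hR₀
  have hR0 : 0 < R₀ := by linarith
  set a₀ : ℝ := (n : ℝ) - 1 - min (1 / 2) (R₀ * b / 2) with ha₀
  have hmin : 0 < min (1 / 2 : ℝ) (R₀ * b / 2) := lt_min (by norm_num) (by positivity)
  have ha₀1 : a₀ < (n : ℝ) - 1 := by linarith
  set a : ℝ := a₀ + θ with ha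
  set c₁ : ℝ := 1 / b with hc₁
  set c₂ : ℝ := m - 1 / b with hc₂
  set c₃ : ℝ := 1 - m with hc₃
  set σ : ℝ := s - a * c₁ - θ * c₂ with hσ
  have hσn : σ / c₃ < n := by
    rw [div_lt_iff₀ (by linarith)]
    have h1 : ((n : ℝ) - 1 - a₀) / b ≤ R₀ / 2 := by
      rw [div_le_iff₀ hb]
      linarith [min_le_right (1 / 2 : ℝ) (R₀ * b / 2)]
    have h2 : ((n : ℝ) - 1 - a₀) / b = ((n : ℝ) - 1) / b - a₀ * c₁ := by
      rw [hc₁]; ring
    have h3 : σ = s - a₀ * c₁ - θ * m := by rw [hσ, hc₂, hc₁, ha]; ring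
    have h4 : (n : ℝ) * c₃ = n - n * m := by rw [hc₃]; ring
    have h5 : R₀ = (n : ℝ) - n * m + θ * m - s + ((n : ℝ) - 1) / b := by rw [hR₀]; ring
    linarith
  obtain ⟨C₁, hC₁, hK⟩ := exists_slab_kernel_dist hn ha₀1 hθ hθ1
  obtain ⟨C₃, hC₃, hK₃⟩ := exists_ball_kernel (n := n) (by omega) hσn
  set I₃ : ℝ := C₃ * 8 ^ ((n : ℝ) - σ / c₃) with hI₃
  refine ⟨C₁ * I₃ ^ (c₃ * b), by positivity, fun ρ δ M h1 h2 hδ hδ' hM f hfc hf0 hfs hwt => ?_⟩
  set A : EuclideanSpace ℝ (Fin n) → EuclideanSpace ℝ (Fin n) → ℝ≥0∞ := fun x y =>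
    ENNReal.ofReal (f y ^ (1 / m) * ‖x - y‖ ^ (-a)) with hA
  have hfm : Measurable fun y => f y ^ (1 / m) :=
    (hfc.rpow_const fun _ => Or.inr (by positivity)).measurable
  have hAm : Measurable (Function.uncurry A) := by
    refine ENNReal.measurable_ofReal.comp (((hfm.comp measurable_snd)).mul ?_)
    fun_prop
  have hpt : ∀ x ∈ slab n ρ δ, pot s f x ^ b ≤
      (∫⁻ y, A x y) * ENNReal.ofReal (M ^ (c₂ * b) * I₃ ^ (c₃ * b)) := by
    intro x hx
    set B : EuclideanSpace ℝ (Fin n) → ℝ≥0∞ := fun y =>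
      ENNReal.ofReal (f y ^ (1 / m) * |‖y‖ - ‖x‖| ^ (-θ)) with hB
    set D : EuclideanSpace ℝ (Fin n) → ℝ≥0∞ := (closedBall x 8).indicator fun y =>
      ENNReal.ofReal (‖y - x‖ ^ (-(σ / c₃))) with hD
    have hx4 : ‖x‖ ≤ 4 := mem_closedBall_zero_iff.1 (slab_subset_closedBall h2 (by linarith) hx)
    have hBm : Measurable B := ENNReal.measurable_ofReal.comp (hfm.mul (by fun_prop))
    have hDm : Measurable D := (ENNReal.measurable_ofReal.comp (by fun_prop)).indicator
      measurableSet_closedBall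
    have hle : pot s f x ≤ ∫⁻ y, A x y ^ c₁ * B y ^ c₂ * D y ^ c₃ := by
      refine lintegral_mono_ae ?_
      filter_upwards [ae_norm_ne (n := n) (by omega) ‖x‖] with y hy
      rcases (hf0 y).eq_or_lt with h0 | hpos
      · simp [← h0]
      have hy4 : y ∈ closedBall (0 : EuclideanSpace ℝ (Fin n)) 4 := by
        by_contra h
        exact hpos.ne' (hfs y h)
      rw [mem_closedBall_zero_iff] at hy4
      have hy8 : y ∈ closedBall x 8 := by
        rw [mem_closedBall, dist_eq_norm]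
        linarith [norm_sub_le y x]
      have hz : 0 < ‖x - y‖ := norm_pos_iff.2 (sub_ne_zero.2 fun h => hy (by rw [h]))
      have hd : 0 < |‖y‖ - ‖x‖| := abs_pos.2 (sub_ne_zero.2 hy)
      have hdz : |‖y‖ - ‖x‖| ≤ ‖x - y‖ := by rw [abs_sub_comm]; exact abs_norm_sub_norm_le x y
      rw [hA, hB, hD]
      simp only
      rw [indicator_of_mem hy8, norm_sub_rev y x]
      simp only [ENNReal.ofReal_rpow_of_pos (mul_pos (Real.rpow_pos_of_pos hpos _)
          (Real.rpow_pos_of_pos hz _)),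
        ENNReal.ofReal_rpow_of_pos (mul_pos (Real.rpow_pos_of_pos hpos _)
          (Real.rpow_pos_of_pos hd _)),
        ENNReal.ofReal_rpow_of_pos (Real.rpow_pos_of_pos hz _)]
      rw [← ENNReal.ofReal_mul (by positivity), ← ENNReal.ofReal_mul (by positivity)]
      refine ENNReal.ofReal_le_ofReal ?_
      rw [Real.mul_rpow (by positivity) (by positivity), Real.mul_rpow (by positivity) (by positivity),
        ← Real.rpow_mul hpos.le, ← Real.rpow_mul hpos.le, ← Real.rpow_mul hz.le,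
        ← Real.rpow_mul hd.le, ← Real.rpow_mul hz.le]
      have ef : f y ^ (1 / m * c₁) * f y ^ (1 / m * c₂) = f y := by
        rw [← Real.rpow_add hpos, ← mul_add, show c₁ + c₂ = m by rw [hc₂, hc₁]; ring,
          one_div_mul_cancel hm.ne', Real.rpow_one]
      have ed : ‖x - y‖ ^ (-θ * c₂) ≤ |‖y‖ - ‖x‖| ^ (-θ * c₂) := by
        refine Real.rpow_le_rpow_of_nonpos hd hdz ?_
        rw [neg_mul]
        exact neg_nonpos.2 (mul_nonneg hθ.le (by linarith))
      have ez : ‖x - y‖ ^ (-a * c₁) * ‖x - y‖ ^ (-θ * c₂) * ‖x - y‖ ^ (-(σ / c₃) * c₃) =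
          ‖x - y‖ ^ (-s) := by
        rw [← Real.rpow_add hz, ← Real.rpow_add hz]
        congr 1
        rw [neg_mul (σ / c₃), div_mul_cancel₀ _ (by linarith : c₃ ≠ 0), hσ]
        ring
      calc f y * ‖x - y‖ ^ (-s)
          = (f y ^ (1 / m * c₁) * ‖x - y‖ ^ (-a * c₁)) *
              (f y ^ (1 / m * c₂) * ‖x - y‖ ^ (-θ * c₂)) * ‖x - y‖ ^ (-(σ / c₃) * c₃) := by
            rw [← ez]
            nth_rewrite 1 [← ef]
            ring
        _ ≤ _ := by gcongr
    have hol := ENNReal.lintegral_prod_norm_pow_le (μ := volume) (Finset.univ : Finset (Fin 3))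
      (f := fun j => ![fun y => A x y, B, D] j) (fun j _ => by
        fin_cases j
        exacts [(hAm.comp measurable_prodMk_left).aemeasurable, hBm.aemeasurable, hDm.aemeasurable])
      (p := ![c₁, c₂, c₃]) (by simp [Fin.sum_univ_three, hc₂, hc₃, hc₁])
      (fun j _ => by
        fin_cases j
        exacts [(by positivity : (0:ℝ) ≤ 1 / b), sub_nonneg.2 hbm, (by linarith : (0:ℝ) ≤ 1 - m)])
    simp only [Fin.prod_univ_three, Matrix.cons_val_zero, Matrix.cons_val_one, Matrix.cons_val_two,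
      Matrix.head_cons, Matrix.tail_cons] at hol
    refine (ENNReal.rpow_le_rpow (hle.trans hol) hb.le).trans ?_
    rw [ENNReal.mul_rpow_of_nonneg _ _ hb.le, ENNReal.mul_rpow_of_nonneg _ _ hb.le,
      ← ENNReal.rpow_mul, ← ENNReal.rpow_mul, ← ENNReal.rpow_mul,
      show c₁ * b = 1 by rw [hc₁]; field_simp, ENNReal.rpow_one, mul_assoc]
    refine mul_le_mul' le_rfl ?_
    rw [ENNReal.ofReal_mul (by positivity)]
    refine mul_le_mul' ?_ ?_
    · rw [← ENNReal.ofReal_rpow_of_nonneg hM (mul_nonneg (sub_nonneg.2 hbm) hb.le)]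
      exact ENNReal.rpow_le_rpow (hwt _ hx) (mul_nonneg (sub_nonneg.2 hbm) hb.le)
    · rw [← ENNReal.ofReal_rpow_of_nonneg (by positivity) (mul_nonneg (by linarith) hb.le)]
      refine ENNReal.rpow_le_rpow ?_ (mul_nonneg (by linarith) hb.le)
      rw [hD, lintegral_indicator measurableSet_closedBall]
      exact hK₃ x 8 (by norm_num)
  have hAi : Measurable fun x => ∫⁻ y, A x y := hAm.lintegral_prod_right'
  calc ∫⁻ x in slab n ρ δ, pot s f x ^ b
      ≤ ∫⁻ x in slab n ρ δ, (∫⁻ y, A x y) * ENNReal.ofReal (M ^ (c₂ * b) * I₃ ^ (c₃ * b)) :=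
        setLIntegral_mono (hAi.mul_const _) hpt
    _ = (∫⁻ y, ∫⁻ x in slab n ρ δ, A x y) * ENNReal.ofReal (M ^ (c₂ * b) * I₃ ^ (c₃ * b)) := by
        rw [lintegral_mul_const _ hAi, lintegral_lintegral_swap hAm.aemeasurable]
    _ ≤ (ENNReal.ofReal (C₁ * δ) * ENNReal.ofReal M) *
          ENNReal.ofReal (M ^ (c₂ * b) * I₃ ^ (c₃ * b)) := by
        refine mul_le_mul' ?_ le_rfl
        refine le_trans ?_ (mul_le_mul' le_rfl (hwt ρ (by simpa using hδ.le)))
        have hBm : Measurable fun y : EuclideanSpace ℝ (Fin n) =>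
            ENNReal.ofReal (f y ^ (1 / m) * |‖y‖ - ρ| ^ (-θ)) := by fun_prop
        rw [sliceWt, ← lintegral_const_mul _ hBm]
        refine lintegral_mono_ae ?_
        filter_upwards [ae_norm_ne (n := n) (by omega) ρ] with y hy
        by_cases hy4 : y ∈ closedBall (0 : EuclideanSpace ℝ (Fin n)) 4
        · calc ∫⁻ x in slab n ρ δ, A x y
              = ∫⁻ x in slab n ρ δ,
                  ENNReal.ofReal (f y ^ (1 / m)) * ENNReal.ofReal (‖x - y‖ ^ (-a)) := by
                simp only [hA, ENNReal.ofReal_mul (Real.rpow_nonneg (hf0 y) _)]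
            _ ≤ ENNReal.ofReal (f y ^ (1 / m)) *
                  ENNReal.ofReal (C₁ * δ * |‖y‖ - ρ| ^ (-θ)) := by
                rw [lintegral_const_mul _ (by fun_prop)]
                exact mul_le_mul' le_rfl (hK ρ δ h1 h2 hδ hδ' y hy4 hy)
            _ = _ := by
                rw [← ENNReal.ofReal_mul (Real.rpow_nonneg (hf0 y) _),
                  ← ENNReal.ofReal_mul (by positivity)]
                congr 1
                ring
        · simp [hA, hfs y hy4, Real.zero_rpow (inv_ne_zero hm.ne')]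
    _ = _ := by
        rw [← ENNReal.ofReal_mul (by positivity), ← ENNReal.ofReal_mul (by positivity)]
        congr 1
        rw [show b * m = 1 + c₂ * b by rw [hc₂]; field_simp; ring,
          Real.rpow_add' hM (by rw [hc₂]; have := mul_pos hb hm; field_simp; linarith),
          Real.rpow_one]
        ring

end Vale.Agent.P100.Sector
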