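import Vale.Agent.P100.Cmp.Weak
import Vale.Agent.P100.Wt.Radial
import Vale.Agent.P100.Sector.Slice

/-!
P100, the sector argument: solutions, their energy and the boundary density.
-/

open MeasureTheory Metric Set Filter Topology

namespace Vale.Agent.P100.Sector

open Vale.Agent.P100.Sys

variable {n : ℕ}

/-- A positive entire solution of the weighted system. -/
structure Sol (n : ℕ) (A B p q : ℝ) (u v : EuclideanSpace ℝ (Fin n) → ℝ) : Prop where
  contu : Continuous u
  contv : Continuous v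
  posu : ∀ x, 0 < u x
  posv : ∀ x, 0 < v x
  smoothu : ContDiffOn ℝ 2 u {0}ᶜ
  smoothv : ContDiffOn ℝ 2 v {0}ᶜ
  equ : ∀ x ≠ 0, lap u x = -(‖x‖ ^ A * v x ^ p)
  eqv : ∀ x ≠ 0, lap v x = -(‖x‖ ^ B * u x ^ q)

theorem Sol.swap {A B p q : ℝ} {u v : EuclideanSpace ℝ (Fin n) → ℝ} (h : Sol n A B p q u v) :
    Sol n B A q p v u :=
  ⟨h.contv, h.contu, h.posv, h.posu, h.smoothv, h.smoothu, h.eqv, h.equ⟩

/-- The sum of the absolute values of the partial derivatives. -/
noncomputable def gradAbs (w : EuclideanSpace ℝ (Fin n) → ℝ) (x : EuclideanSpace ℝ (Fin n)) : ℝ :=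
  ∑ i, |pd i w x|

/-- The energy density. -/
noncomputable def dens (A B p q : ℝ) (u v : EuclideanSpace ℝ (Fin n) → ℝ)
    (x : EuclideanSpace ℝ (Fin n)) : ℝ :=
  ‖x‖ ^ A * v x ^ (p + 1) + ‖x‖ ^ B * u x ^ (q + 1)

/-- The energy of a ball. -/
noncomputable def energy (A B p q : ℝ) (u v : EuclideanSpace ℝ (Fin n) → ℝ) (r : ℝ) : ℝ :=
  ∫ x in closedBall 0 r, dens A B p q u v x

/-- The boundary density of the Pohozaev identity. -/
noncomputable def bdry (A B p q : ℝ) (u v : EuclideanSpace ℝ (Fin n) → ℝ)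
    (x : EuclideanSpace ℝ (Fin n)) : ℝ :=
  gradAbs u x * gradAbs v x + u x * gradAbs v x + v x * gradAbs u x + dens A B p q u v x

end Vale.Agent.P100.Sector
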