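import Vale.Agent.P100.Sector.Slice

/-!
P100, the sector argument: the exponents of the energy inequality.
-/

namespace Vale.Agent.P100.Sector

/-- The integrability exponents of the two nonlinearities and the slicing parameter. -/
theorem exists_exponents {n : ℕ} (hn : 3 ≤ n) {p q : ℝ} (hp : 0 < p) (hq : 0 < q) (hpq : 1 < p * q)
    (hcond : ((n : ℝ) - 1) * (p * q - 1) < 2 * (p * (q + 1))) :
    ∃ m₁ m₂ D θ : ℝ, 0 < θ ∧ θ < 1 ∧ 0 < m₁ ∧ m₁ < 1 ∧ 0 < m₂ ∧ m₂ < 1 ∧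
      m₂ = q / (q + 1) ∧ D = m₁ + m₂ - 1 ∧ 0 < D ∧ 0 < m₁ - D / 2 ∧ 0 < m₂ - D / 2 ∧
      (1 / m₁ - 1) * p ≤ 1 ∧ (1 - m₁) * p + m₂ < 1 ∧
      (n : ℝ) - 1 < n - (n - θ) * m₁ + (n - 1) * (m₁ - D / 2) ∧
      (n : ℝ) - 1 < n - (n - θ) * m₂ + (n - 1) * (m₂ - D / 2) ∧
      (n : ℝ) - 2 < n - (n - θ) * m₁ + (n - 1) * (1 - m₂) ∧
      (n : ℝ) - 2 < n - (n - θ) * m₂ + (n - 1) * (1 - m₁) := by
  have hn3 : (3 : ℝ) ≤ n := by exact_mod_cast hn
  set P : ℝ := p * (q + 1) with hP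
  have hP1 : 1 < P := by rw [hP]; linarith [mul_comm p q]
  set ε : ℝ := (2 * P - ((n : ℝ) - 1) * (p * q - 1)) / (2 * ((n : ℝ) - 1)) with hε
  have hε0 : 0 < ε := div_pos (by linarith) (by linarith)
  set τ : ℝ := max (1 / 2) (1 - ε) with hτ
  have hτ1 : τ < 1 := max_lt (by norm_num) (by linarith)
  have hτ0 : 0 < τ := lt_of_lt_of_le (by norm_num) (le_max_left _ _)
  set D : ℝ := (p * q - τ) / P with hD
  have hP0 : 0 < P := by linarith
  have hD0 : 0 < D := div_pos (by linarith) hP0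
  have hg : 0 < 1 - ((n : ℝ) - 1) * D / 2 := by
    have h1 : ((n : ℝ) - 1) * (p * q - τ) ≤ ((n : ℝ) - 1) * (p * q - (1 - ε)) :=
      mul_le_mul_of_nonneg_left (by linarith [le_max_right (1 / 2 : ℝ) (1 - ε)]) (by linarith)
    have h2 : ((n : ℝ) - 1) * ε = (2 * P - ((n : ℝ) - 1) * (p * q - 1)) / 2 := by
      have hne : (n : ℝ) - 1 ≠ 0 := ne_of_gt (by linarith)
      rw [hε]; field_simp
    have h3 : ((n : ℝ) - 1) * (p * q - τ) < 2 * P := by linarith
    have h4 : ((n : ℝ) - 1) * D < 2 := by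
      rw [hD, ← mul_div_assoc, div_lt_iff₀ hP0]
      linarith
    linarith
  set g : ℝ := 1 - ((n : ℝ) - 1) * D / 2 with hgdef
  set m₁ : ℝ := 1 - τ / P with hm₁
  set m₂ : ℝ := q / (q + 1) with hm₂
  have hτP : τ / P < 1 := (div_lt_one hP0).2 (by linarith)
  have hτP0 : 0 < τ / P := div_pos hτ0 hP0
  have hm10 : 0 < m₁ := by linarith
  have hm11 : m₁ < 1 := by linarith
  have hm20 : 0 < m₂ := div_pos hq (by linarith)
  have hm21 : m₂ < 1 := (div_lt_one (by linarith)).2 (by linarith)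
  have hDm : D = m₁ + m₂ - 1 := by
    rw [hD, hm₁, hm₂, hP]
    field_simp
    ring
  set s : ℝ := min (1 / 2) (g / 2) with hs
  have hs0 : 0 < s := lt_min (by norm_num) (by linarith)
  have hs1 : s ≤ g / 2 := min_le_right _ _
  have a1 : s * m₁ < g := lt_of_le_of_lt ((mul_le_of_le_one_right hs0.le hm11.le).trans hs1) (by linarith)
  have a2 : s * m₂ < g := lt_of_le_of_lt ((mul_le_of_le_one_right hs0.le hm21.le).trans hs1) (by linarith)
  refine ⟨m₁, m₂, D, 1 - s, by linarith [min_le_left (1 / 2 : ℝ) (g / 2)], by linarith, hm10, hm11,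
    hm20, hm21, rfl, hDm, hD0, by linarith, by linarith, ?_, ?_, by linarith, by linarith,
    ?_, ?_⟩
  · have h : (1 - m₁) * p ≤ m₁ := by
      have e : (τ / P) * (p + 1) ≤ 1 := by
        rw [div_mul_eq_mul_div, div_le_one hP0, hP]
        have := mul_le_mul_of_nonneg_right hτ1.le (by linarith : (0:ℝ) ≤ p + 1)
        linarith
      have e' : 1 - m₁ = τ / P := by rw [hm₁]; ring
      rw [e']
      linarith
    rw [div_sub_one hm10.ne', div_mul_eq_mul_div, div_le_one hm10]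
    exact h
  · have e : (1 - m₁) * p = τ / (q + 1) := by
      rw [hm₁, hP]
      field_simp
      ring
    rw [e, hm₂, ← add_div, div_lt_one (by linarith)]
    linarith
  · have e : ((n : ℝ) - 1) * D = ((n : ℝ) - 1) * (m₁ + m₂ - 1) := by rw [hDm]
    linarith
  · have e : ((n : ℝ) - 1) * D = ((n : ℝ) - 1) * (m₁ + m₂ - 1) := by rw [hDm]
    linarith

end Vale.Agent.P100.Sector
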