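import Vale.Agent.P100.Sector.Slice

/-!
P100, the sector argument: Lebesgue norms on a slab of potentials and of products.
-/

open MeasureTheory Metric Set Filter Topology
open scoped ENNReal

namespace Vale.Agent.P100.Sector

variable {n : ℕ}

/-- The `L^b` norm on a slab. -/
noncomputable def slabNorm (n : ℕ) (ρ δ b : ℝ) (W : EuclideanSpace ℝ (Fin n) → ℝ≥0∞) : ℝ≥0∞ :=
  (∫⁻ x in slab n ρ δ, W x ^ b) ^ (1 / b)

theorem slabNorm_mono {ρ δ b : ℝ} (hb : 0 < b) {W W' : EuclideanSpace ℝ (Fin n) → ℝ≥0∞}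
    (h : ∀ x ∈ slab n ρ δ, W x ≤ W' x) : slabNorm n ρ δ b W ≤ slabNorm n ρ δ b W' :=
  ENNReal.rpow_le_rpow (setLIntegral_mono' (measurableSet_slab ρ δ)
    fun x hx => ENNReal.rpow_le_rpow (h x hx) hb.le) (one_div_nonneg.2 hb.le)

theorem slabNorm_const_mul {ρ δ b : ℝ} (hb : 0 < b) (c : ℝ≥0∞) (hc : c ≠ ⊤)
    (W : EuclideanSpace ℝ (Fin n) → ℝ≥0∞) :
    slabNorm n ρ δ b (fun x => c * W x) = c * slabNorm n ρ δ b W := by
  simp only [slabNorm, ENNReal.mul_rpow_of_nonneg _ _ hb.le]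
  rw [lintegral_const_mul' _ _ (ENNReal.rpow_ne_top_of_nonneg hb.le hc),
    ENNReal.mul_rpow_of_nonneg _ _ (one_div_nonneg.2 hb.le), ← ENNReal.rpow_mul,
    mul_one_div_cancel hb.ne', ENNReal.rpow_one]

/-- The product of two functions on a slab, at conjugate exponents. -/
theorem lintegral_slab_mul_le {ρ δ b₁ b₂ : ℝ} (h1 : 0 < b₁) (h2 : 0 < b₂)
    (hconj : 1 / b₁ + 1 / b₂ = 1) {X Y : EuclideanSpace ℝ (Fin n) → ℝ≥0∞} (hX : Measurable X)
    (hY : Measurable Y) :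
    ∫⁻ x in slab n ρ δ, X x * Y x ≤ slabNorm n ρ δ b₁ X * slabNorm n ρ δ b₂ Y :=
  ENNReal.lintegral_mul_le_Lp_mul_Lq _
    ⟨by rw [inv_one, ← one_div, ← one_div]; exact hconj, h1, h2⟩ hX.aemeasurable hY.aemeasurable

theorem measurable_pot (s : ℝ) {f : EuclideanSpace ℝ (Fin n) → ℝ} (hf : Continuous f) :
    Measurable (pot s f) := by
  have h : Measurable fun z : EuclideanSpace ℝ (Fin n) × EuclideanSpace ℝ (Fin n) =>
      ENNReal.ofReal (f z.2 * ‖z.1 - z.2‖ ^ (-s)) := by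
    refine ENNReal.measurable_ofReal.comp ((hf.measurable.comp measurable_snd).mul ?_)
    fun_prop
  exact h.lintegral_prod_right'

/-- A higher order potential controls a lower one inside a fixed ball. -/
theorem pot_le_pot_succ (hn : 1 ≤ n) {s : ℝ} {f : EuclideanSpace ℝ (Fin n) → ℝ}
    (hf0 : ∀ y, 0 ≤ f y) (hfs : ∀ y ∉ closedBall (0 : EuclideanSpace ℝ (Fin n)) 4, f y = 0)
    {x : EuclideanSpace ℝ (Fin n)} (hx : ‖x‖ ≤ 4) :
    pot s f x ≤ ENNReal.ofReal 8 * pot (s + 1) f x := by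
  rw [pot, pot, ← lintegral_const_mul' _ _ ENNReal.ofReal_ne_top]
  have hxy : ∀ᵐ y : EuclideanSpace ℝ (Fin n), y ≠ x :=
    compl_mem_ae_iff.2 (volume_singleton_zero hn x)
  refine lintegral_mono_ae ?_
  filter_upwards [hxy] with y hy
  rw [← ENNReal.ofReal_mul (by norm_num)]
  refine ENNReal.ofReal_le_ofReal ?_
  by_cases h4 : y ∈ closedBall (0 : EuclideanSpace ℝ (Fin n)) 4
  · have hd : 0 < ‖x - y‖ := norm_pos_iff.2 (sub_ne_zero.2 (Ne.symm hy))
    have h8 : ‖x - y‖ ≤ 8 := by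
      linarith [norm_sub_le x y, mem_closedBall_zero_iff.1 h4]
    rw [show -s = -(s + 1) + 1 by ring, Real.rpow_add hd, Real.rpow_one]
    have h := mul_le_mul_of_nonneg_left h8 (mul_nonneg (hf0 y) (Real.rpow_nonneg hd.le (-(s + 1))))
    linarith
  · simp [hfs y h4]

/-- The norm on a slab of a potential plus a constant. -/
theorem exists_pot_norm (hn : 2 ≤ n) {s m b θ : ℝ} (hm : 0 < m) (hm1 : m < 1)
    (hb : 0 < b) (hbm : 1 / b ≤ m) (hθ : 0 < θ) (hθ1 : θ < 1)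
    (hcond : s < n - (n - θ) * m + (n - 1) / b) :
    ∃ C : ℝ, 0 < C ∧ ∀ (ρ δ M L : ℝ), 1 ≤ ρ → ρ ≤ 2 → 0 < δ → δ ≤ 1 / 24 → 0 ≤ M → 0 ≤ L →
      ∀ f : EuclideanSpace ℝ (Fin n) → ℝ, Continuous f → (∀ y, 0 ≤ f y) →
        (∀ y ∉ closedBall (0 : EuclideanSpace ℝ (Fin n)) 4, f y = 0) →
        (∀ ρ', |ρ' - ρ| ≤ δ → sliceWt θ (fun y => f y ^ (1 / m)) ρ' ≤ ENNReal.ofReal M) →
        slabNorm n ρ δ b (fun x => pot s f x + ENNReal.ofReal L) ≤
          ENNReal.ofReal (C * δ ^ (1 / b) * (M ^ m + L)) := by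
  obtain ⟨C₁, hC₁, hsl⟩ := exists_slice hn hm hm1 hb hbm hθ hθ1 hcond
  obtain ⟨C₂, hC₂, hvol⟩ := exists_slab_ball (n := n) (by omega)
  set V : ℝ := C₂ * (4 : ℝ) ^ (n - 1) with hV
  have hV0 : 0 < V := by positivity
  have hb1 : 1 ≤ b := by
    have h := hbm.trans hm1.le
    rwa [div_le_iff₀ hb, one_mul] at h
  have hb0 : 0 ≤ 1 / b := one_div_nonneg.2 hb.le
  refine ⟨C₁ ^ (1 / b) + V ^ (1 / b), by positivity,
    fun ρ δ M L h1 h2 hδ hδ' hM hL f hfc hf0 hfs hwt => ?_⟩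
  have hv : volume (slab n ρ δ) ≤ ENNReal.ofReal (V * δ) := by
    have h := hvol ρ δ (by linarith) (by linarith) hδ hδ' 0 4 (by norm_num)
    rw [inter_eq_left.2 (slab_subset_closedBall (by linarith) (by linarith))] at h
    exact h.trans_eq (by rw [hV]; congr 1; ring)
  have hadd := ENNReal.lintegral_Lp_add_le (μ := volume.restrict (slab n ρ δ))
    (measurable_pot s hfc).aemeasurable (aemeasurable_const (b := ENNReal.ofReal L)) hb1
  refine hadd.trans ?_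
  have e1 : (∫⁻ x in slab n ρ δ, pot s f x ^ b) ^ (1 / b) ≤
      ENNReal.ofReal (C₁ ^ (1 / b) * δ ^ (1 / b) * M ^ m) := by
    refine (ENNReal.rpow_le_rpow (hsl ρ δ M (by linarith) (by linarith) hδ hδ' hM f hfc hf0 hfs hwt)
      hb0).trans_eq ?_
    rw [ENNReal.ofReal_rpow_of_nonneg (by positivity) hb0, Real.mul_rpow (by positivity)
      (by positivity), Real.mul_rpow hC₁.le hδ.le, ← Real.rpow_mul hM,
      show b * m * (1 / b) = m by field_simp]
  have e2 : (∫⁻ _x in slab n ρ δ, ENNReal.ofReal L ^ b) ^ (1 / b) ≤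
      ENNReal.ofReal (V ^ (1 / b) * δ ^ (1 / b) * L) := by
    rw [setLIntegral_const, ENNReal.mul_rpow_of_nonneg _ _ hb0, ← ENNReal.rpow_mul,
      mul_one_div_cancel hb.ne', ENNReal.rpow_one, mul_comm]
    refine (mul_le_mul' (ENNReal.rpow_le_rpow hv hb0) le_rfl).trans_eq ?_
    rw [ENNReal.ofReal_rpow_of_nonneg (by positivity) hb0, ← ENNReal.ofReal_mul (by positivity),
      Real.mul_rpow hV0.le hδ.le]
  refine (add_le_add e1 e2).trans ?_
  rw [← ENNReal.ofReal_add (by positivity) (by positivity)]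
  refine ENNReal.ofReal_le_ofReal ?_
  have p1 : 0 ≤ C₁ ^ (1 / b) * δ ^ (1 / b) * L := by positivity
  have p2 : 0 ≤ V ^ (1 / b) * δ ^ (1 / b) * M ^ m := by positivity
  linarith

/-- The norm on a slab of a density at the exponent its power is integrable with. -/
theorem slabNorm_density_le {ρ δ m M : ℝ} (hm : 0 < m) (hδ : 0 ≤ δ) (hM : 0 ≤ M)
    {f : EuclideanSpace ℝ (Fin n) → ℝ} (hf : Continuous f) (hf0 : ∀ y, 0 ≤ f y) (hρ : ρ ≤ 3)
    (hδ1 : δ ≤ 1) (h : (∫ y in slab n ρ δ, f y ^ (1 / m)) ≤ δ * M) :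
    slabNorm n ρ δ (1 / m) (fun x => ENNReal.ofReal (f x)) ≤
      ENNReal.ofReal (δ ^ m * M ^ m) := by
  have hm0 : 0 ≤ 1 / m := one_div_nonneg.2 hm.le
  have hc : Continuous fun y => f y ^ (1 / m) := hf.rpow_const fun _ => Or.inr hm0
  have hi : IntegrableOn (fun y => f y ^ (1 / m)) (slab n ρ δ) :=
    (hc.continuousOn.integrableOn_compact (isCompact_closedBall 0 4)).mono_set
      (slab_subset_closedBall hρ hδ1)
  rw [slabNorm, one_div_one_div]
  simp only [ENNReal.ofReal_rpow_of_nonneg (hf0 _) hm0]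
  rw [← ofReal_integral_eq_lintegral_ofReal hi (Eventually.of_forall fun y => Real.rpow_nonneg (hf0 y) _),
    ENNReal.ofReal_rpow_of_nonneg (integral_nonneg fun y => Real.rpow_nonneg (hf0 y) _) hm.le,
    ← Real.mul_rpow hδ hM]
  exact ENNReal.ofReal_le_ofReal
    (Real.rpow_le_rpow (integral_nonneg fun y => Real.rpow_nonneg (hf0 y) _) h hm.le)

end Vale.Agent.P100.Sector
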