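import Vale.Agent.P100.Sector.Newton

/-!
P100, the sector argument: a positive entire supersolution controls, by its minimum on the shell
`1/2 ≤ |x| ≤ 3`, its own integral and that of its Laplacian over the shell. For a positive solution
of the system this makes all these quantities universally bounded.
-/

open MeasureTheory Metric Set Filter Topology

namespace Vale.Agent.P100.Sector

open Vale.Agent.P100.Sys
open Vale.Agent.P100.Cmp (ramp ramp1 ramp2 contDiff_ramp hasDerivAt_ramp hasDerivAt_ramp1 ramp1_mem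
  ramp2_nonneg ramp_nonneg ramp_pos ramp_eq_zero continuous_ramp2 lap_comp green_limit continuous_lap)

variable {n : ℕ}

/-- The shell on which the solutions are bounded in mean. -/
def shell (n : ℕ) : Set (EuclideanSpace ℝ (Fin n)) := closedBall 0 3 \ ball 0 (1 / 2)

theorem mem_shell {x : EuclideanSpace ℝ (Fin n)} : x ∈ shell n ↔ 1 / 2 ≤ ‖x‖ ∧ ‖x‖ ≤ 3 := by
  rw [shell, Set.mem_sdiff, mem_closedBall_zero_iff, mem_ball_zero_iff, not_lt, and_comm]

theorem isCompact_shell : IsCompact (shell n) :=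
  (isCompact_closedBall 0 3).diff isOpen_ball

theorem shell_subset : shell n ⊆ ({0}ᶜ : Set (EuclideanSpace ℝ (Fin n))) := fun x hx h => by
  rw [mem_singleton_iff] at h
  subst h
  have := (mem_shell.1 hx).1
  rw [norm_zero] at this
  norm_num at this

theorem monotone_ramp : Monotone ramp :=
  monotone_of_hasDerivAt_nonneg hasDerivAt_ramp fun t => (ramp1_mem t).1

/-- The test function: a truncated regularised kernel. -/
noncomputable def testFun (κ e : ℝ) (x y : EuclideanSpace ℝ (Fin n)) : ℝ :=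
  ramp (κ * ker e x y - 1) / κ

theorem contDiff_testFun {κ e : ℝ} (he : 0 < e) (x : EuclideanSpace ℝ (Fin n)) :
    ContDiff ℝ 2 (testFun κ e x) :=
  (contDiff_ramp.comp ((contDiff_const.mul (contDiff_ker he x)).sub contDiff_const)).div_const _

theorem lap_testFun {κ e : ℝ} (hκ : κ ≠ 0) (he : 0 < e) (x y : EuclideanSpace ℝ (Fin n)) :
    lap (testFun κ e x) y = ramp1 (κ * ker e x y - 1) * lap (ker e x) y +
      κ * ramp2 (κ * ker e x y - 1) * ∑ i, pd i (ker e x) y ^ 2 := by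
  have hlin : ∀ r : ℝ, HasDerivAt (fun r => κ * r - 1) κ r := fun r => by
    simpa using ((hasDerivAt_id r).const_mul κ).sub_const (1 : ℝ)
  refine lap_comp (h := fun r => ramp (κ * r - 1) / κ) (h1 := fun r => ramp1 (κ * r - 1))
    (h2 := fun r => κ * ramp2 (κ * r - 1)) (Eventually.of_forall fun r => ?_) ?_
    (contDiff_ker he x).contDiffAt
  · exact (((hasDerivAt_ramp _).comp r (hlin r)).div_const κ).congr_deriv
      (mul_div_cancel_right₀ _ hκ)
  · exact ((hasDerivAt_ramp1 _).comp _ (hlin _)).congr_deriv (mul_comm _ _)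

/-- Green's identity across the origin, for a test function bounded below on the shell. -/
theorem green_shell (hn : 3 ≤ n) {w Ψ : EuclideanSpace ℝ (Fin n) → ℝ} (hwc : Continuous w)
    (hw2 : ContDiffOn ℝ 2 w {0}ᶜ) {x : EuclideanSpace ℝ (Fin n)} (hx : ‖x‖ ≤ 3)
    (hwl : ∀ y ≠ 0, ‖y - x‖ ≤ 16 → lap w y ≤ 0) (hΨd : ContDiff ℝ 2 Ψ)
    (hΨc : HasCompactSupport Ψ) (hΨ0 : ∀ y, 0 ≤ Ψ y) (hΨs : ∀ y, 16 < ‖y - x‖ → Ψ y = 0)
    {c₁ : ℝ} (hc : ∀ y ∈ shell n, c₁ ≤ Ψ y) :
    c₁ * (∫ y in shell n, -lap w y) + ∫ y, w y * lap Ψ y ≤ 0 := by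
  have hcont : ContinuousOn (lap w) {0}ᶜ := Vale.Agent.P100.Cmp.continuousOn_lap hw2
  have hρ : Tendsto (fun k : ℕ => (1 / 4 : ℝ) / ((k : ℝ) + 1)) atTop (𝓝[>] 0) := by
    refine tendsto_nhdsWithin_iff.2 ⟨?_, Eventually.of_forall fun k => by rw [mem_Ioi]; positivity⟩
    exact tendsto_const_nhds.div_atTop (tendsto_natCast_atTop_atTop.atTop_add tendsto_const_nhds)
  refine le_of_tendsto' (tendsto_const_nhds.add ((green_limit hn hwc hw2 hΨd hΨc).comp hρ))
    fun k => ?_
  simp only [Function.comp_apply]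
  set ρ : ℝ := 1 / 4 / ((k : ℝ) + 1)
  have hρ0 : 0 < ρ := by positivity
  have hρ4 : ρ ≤ 1 / 4 := div_le_self (by norm_num) (le_add_of_nonneg_left (Nat.cast_nonneg k))
  set φ := fun y => (1 - cut n ρ y) * Ψ y with hφ
  have hφ0 : ∀ y, 0 ≤ φ y := fun y => mul_nonneg (sub_nonneg.2 cut_le_one) (hΨ0 y)
  have hφs : tsupport φ ⊆ {0}ᶜ := by
    intro y hy h0
    rw [mem_singleton_iff] at h0
    subst h0
    refine notMem_tsupport_iff_eventuallyEq.2 ?_ hy
    filter_upwards [ball_mem_nhds (0 : EuclideanSpace ℝ (Fin n)) hρ0] with z hz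
    simp [φ, cut_eq_one hρ0 (mem_ball_zero_iff.1 hz).le]
  have hφc : HasCompactSupport φ := hΨc.mul_left
  have hi : Integrable fun y => lap w y * φ y :=
    integrable_of_support isOpen_compl_singleton hφc hφs
      (hcont.mul ((continuous_const.sub contDiff_cut.continuous).mul hΨd.continuous).continuousOn)
      fun y hy => by rw [image_eq_zero_of_notMem_tsupport hy, mul_zero]
  have hshell : IntegrableOn (fun y => -lap w y) (shell n) :=
    (hcont.neg.mono shell_subset).integrableOn_compact isCompact_shell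
  have hi1 : IntegrableOn (fun y => c₁ * -lap w y) (shell n) := hshell.const_mul c₁
  show _ + ∫ y, lap w y * φ y ≤ 0
  rw [← integral_const_mul, ← integral_indicator isCompact_shell.measurableSet,
    ← integral_add (hi1.integrable_indicator isCompact_shell.measurableSet) hi]
  refine integral_nonpos fun y => ?_
  show (shell n).indicator (fun y => c₁ * -lap w y) y + lap w y * φ y ≤ 0
  by_cases hy : y ∈ shell n
  · rw [indicator_of_mem hy]
    have hcut : cut n ρ y = 0 := cut_eq_zero hρ0 (by linarith [(mem_shell.1 hy).1])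
    have hΨ1 : c₁ ≤ φ y := by
      simp only [hφ, hcut, sub_zero, one_mul]
      exact hc y hy
    have := mul_le_mul_of_nonpos_left hΨ1 (hwl y (by simpa using shell_subset hy)
      (by linarith [norm_sub_le y x, (mem_shell.1 hy).2]))
    linarith
  · rw [indicator_of_notMem hy, zero_add]
    by_cases h0 : y = 0
    · have : φ y = 0 := image_eq_zero_of_notMem_tsupport fun h => hφs h (by simpa using h0)
      rw [this, mul_zero]
    · rcases le_or_gt ‖y - x‖ 16 with h16 | h16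
      · exact mul_nonpos_of_nonpos_of_nonneg (hwl y h0 h16) (hφ0 y)
      · simp [hφ, hΨs y h16]

/-- The exponent of the kernel. -/
theorem rpow_base_le {e : ℝ} (he : 0 < e) {x y : EuclideanSpace ℝ (Fin n)} {a : ℝ}
    (h : ‖y - x‖ ^ 2 + e ≤ a) {r : ℝ} (hr : r ≤ 0) : a ^ r ≤ (‖y - x‖ ^ 2 + e) ^ r :=
  Real.rpow_le_rpow_of_nonpos (ker_base_pos he) h hr

theorem sum_pd_ker_sq {e : ℝ} (he : 0 < e) (x y : EuclideanSpace ℝ (Fin n)) :
    ∑ i, pd i (ker e x) y ^ 2 =
      ((n : ℝ) - 2) ^ 2 * ‖y - x‖ ^ 2 * (‖y - x‖ ^ 2 + e) ^ (-(n : ℝ)) := by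
  have hsq : ((‖y - x‖ ^ 2 + e) ^ (-((n : ℝ) / 2))) ^ 2 = (‖y - x‖ ^ 2 + e) ^ (-(n : ℝ)) := by
    rw [← Real.rpow_natCast _ 2, ← Real.rpow_mul (ker_base_pos he).le]
    congr 1
    push_cast
    ring
  rw [← sum_sq_sub, Finset.mul_sum, Finset.sum_mul]
  refine Finset.sum_congr rfl fun i _ => ?_
  rw [pd_ker he, sum_sq_sub, mul_pow, hsq]
  ring

theorem lap_ker_nonpos (hn : 3 ≤ n) {e : ℝ} (he : 0 < e) (x y : EuclideanSpace ℝ (Fin n)) :
    lap (ker e x) y ≤ 0 := by
  have hn3 : (3 : ℝ) ≤ n := by exact_mod_cast hn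
  rw [lap_ker he, neg_mul, neg_mul, neg_nonpos]
  exact mul_nonneg (mul_nonneg (mul_nonneg (by linarith) (by linarith)) he.le)
    (Real.rpow_nonneg (ker_base_pos he).le _)

/-- The pointwise lower bound for the Laplacian of the test function. -/
theorem testFun_low (hn : 3 ≤ n) {κ e R₁ m₂ g₂ : ℝ} (hκ : 0 < κ) (he : 0 < e) (hR : 0 < R₁)
    {w : EuclideanSpace ℝ (Fin n) → ℝ} (hw : ∀ y, 0 ≤ w y) {x : EuclideanSpace ℝ (Fin n)}
    (hfar : ∀ y, R₁ < ‖y - x‖ → κ * ker e x y - 1 ≤ 0) {S : Set (EuclideanSpace ℝ (Fin n))}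
    (hm : ∀ y ∈ S, m₂ ≤ ramp2 (κ * ker e x y - 1)) 
    (hg : ∀ y ∈ S, g₂ ≤ ∑ i, pd i (ker e x) y ^ 2) (hg0 : 0 ≤ g₂)
    (y : EuclideanSpace ℝ (Fin n)) :
    S.indicator (fun z => κ * m₂ * g₂ * w z) y + w y * cut n R₁ (y - x) * lap (ker e x) y ≤
      w y * lap (testFun κ e x) y := by
  rw [lap_testFun hκ.ne' he, mul_add (w y), add_comm]
  refine add_le_add ?_ ?_
  · rw [mul_assoc]
    refine mul_le_mul_of_nonneg_left ?_ (hw y)
    by_cases hy : ‖y - x‖ ≤ R₁
    · rw [cut_eq_one hR hy, one_mul]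
      have := mul_le_mul_of_nonpos_right (ramp1_mem (κ * ker e x y - 1)).2
        (lap_ker_nonpos hn he x y)
      rwa [one_mul] at this
    · rw [ramp1, if_pos (hfar y (not_le.1 hy)), zero_mul]
      exact mul_nonpos_of_nonneg_of_nonpos cut_nonneg (lap_ker_nonpos hn he x y)
  · by_cases hy : y ∈ S
    · rw [indicator_of_mem hy, mul_comm (κ * m₂ * g₂)]
      refine mul_le_mul_of_nonneg_left ?_ (hw y)
      exact mul_le_mul (mul_le_mul_of_nonneg_left (hm y hy) hκ.le) (hg y hy) hg0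
        (mul_nonneg hκ.le (ramp2_nonneg _))
    · rw [indicator_of_notMem hy]
      exact mul_nonneg (hw y) (mul_nonneg (mul_nonneg hκ.le (ramp2_nonneg _))
        (Finset.sum_nonneg fun i _ => sq_nonneg _))

theorem hasCompactSupport_testFun {κ e R₁ : ℝ} {x : EuclideanSpace ℝ (Fin n)}
    (hfar : ∀ y, R₁ < ‖y - x‖ → κ * ker e x y - 1 ≤ 0) : HasCompactSupport (testFun κ e x) := by
  refine HasCompactSupport.of_support_subset_isCompact (isCompact_closedBall x R₁) fun y hy => ?_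
  rw [mem_closedBall, dist_eq_norm]
  by_contra h
  refine hy ?_
  show ramp (κ * ker e x y - 1) / κ = 0
  rw [ramp_eq_zero (hfar y (not_le.1 h)), zero_div]

/-- The constants of the test inequality. -/
theorem exists_test_const (hn : 3 ≤ n) :
    ∃ κ c₁ m₂ g₂ : ℝ, 0 < κ ∧ 0 < c₁ ∧ 0 < m₂ ∧ 0 < g₂ ∧
      ∀ e : ℝ, 0 < e → e ≤ 1 → ∀ x : EuclideanSpace ℝ (Fin n), ‖x‖ ≤ 3 →
        (∀ y, 16 < ‖y - x‖ → κ * ker e x y - 1 ≤ 0) ∧
        (∀ y ∈ shell n, c₁ ≤ testFun κ e x y) ∧
        (∀ y ∈ shell n \ ball x (1 / 4), m₂ ≤ ramp2 (κ * ker e x y - 1)) ∧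
        (∀ y ∈ shell n \ ball x (1 / 4), g₂ ≤ ∑ i, pd i (ker e x) y ^ 2) := by
  have hn3 : (3 : ℝ) ≤ n := by exact_mod_cast hn
  set s : ℝ := ((n : ℝ) - 2) / 2 with hs
  have hs0 : 0 < s := by linarith
  set κ : ℝ := (256 : ℝ) ^ s with hκ
  have hκ0 : 0 < κ := Real.rpow_pos_of_pos (by norm_num) _
  set t₀ : ℝ := κ * (37 : ℝ) ^ (-s) - 1 with ht₀
  have ht₀0 : 0 < t₀ := by
    rw [ht₀, hκ, Real.rpow_neg (by norm_num), ← div_eq_mul_inv,
      ← Real.div_rpow (by norm_num) (by norm_num)]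
    linarith [Real.one_lt_rpow (by norm_num : (1 : ℝ) < 256 / 37) hs0]
  set t₁ : ℝ := κ * (1 / 16 : ℝ) ^ (-s) - 1 with ht₁
  have ht01 : t₀ ≤ t₁ := sub_le_sub_right (mul_le_mul_of_nonneg_left
    (Real.rpow_le_rpow_of_nonpos (by norm_num) (by norm_num) (by linarith)) hκ0.le) 1
  obtain ⟨tm, htm, htmin⟩ := isCompact_Icc.exists_isMinOn (nonempty_Icc.2 ht01)
    continuous_ramp2.continuousOn
  have hm₂0 : 0 < ramp2 tm := by
    have ht := ht₀0.trans_le htm.1
    rw [ramp2, if_neg (not_le.2 ht)]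
    have := Vale.Agent.P100.Cmp.quad_pos tm
    positivity
  refine ⟨κ, ramp t₀ / κ, ramp2 tm, ((n : ℝ) - 2) ^ 2 * (1 / 16) * (37 : ℝ) ^ (-(n : ℝ)), hκ0,
    div_pos (ramp_pos ht₀0) hκ0, hm₂0, mul_pos (mul_pos (pow_pos (by linarith) 2) (by norm_num))
      (Real.rpow_pos_of_pos (by norm_num) _), fun e he he1 x hx2 => ?_⟩
  have h37 : ∀ y ∈ shell n, ‖y - x‖ ^ 2 + e ≤ 37 := fun y hy => by
    have h6 : ‖y - x‖ ≤ 6 := by linarith [norm_sub_le y x, (mem_shell.1 hy).2]
    have := pow_le_pow_left₀ (norm_nonneg (y - x)) h6 2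
    linarith
  have h16 : ∀ y ∈ shell n \ ball x (1 / 4), (1 : ℝ) / 16 ≤ ‖y - x‖ ^ 2 := fun y hy => by
    have h4 : (1 : ℝ) / 4 ≤ ‖y - x‖ := by
      have := hy.2
      rwa [mem_ball, dist_eq_norm, not_lt] at this
    have := pow_le_pow_left₀ (by norm_num) h4 2
    linarith
  have harg : ∀ y ∈ shell n, t₀ ≤ κ * ker e x y - 1 := fun y hy =>
    sub_le_sub_right (mul_le_mul_of_nonneg_left
      (rpow_base_le he (h37 y hy) (by linarith : -s ≤ 0)) hκ0.le) 1
  refine ⟨fun y hy => ?_, fun y hy => div_le_div_of_nonneg_right (monotone_ramp (harg y hy)) hκ0.le,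
    fun y hy => htmin ⟨harg y hy.1, ?_⟩, fun y hy => ?_⟩
  · have h256 : (256 : ℝ) ≤ ‖y - x‖ ^ 2 + e := by
      have := pow_le_pow_left₀ (by norm_num) hy.le 2
      linarith
    have h' := mul_le_mul_of_nonneg_left
      (Real.rpow_le_rpow_of_nonpos (by norm_num) h256 (by linarith : -s ≤ 0)) hκ0.le
    have e1 : κ * (256 : ℝ) ^ (-s) = 1 := by
      rw [hκ, ← Real.rpow_add (by norm_num), add_neg_cancel, Real.rpow_zero]
    show κ * (‖y - x‖ ^ 2 + e) ^ (-s) - 1 ≤ 0
    linarith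
  · exact sub_le_sub_right (mul_le_mul_of_nonneg_left (Real.rpow_le_rpow_of_nonpos (by norm_num)
      (by linarith [h16 y hy] : (1 : ℝ) / 16 ≤ ‖y - x‖ ^ 2 + e) (by linarith)) hκ0.le) 1
  · rw [sum_pd_ker_sq he]
    exact mul_le_mul (mul_le_mul_of_nonneg_left (h16 y hy) (sq_nonneg _))
      (rpow_base_le he (h37 y hy.1) (by linarith)) (Real.rpow_nonneg (by norm_num) _)
      (mul_nonneg (sq_nonneg _) (sq_nonneg _))

/-- The test inequality at a point of the ball. -/
theorem exists_point_bound_local (hn : 3 ≤ n) :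
    ∃ c : ℝ, 0 < c ∧ ∀ w : EuclideanSpace ℝ (Fin n) → ℝ, Continuous w → (∀ x, 0 ≤ w x) →
      ContDiffOn ℝ 2 w {0}ᶜ → ∀ x, ‖x‖ ≤ 3 → (∀ y ≠ 0, ‖y - x‖ ≤ 16 → lap w y ≤ 0) →
        c * ((∫ y in shell n, -lap w y) + ∫ y in shell n \ ball x (1 / 4), w y) ≤ w x := by
  obtain ⟨κ, c₁, m₂, g₂, hκ, hc₁, hm₂, hg₂, hconst⟩ := exists_test_const hn
  have hM := kerMass_pos hn
  set c₂ : ℝ := κ * m₂ * g₂ with hc₂
  have hc₂0 : 0 < c₂ := mul_pos (mul_pos hκ hm₂) hg₂
  refine ⟨min c₁ c₂ / kerMass n, div_pos (lt_min hc₁ hc₂0) hM,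
    fun w hwc hw0 hw2 x hx hwl => ?_⟩
  set W : EuclideanSpace ℝ (Fin n) → ℝ := fun y => w y * cut n 16 (y - x) with hW
  have hWc : Continuous W :=
    hwc.mul (contDiff_cut.continuous.comp (continuous_id.sub continuous_const))
  have hWs : HasCompactSupport W := by
    refine HasCompactSupport.of_support_subset_isCompact (isCompact_closedBall x (2 * 16))
      fun y hy => ?_
    rw [mem_closedBall, dist_eq_norm]
    by_contra h
    refine hy ?_
    simp only [hW]
    rw [cut_eq_zero (by norm_num) (not_le.1 h).le, mul_zero]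
  obtain ⟨D, hD⟩ := hWs.exists_bound_of_continuous hWc
  have hlim := tendsto_lap_ker x hWc fun y => (Real.norm_eq_abs _).symm.le.trans (hD y)
  have hWx : W x = w x := by
    simp only [hW, sub_self]
    rw [cut_eq_one (by norm_num) (by simp), mul_one]
  rw [hWx] at hlim
  have hS'i : IntegrableOn w (shell n \ ball x (1 / 4)) :=
    (hwc.continuousOn.integrableOn_compact isCompact_shell).mono_set sdiff_subset
  have hS'm : MeasurableSet (shell n \ ball x (1 / 4)) :=
    isCompact_shell.measurableSet.diff measurableSet_ball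
  have hf0 : 0 ≤ ∫ y in shell n, -lap w y := setIntegral_nonneg isCompact_shell.measurableSet
    fun y hy => neg_nonneg.2 (hwl y (by simpa using shell_subset hy)
      (by linarith [norm_sub_le y x, (mem_shell.1 hy).2]))
  have hw0' : 0 ≤ ∫ y in shell n \ ball x (1 / 4), w y := setIntegral_nonneg hS'm fun y _ => hw0 y
  have a1 := mul_le_mul_of_nonneg_right (min_le_left c₁ c₂) hf0
  have a2 := mul_le_mul_of_nonneg_right (min_le_right c₁ c₂) hw0'
  have key : ∀ t : ℝ, 0 < t → t ≤ 1 →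
      min c₁ c₂ * ((∫ y in shell n, -lap w y) + ∫ y in shell n \ ball x (1 / 4), w y) ≤
        ∫ y, W y * -lap (ker (t ^ 2) x) y := by
    intro t ht ht1
    have he : 0 < t ^ 2 := pow_pos ht 2
    obtain ⟨hfar, hlowc, hm, hg⟩ := hconst (t ^ 2) he (pow_le_one₀ ht.le ht1) x hx
    have hgreen := green_shell hn hwc hw2 hx hwl (contDiff_testFun he x)
      (hasCompactSupport_testFun hfar) (fun y => div_nonneg (ramp_nonneg _) hκ.le)
      (fun y hy => by
        show ramp (κ * ker (t ^ 2) x y - 1) / κ = 0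
        rw [ramp_eq_zero (hfar y hy), zero_div]) hlowc
    have hlow := testFun_low hn hκ he (by norm_num) hw0 hfar hm hg hg₂.le
    have i0 : IntegrableOn (fun z => c₂ * w z) (shell n \ ball x (1 / 4)) := hS'i.const_mul c₂
    have i1 : Integrable ((shell n \ ball x (1 / 4)).indicator fun z => c₂ * w z) :=
      i0.integrable_indicator hS'm
    have i2 : Integrable fun y => W y * lap (ker (t ^ 2) x) y :=
      (hWc.mul (continuous_lap (contDiff_ker he x))).integrable_of_hasCompactSupport hWs.mul_right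
    have i3 : Integrable fun y => w y * lap (testFun κ (t ^ 2) x) y := by
      refine (hwc.mul (continuous_lap (contDiff_testFun he x))).integrable_of_hasCompactSupport
        (HasCompactSupport.of_support_subset_isCompact (hasCompactSupport_testFun hfar)
          fun y hy => ?_)
      by_contra h
      refine hy ?_
      show w y * lap (testFun κ (t ^ 2) x) y = 0
      rw [lap, Finset.sum_eq_zero fun i _ => pd_eq_zero_of_notMem i fun h' =>
        h (support_pd_subset _ i h'), mul_zero]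
    have hmono : (∫ y, ((shell n \ ball x (1 / 4)).indicator (fun z => c₂ * w z) y +
        W y * lap (ker (t ^ 2) x) y)) ≤ ∫ y, w y * lap (testFun κ (t ^ 2) x) y :=
      integral_mono (i1.add i2) i3 hlow
    rw [integral_add i1 i2, integral_indicator hS'm, integral_const_mul] at hmono
    simp only [mul_neg, integral_neg] at hgreen a1 ⊢
    linarith
  rw [div_mul_eq_mul_div, div_le_iff₀ hM, mul_comm (w x)]
  have e1 : ∀ᶠ t in 𝓝[>] (0 : ℝ), t ≤ 1 := nhdsWithin_le_nhds (eventually_le_nhds one_pos)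
  exact ge_of_tendsto hlim ((e1.and self_mem_nhdsWithin).mono fun t h => key t h.2 h.1)

/-- The test inequality for a global supersolution. -/
theorem exists_point_bound (hn : 3 ≤ n) :
    ∃ c : ℝ, 0 < c ∧ ∀ w : EuclideanSpace ℝ (Fin n) → ℝ, Continuous w → (∀ x, 0 ≤ w x) →
      ContDiffOn ℝ 2 w {0}ᶜ → (∀ x ≠ 0, lap w x ≤ 0) → ∀ x, ‖x‖ ≤ 3 →
        c * ((∫ y in shell n, -lap w y) + ∫ y in shell n \ ball x (1 / 4), w y) ≤ w x := by
  obtain ⟨c, hc, h⟩ := exists_point_bound_local (n := n) hn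
  exact ⟨c, hc, fun w hwc hw0 hw2 hwl x hx => h w hwc hw0 hw2 x hx fun y hy _ => hwl y hy⟩

/-- The integrals over the shell of a supersolution and of its Laplacian, by any value. -/
theorem exists_mean_bound (hn : 3 ≤ n) :
    ∃ C : ℝ, 0 < C ∧ ∀ w : EuclideanSpace ℝ (Fin n) → ℝ, Continuous w → (∀ x, 0 ≤ w x) →
      ContDiffOn ℝ 2 w {0}ᶜ → (∀ x ≠ 0, lap w x ≤ 0) → ∀ x ∈ shell n,
        (∫ y in shell n, -lap w y) ≤ C * w x ∧ (∫ y in shell n, w y) ≤ C * w x := by
  obtain ⟨c, hc, hpt⟩ := exists_point_bound hn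
  have hV := ballVol_pos n
  set V : ℝ := (1 / 4 : ℝ) ^ n * ballVol n with hVdef
  have hV0 : 0 < V := by positivity
  refine ⟨1 / c + 1 / c * (1 / (c * V)), by positivity, fun w hwc hw0 hw2 hwl x hx => ?_⟩
  have hf0 : ∀ S ⊆ shell n, MeasurableSet S → 0 ≤ ∫ y in S, -lap w y := fun S hS hSm =>
    setIntegral_nonneg hSm fun y hy => neg_nonneg.2 (hwl y (by simpa using shell_subset (hS hy)))
  have hwi : IntegrableOn w (shell n) := hwc.continuousOn.integrableOn_compact isCompact_shell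
  have hSm : MeasurableSet (shell n) := isCompact_shell.measurableSet
  have hball : ∀ z r, MeasurableSet (shell n \ ball z r) := fun z r => hSm.diff measurableSet_ball
  obtain ⟨hx1, hx2⟩ := mem_shell.1 hx
  have h1 := hpt w hwc hw0 hw2 hwl x hx2
  have hw1 : 0 ≤ ∫ y in shell n \ ball x (1 / 4), w y :=
    setIntegral_nonneg (hball _ _) fun y _ => hw0 y
  have hlap1 := hf0 _ subset_rfl hSm
  have hL : (∫ y in shell n, -lap w y) ≤ 1 / c * w x := by
    rw [div_mul_eq_mul_div, one_mul, le_div_iff₀ hc]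
    nlinarith
  have hWfar : (∫ y in shell n \ ball x (1 / 4), w y) ≤ 1 / c * w x := by
    rw [div_mul_eq_mul_div, one_mul, le_div_iff₀ hc]
    nlinarith
  -- a second point, at distance at least one half
  set z : EuclideanSpace ℝ (Fin n) := (-(3 / 2) / ‖x‖) • x with hz
  have hxn : 0 < ‖x‖ := by linarith
  have hB : closedBall z (1 / 4) ⊆ shell n \ ball x (1 / 2) := by
    intro y hy
    rw [mem_closedBall, dist_eq_norm] at hy
    have hzn : ‖z‖ = 3 / 2 := by
      rw [hz, norm_smul, Real.norm_eq_abs, abs_div, abs_neg, abs_norm,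
        abs_of_pos (by norm_num : (0:ℝ) < 3 / 2), div_mul_cancel₀ _ hxn.ne']
    have hzx : ‖z - x‖ = 3 / 2 + ‖x‖ := by
      rw [hz, show (-(3 / 2) / ‖x‖) • x - x = (-(3 / 2) / ‖x‖ - 1) • x by rw [sub_smul, one_smul],
        norm_smul, Real.norm_eq_abs, abs_of_nonpos]
      · field_simp
        ring
      · have : 0 < (3 / 2 : ℝ) / ‖x‖ := by positivity
        rw [neg_div]
        linarith
    refine ⟨mem_shell.2 ⟨?_, ?_⟩, ?_⟩
    · linarith [norm_sub_norm_le z y, norm_sub_rev z y]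
    · linarith [norm_sub_norm_le y z]
    · rw [mem_ball, dist_eq_norm, not_lt]
      linarith [norm_sub_le_norm_sub_add_norm_sub z y x, norm_sub_rev z y]
  obtain ⟨x₁, hx₁, hmin⟩ := (isCompact_closedBall z (1 / 4)).exists_isMinOn
    (nonempty_closedBall.2 (by norm_num)) hwc.continuousOn
  have hvol : V * w x₁ ≤ ∫ y in shell n \ ball x (1 / 4), w y := by
    refine le_trans ?_ (setIntegral_mono_set (hwi.mono_set sdiff_subset)
      (Eventually.of_forall fun y => hw0 y)
      (Eventually.of_forall fun y hy => ⟨(hB hy).1, fun h => (hB hy).2 (ball_subset_ball (by norm_num) h)⟩))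
    have := setIntegral_ge_of_const_le_real (μ := volume) measurableSet_closedBall measure_closedBall_lt_top.ne
      (fun y hy => hmin hy) (hwc.continuousOn.integrableOn_compact (isCompact_closedBall z (1 / 4)))
    rw [Measure.addHaar_real_closedBall' volume z (by norm_num), finrank_euclideanSpace_fin] at this
    have e : ballVol n = volume.real (closedBall (0 : EuclideanSpace ℝ (Fin n)) 1) := rfl
    rw [hVdef, e]
    show _ ≤ ∫ y in closedBall z (1 / 4), w y
    linarith [this]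
  have hw₁ : w x₁ ≤ 1 / (c * V) * w x := by
    rw [div_mul_eq_mul_div, one_mul, le_div_iff₀ (mul_pos hc hV0)]
    nlinarith [mul_le_mul_of_nonneg_left (hvol.trans hWfar) hc.le, mul_one_div_cancel hc.ne']
  have h2 := hpt w hwc hw0 hw2 hwl x₁ (mem_shell.1 (hB hx₁).1).2
  have hrest : (∫ y in shell n ∩ ball x (1 / 4), w y) ≤ 1 / c * w x₁ := by
    have hmono : (∫ y in shell n ∩ ball x (1 / 4), w y) ≤ ∫ y in shell n \ ball x₁ (1 / 4), w y := by
      refine setIntegral_mono_set (hwi.mono_set sdiff_subset) (Eventually.of_forall fun y => hw0 y)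
        (Eventually.of_forall fun y hy => ⟨hy.1, fun h => (hB hx₁).2 ?_⟩)
      rw [mem_ball] at h ⊢
      have hy' := mem_ball.1 hy.2
      linarith [dist_triangle x₁ y x, dist_comm x₁ y]
    rw [div_mul_eq_mul_div, one_mul, le_div_iff₀ hc]
    nlinarith
  have hsplit : (∫ y in shell n, w y) =
      (∫ y in shell n ∩ ball x (1 / 4), w y) + ∫ y in shell n \ ball x (1 / 4), w y := by
    rw [integral_inter_add_sdiff measurableSet_ball hwi]
  have h3 := mul_le_mul_of_nonneg_left hw₁ (by positivity : (0:ℝ) ≤ 1 / c)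
  have h4 : 0 ≤ 1 / c * (1 / (c * V)) * w x := mul_nonneg (by positivity) (hw0 x)
  constructor <;> linarith

/-- Universal bounds on the shell for positive solutions. -/
theorem exists_universal (hn : 3 ≤ n) (A B : ℝ) {p q : ℝ} (hp : 0 < p) (hq : 0 < q)
    (hpq : 1 < p * q) :
    ∃ C : ℝ, 0 < C ∧ ∀ u v : EuclideanSpace ℝ (Fin n) → ℝ, Sol n A B p q u v →
      (∫ y in shell n, u y) ≤ C ∧ (∫ y in shell n, v y) ≤ C ∧
        (∫ y in shell n, ‖y‖ ^ A * v y ^ p) ≤ C ∧ (∫ y in shell n, ‖y‖ ^ B * u y ^ q) ≤ C := by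
  obtain ⟨C, hC, hmean⟩ := exists_mean_bound hn
  set V : ℝ := volume.real (shell n) with hV
  have hne : (shell n).Nonempty := by
    refine ⟨EuclideanSpace.single ⟨0, by omega⟩ 1, mem_shell.2 ?_⟩
    simp
    norm_num
  have hVpos : 0 < V := by
    have hb : ball (EuclideanSpace.single ⟨0, by omega⟩ (3 / 2 : ℝ)) (1 / 4) ⊆ shell n := fun y hy => by
      rw [mem_ball, dist_eq_norm] at hy
      have e : ‖EuclideanSpace.single (⟨0, by omega⟩ : Fin n) (3 / 2 : ℝ)‖ = 3 / 2 := by simp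
      have a1 := norm_sub_norm_le y (EuclideanSpace.single (⟨0, by omega⟩ : Fin n) (3 / 2 : ℝ))
      have a2 := norm_sub_norm_le (EuclideanSpace.single (⟨0, by omega⟩ : Fin n) (3 / 2 : ℝ)) y
      rw [norm_sub_rev _ y] at a2
      exact mem_shell.2 ⟨by linarith, by linarith⟩
    refine ENNReal.toReal_pos ((measure_ball_pos volume _ (by norm_num)).trans_le (measure_mono hb)).ne' ?_
    exact isCompact_shell.measure_lt_top.ne
  obtain ⟨yA, hyA, hminA⟩ := isCompact_shell.exists_isMinOn hne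
    ((continuous_norm.continuousOn (s := shell n)).rpow_const fun y hy =>
      Or.inl (norm_ne_zero_iff.2 (by simpa using shell_subset hy)) : ContinuousOn (fun y => ‖y‖ ^ A) _)
  obtain ⟨yB, hyB, hminB⟩ := isCompact_shell.exists_isMinOn hne
    ((continuous_norm.continuousOn (s := shell n)).rpow_const fun y hy =>
      Or.inl (norm_ne_zero_iff.2 (by simpa using shell_subset hy)) : ContinuousOn (fun y => ‖y‖ ^ B) _)
  have hA0 : 0 < ‖yA‖ ^ A :=
    Real.rpow_pos_of_pos (norm_pos_iff.2 (by simpa using shell_subset hyA)) _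
  have hB0 : 0 < ‖yB‖ ^ B :=
    Real.rpow_pos_of_pos (norm_pos_iff.2 (by simpa using shell_subset hyB)) _
  set K₁ : ℝ := C / (‖yA‖ ^ A * V) with hK₁
  set K₂ : ℝ := C / (‖yB‖ ^ B * V) with hK₂
  set ua : ℝ := (K₂ * K₁ ^ q) ^ (1 / (p * q - 1)) with hua
  set ub : ℝ := (K₁ * K₂ ^ p) ^ (1 / (p * q - 1)) with hub
  refine ⟨C * (ua + ub) + 1, by positivity, fun u v h => ?_⟩
  obtain ⟨xa, hxa, hmu⟩ := isCompact_shell.exists_isMinOn hne h.contu.continuousOn
  obtain ⟨xb, hxb, hmv⟩ := isCompact_shell.exists_isMinOn hne h.contv.continuousOn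
  obtain ⟨hfu, hu1⟩ := hmean u h.contu (fun y => (h.posu y).le) h.smoothu (fun y hy => by
    rw [h.equ y hy]
    exact neg_nonpos.2 (mul_nonneg (Real.rpow_nonneg (norm_nonneg _) _)
      (Real.rpow_nonneg (h.posv y).le _))) xa hxa
  obtain ⟨hfv, hv1⟩ := hmean v h.contv (fun y => (h.posv y).le) h.smoothv (fun y hy => by
    rw [h.eqv y hy]
    exact neg_nonpos.2 (mul_nonneg (Real.rpow_nonneg (norm_nonneg _) _)
      (Real.rpow_nonneg (h.posu y).le _))) xb hxb
  have eu : (∫ y in shell n, -lap u y) = ∫ y in shell n, ‖y‖ ^ A * v y ^ p :=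
    setIntegral_congr_fun isCompact_shell.measurableSet fun y hy => by
      simp only [h.equ y (by simpa using shell_subset hy), neg_neg]
  have ev : (∫ y in shell n, -lap v y) = ∫ y in shell n, ‖y‖ ^ B * u y ^ q :=
    setIntegral_congr_fun isCompact_shell.measurableSet fun y hy => by
      simp only [h.eqv y (by simpa using shell_subset hy), neg_neg]
  rw [eu] at hfu
  rw [ev] at hfv
  set a := u xa
  set b := v xb
  have ha : 0 < a := h.posu xa
  have hb : 0 < b := h.posv xb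
  have low : ∀ (E : ℝ) (w : EuclideanSpace ℝ (Fin n) → ℝ) (r : ℝ) (y₀ x₀ : EuclideanSpace ℝ (Fin n)),
      0 ≤ r → Continuous w → (∀ y, 0 < w y) → IsMinOn (fun y => ‖y‖ ^ E) (shell n) y₀ →
      IsMinOn w (shell n) x₀ → ‖y₀‖ ^ E * w x₀ ^ r * V ≤ ∫ y in shell n, ‖y‖ ^ E * w y ^ r :=
    fun E w r y₀ x₀ hr hwc hwp hy₀ hx₀ =>
      setIntegral_ge_of_const_le_real (μ := volume) isCompact_shell.measurableSet isCompact_shell.measure_lt_top.ne
        (fun y hy => mul_le_mul (hy₀ hy) (Real.rpow_le_rpow (hwp x₀).le (hx₀ hy) hr)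
          (Real.rpow_nonneg (hwp x₀).le _) (Real.rpow_nonneg (norm_nonneg _) _))
        (((continuous_norm.continuousOn (s := shell n)).rpow_const fun y hy =>
          Or.inl (norm_ne_zero_iff.2 (by simpa using shell_subset hy))).mul
          (hwc.continuousOn.rpow_const fun y _ => Or.inl (hwp y).ne') |>.integrableOn_compact
            isCompact_shell)
  have hbp : b ^ p ≤ K₁ * a := by
    rw [hK₁, div_mul_eq_mul_div, le_div_iff₀ (mul_pos hA0 hVpos)]
    linarith [(low A v p yA xb hp.le h.contv h.posv hminA hmv).trans hfu]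
  have haq : a ^ q ≤ K₂ * b := by
    rw [hK₂, div_mul_eq_mul_div, le_div_iff₀ (mul_pos hB0 hVpos)]
    linarith [(low B u q yB xa hq.le h.contu h.posu hminB hmu).trans hfv]
  have hK₁0 : 0 < K₁ := by positivity
  have hK₂0 : 0 < K₂ := by positivity
  -- an inequality closing on itself
  have close : ∀ (a b r s L₁ L₂ : ℝ), 0 < a → 0 < b → 0 < s → 0 < L₁ → 0 < L₂ → 1 < r * s →
      b ^ r ≤ L₁ * a → a ^ s ≤ L₂ * b → b ≤ (L₂ * L₁ ^ s) ^ (1 / (r * s - 1)) := by
    intro a b r s L₁ L₂ ha hb hs hL₁ hL₂ hrs h1 h2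
    have e1 := Real.rpow_le_rpow (Real.rpow_nonneg hb.le _) h1 hs.le
    rw [← Real.rpow_mul hb.le, Real.mul_rpow hL₁.le ha.le] at e1
    have e2 : b ^ (r * s) ≤ L₂ * L₁ ^ s * b :=
      e1.trans ((mul_le_mul_of_nonneg_left h2 (Real.rpow_nonneg hL₁.le _)).trans_eq (by ring))
    have e3 : b ^ (r * s - 1) ≤ L₂ * L₁ ^ s := by
      rw [Real.rpow_sub_one hb.ne', div_le_iff₀ hb]
      exact e2
    have := Real.rpow_le_rpow (Real.rpow_nonneg hb.le _) e3
      (by have := sub_pos.2 hrs; positivity : 0 ≤ 1 / (r * s - 1))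
    rwa [← Real.rpow_mul hb.le, mul_one_div_cancel (sub_pos.2 hrs).ne', Real.rpow_one] at this
  have hb' : b ≤ ua := close a b p q K₁ K₂ ha hb hq hK₁0 hK₂0 hpq hbp haq
  have ha' : a ≤ ub := by
    have := close b a q p K₂ K₁ hb ha hp hK₂0 hK₁0 (by linarith) haq hbp
    rwa [mul_comm q p] at this
  have hua0 : 0 ≤ ua := hb.le.trans hb'
  have hub0 : 0 ≤ ub := ha.le.trans ha'
  have k1 : C * a ≤ C * (ua + ub) := mul_le_mul_of_nonneg_left (by linarith) hC.le
  have k2 : C * b ≤ C * (ua + ub) := mul_le_mul_of_nonneg_left (by linarith) hC.le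
  exact ⟨by linarith, by linarith, by linarith, by linarith⟩

end Vale.Agent.P100.Sector
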