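import Vale.Agent.P100.Sector.Basic
import Mathlib.Analysis.SpecialFunctions.JapaneseBracket

/-!
P100, the sector argument: the regularised Newton kernel and the representation it gives for a
function cut off to an annulus.
-/

open MeasureTheory Metric Set Filter Topology

namespace Vale.Agent.P100.Sector

open Vale.Agent.P100.Sys
open Vale.Agent.P100.Cmp (pd_comp lap_comp lap_mul differentiableAt_pd contDiff_pd continuous_lap)

variable {n : ℕ} {x y : EuclideanSpace ℝ (Fin n)} {e : ℝ}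

/-- The regularised kernel. -/
noncomputable def ker (e : ℝ) (x y : EuclideanSpace ℝ (Fin n)) : ℝ :=
  (‖y - x‖ ^ 2 + e) ^ (-(((n : ℝ) - 2) / 2))

theorem ker_base_pos (he : 0 < e) : 0 < ‖y - x‖ ^ 2 + e := by positivity

theorem contDiff_ker {k : WithTop ℕ∞} (he : 0 < e) (x : EuclideanSpace ℝ (Fin n)) :
    ContDiff ℝ k (ker e x) :=
  (((contDiff_norm_sq ℝ).comp (contDiff_id.sub contDiff_const)).add contDiff_const).rpow_const_of_ne
    fun y => (ker_base_pos (x := x) (y := y) he).ne'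

theorem pd_base_ker (i : Fin n) :
    pd i (fun z : EuclideanSpace ℝ (Fin n) => ‖z - x‖ ^ 2 + e) y = 2 * (y i - x i) := by
  have h := ((hasFDerivAt_id (𝕜 := ℝ) y).sub_const x).norm_sq.add_const e
  simp only [id_eq] at h
  show fderiv ℝ _ y _ = _
  rw [h.fderiv]
  simp [EuclideanSpace.inner_single_right]

theorem pd_pd_base_ker (i j : Fin n) :
    pd i (pd j fun z : EuclideanSpace ℝ (Fin n) => ‖z - x‖ ^ 2 + e) y = if i = j then 2 else 0 := by
  rw [pd_congr (Eventually.of_forall fun z => pd_base_ker (x := x) (e := e) (y := z) j) i]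
  have h := (((EuclideanSpace.proj (𝕜 := ℝ) j).hasFDerivAt (x := y)).sub_const (x j)).const_mul
    (2 : ℝ)
  show fderiv ℝ (fun z : EuclideanSpace ℝ (Fin n) => 2 * (z j - x j)) y _ = _
  rw [show fderiv ℝ (fun z : EuclideanSpace ℝ (Fin n) => 2 * (z j - x j)) y = _ from h.fderiv]
  simp [eq_comm]

theorem contDiff_base_ker {k : WithTop ℕ∞} :
    ContDiff ℝ k fun z : EuclideanSpace ℝ (Fin n) => ‖z - x‖ ^ 2 + e :=
  ((contDiff_norm_sq ℝ).comp (contDiff_id.sub contDiff_const)).add contDiff_const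

theorem pd_ker (he : 0 < e) (i : Fin n) :
    pd i (ker e x) y =
      -((n : ℝ) - 2) * (y i - x i) * (‖y - x‖ ^ 2 + e) ^ (-((n : ℝ) / 2)) := by
  show pd i (fun z => (fun t : ℝ => t ^ (-(((n : ℝ) - 2) / 2))) (‖z - x‖ ^ 2 + e)) y = _
  rw [pd_comp (h1 := fun t => -(((n : ℝ) - 2) / 2) * t ^ (-(((n : ℝ) - 2) / 2) - 1))
    (Real.hasDerivAt_rpow_const (Or.inl (ker_base_pos he).ne'))
    (contDiff_base_ker.differentiable (n := 1) (by norm_num) y), pd_base_ker,
    show -(((n : ℝ) - 2) / 2) - 1 = -((n : ℝ) / 2) by ring]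
  ring

theorem pd_pd_ker (he : 0 < e) (i j : Fin n) :
    pd i (pd j (ker e x)) y =
      -((n : ℝ) - 2) * ((if i = j then 1 else 0) * (‖y - x‖ ^ 2 + e) ^ (-((n : ℝ) / 2)) -
        n * ((y j - x j) * (y i - x i)) * (‖y - x‖ ^ 2 + e) ^ (-((n : ℝ) / 2) - 1)) := by
  rw [pd_congr (Eventually.of_forall fun z => pd_ker (x := x) (y := z) he j) i]
  set G : EuclideanSpace ℝ (Fin n) → ℝ := fun z => -((n : ℝ) - 2) * (z j - x j) with hG
  set H : EuclideanSpace ℝ (Fin n) → ℝ := fun z => (‖z - x‖ ^ 2 + e) ^ (-((n : ℝ) / 2)) with hH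
  have hGd : DifferentiableAt ℝ G y :=
    ((((EuclideanSpace.proj (𝕜 := ℝ) j).differentiableAt (x := y)).sub_const (x j)).const_mul _)
  have hHd : DifferentiableAt ℝ H y :=
    (contDiff_base_ker.rpow_const_of_ne fun z => (ker_base_pos (x := x) (y := z) he).ne').differentiable
      (n := 1) (by norm_num) y
  have e1 : pd i G y = -((n : ℝ) - 2) * (if i = j then 1 else 0) := by
    have h := (((EuclideanSpace.proj (𝕜 := ℝ) j).hasFDerivAt (x := y)).sub_const (x j)).const_mul
      (-((n : ℝ) - 2))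
    show fderiv ℝ (fun z : EuclideanSpace ℝ (Fin n) => -((n : ℝ) - 2) * (z j - x j)) y _ = _
    rw [show fderiv ℝ (fun z : EuclideanSpace ℝ (Fin n) => -((n : ℝ) - 2) * (z j - x j)) y = _
      from h.fderiv]
    simp [eq_comm]
  have e2 : pd i H y =
      -(n : ℝ) * (y i - x i) * (‖y - x‖ ^ 2 + e) ^ (-((n : ℝ) / 2) - 1) := by
    show pd i (fun z => (fun t : ℝ => t ^ (-((n : ℝ) / 2))) (‖z - x‖ ^ 2 + e)) y = _
    rw [pd_comp (h1 := fun t => -((n : ℝ) / 2) * t ^ (-((n : ℝ) / 2) - 1))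
      (Real.hasDerivAt_rpow_const (Or.inl (ker_base_pos he).ne'))
      (contDiff_base_ker.differentiable (n := 1) (by norm_num) y), pd_base_ker]
    ring
  rw [show (fun z => -((n : ℝ) - 2) * (z j - x j) * (‖z - x‖ ^ 2 + e) ^ (-((n : ℝ) / 2))) =
    fun z => G z * H z from rfl, pd_mul hGd hHd, e1, e2]
  simp only [hG, hH]
  ring

theorem sum_sq_sub : ∑ i, (y i - x i) * (y i - x i) = ‖y - x‖ ^ 2 := by
  rw [EuclideanSpace.norm_sq_eq]; simp [pow_two]

theorem lap_ker (he : 0 < e) :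
    lap (ker e x) y =
      -((n : ℝ) * ((n : ℝ) - 2)) * e * (‖y - x‖ ^ 2 + e) ^ (-((n : ℝ) / 2) - 1) := by
  have hb := ker_base_pos (x := x) (y := y) he
  simp only [lap, pd_pd_ker he, if_true, one_mul, ← Finset.mul_sum, Finset.sum_sub_distrib,
    Finset.sum_const, Finset.card_univ, Fintype.card_fin, nsmul_eq_mul, ← Finset.sum_mul,
    sum_sq_sub]
  have hp : (‖y - x‖ ^ 2 + e) ^ (-((n : ℝ) / 2)) =
      (‖y - x‖ ^ 2 + e) ^ (-((n : ℝ) / 2) - 1) * (‖y - x‖ ^ 2 + e) := by
    rw [← Real.rpow_add_one hb.ne']; ring_nf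
  rw [hp]
  ring

theorem abs_coord_le (i : Fin n) : |y i - x i| ≤ ‖y - x‖ := by
  have h := PiLp.norm_apply_le (y - x) i
  rwa [Real.norm_eq_abs] at h

theorem base_rpow_le (he : 0 ≤ e) (hne : y ≠ x) {c : ℝ} (hc : 0 ≤ c) :
    (‖y - x‖ ^ 2 + e) ^ (-c) ≤ ‖y - x‖ ^ (-(2 * c)) := by
  have hr : 0 < ‖y - x‖ := norm_pos_iff.2 (sub_ne_zero.2 hne)
  refine (Real.rpow_le_rpow_of_nonpos (pow_pos hr 2) (le_add_of_nonneg_right he)
    (neg_nonpos.2 hc)).trans_eq ?_
  rw [← Real.rpow_natCast ‖y - x‖ 2, ← Real.rpow_mul hr.le]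
  congr 1
  push_cast
  ring

theorem ker_le (hn : 3 ≤ n) (he : 0 < e) (hne : y ≠ x) :
    0 ≤ ker e x y ∧ ker e x y ≤ ‖y - x‖ ^ (-((n : ℝ) - 2)) := by
  have hn3 : (3 : ℝ) ≤ n := by exact_mod_cast hn
  refine ⟨Real.rpow_nonneg (ker_base_pos he).le _, (base_rpow_le he.le hne (by linarith)).trans_eq ?_⟩
  congr 1
  ring

theorem abs_pd_ker_le (hn : 3 ≤ n) (he : 0 < e) (hne : y ≠ x) (i : Fin n) :
    |pd i (ker e x) y| ≤ ((n : ℝ) - 2) * ‖y - x‖ ^ (-((n : ℝ) - 1)) := by
  have hn3 : (3 : ℝ) ≤ n := by exact_mod_cast hn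
  have hr : 0 < ‖y - x‖ := norm_pos_iff.2 (sub_ne_zero.2 hne)
  have hp := base_rpow_le he.le hne (c := (n : ℝ) / 2) (by linarith)
  have hp0 : 0 ≤ (‖y - x‖ ^ 2 + e) ^ (-((n : ℝ) / 2)) := Real.rpow_nonneg (ker_base_pos he).le _
  rw [pd_ker he, abs_mul, abs_mul, abs_neg, abs_of_nonneg (by linarith : (0:ℝ) ≤ (n:ℝ) - 2),
    abs_of_nonneg hp0]
  refine (mul_le_mul (mul_le_mul_of_nonneg_left (abs_coord_le i) (by linarith)) hp hp0
    (mul_nonneg (by linarith) (norm_nonneg _))).trans_eq ?_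
  rw [show -(2 * ((n : ℝ) / 2)) = -((n : ℝ) - 1) - 1 by ring, Real.rpow_sub_one hr.ne']
  field_simp

theorem abs_pd_pd_ker_le (hn : 3 ≤ n) (he : 0 < e) (hne : y ≠ x) (i j : Fin n) :
    |pd i (pd j (ker e x)) y| ≤ ((n : ℝ) - 2) * ((n : ℝ) + 1) * ‖y - x‖ ^ (-(n : ℝ)) := by
  have hn3 : (3 : ℝ) ≤ n := by exact_mod_cast hn
  have hr : 0 < ‖y - x‖ := norm_pos_iff.2 (sub_ne_zero.2 hne)
  have hb := ker_base_pos (x := x) (y := y) he
  have hp := base_rpow_le he.le hne (c := (n : ℝ) / 2) (by linarith)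
  have hp0 : 0 ≤ (‖y - x‖ ^ 2 + e) ^ (-((n : ℝ) / 2)) := Real.rpow_nonneg hb.le _
  have hP1 : 0 ≤ (‖y - x‖ ^ 2 + e) ^ (-((n : ℝ) / 2) - 1) := Real.rpow_nonneg hb.le _
  rw [show -(2 * ((n : ℝ) / 2)) = -(n : ℝ) by ring] at hp
  have h1 : |(if i = j then (1 : ℝ) else 0) * (‖y - x‖ ^ 2 + e) ^ (-((n : ℝ) / 2))| ≤
      ‖y - x‖ ^ (-(n : ℝ)) := by
    split_ifs
    · rwa [one_mul, abs_of_nonneg hp0]
    · rw [zero_mul, abs_zero]; positivity
  have h2 : |(n : ℝ) * ((y j - x j) * (y i - x i)) *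
      (‖y - x‖ ^ 2 + e) ^ (-((n : ℝ) / 2) - 1)| ≤ n * ‖y - x‖ ^ (-(n : ℝ)) := by
    rw [abs_mul, abs_mul, abs_mul, Nat.abs_cast, abs_of_nonneg hP1, mul_assoc]
    refine mul_le_mul_of_nonneg_left (le_trans ?_ hp) (Nat.cast_nonneg n)
    rw [Real.rpow_sub_one hb.ne', ← mul_div_assoc, div_le_iff₀ hb, mul_comm (|y j - x j| * _)]
    refine mul_le_mul_of_nonneg_left ?_ hp0
    refine le_trans ?_ (le_add_of_nonneg_right he.le)
    rw [pow_two]
    exact mul_le_mul (abs_coord_le j) (abs_coord_le i) (abs_nonneg _) (norm_nonneg _)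
  rw [pd_pd_ker he, abs_mul, abs_neg, abs_of_nonneg (by linarith : (0:ℝ) ≤ (n:ℝ) - 2),
    mul_assoc ((n : ℝ) - 2) ((n : ℝ) + 1)]
  refine mul_le_mul_of_nonneg_left ?_ (by linarith : (0:ℝ) ≤ (n:ℝ) - 2)
  refine (abs_sub _ _).trans ((add_le_add h1 h2).trans_eq ?_)
  ring

/-- The mass of the Laplacian of the kernel. -/
noncomputable def kerMass (n : ℕ) : ℝ :=
  (n : ℝ) * ((n : ℝ) - 2) *
    ∫ z : EuclideanSpace ℝ (Fin n), (‖z‖ ^ 2 + 1) ^ (-((n : ℝ) / 2) - 1)

theorem integrable_profile (n : ℕ) :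
    Integrable fun z : EuclideanSpace ℝ (Fin n) => (‖z‖ ^ 2 + 1) ^ (-((n : ℝ) / 2) - 1) := by
  have h := integrable_rpow_neg_one_add_norm_sq (E := EuclideanSpace ℝ (Fin n))
    (μ := (volume : Measure (EuclideanSpace ℝ (Fin n)))) (r := (n : ℝ) + 2)
    (by simp)
  refine h.congr (Eventually.of_forall fun z => ?_)
  simp only [add_comm (‖z‖ ^ 2) 1]
  congr 1
  ring

theorem kerMass_pos (hn : 3 ≤ n) : 0 < kerMass n := by
  have hn3 : (3 : ℝ) ≤ n := by exact_mod_cast hn
  refine mul_pos (mul_pos (by linarith) (by linarith)) ?_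
  have hc : Continuous fun z : EuclideanSpace ℝ (Fin n) =>
      (‖z‖ ^ 2 + 1) ^ (-((n : ℝ) / 2) - 1) :=
    ((continuous_norm.pow 2).add continuous_const).rpow_const fun z =>
      Or.inl (ne_of_gt (add_pos_of_nonneg_of_pos (sq_nonneg ‖z‖) one_pos))
  exact integral_pos_of_integrable_nonneg_nonzero (x := 0) hc (integrable_profile n)
    (fun z => by positivity) (by simp)

/-- The Laplacian of the kernel is an approximate identity. -/
theorem tendsto_lap_ker (x : EuclideanSpace ℝ (Fin n)) {ψ : EuclideanSpace ℝ (Fin n) → ℝ}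
    (hψ : Continuous ψ) {D : ℝ} (hD : ∀ y, |ψ y| ≤ D) :
    Tendsto (fun t : ℝ => ∫ y, ψ y * -lap (ker (t ^ 2) x) y) (𝓝[>] 0)
      (𝓝 (kerMass n * ψ x)) := by
  set P : EuclideanSpace ℝ (Fin n) → ℝ := fun z => (‖z‖ ^ 2 + 1) ^ (-((n : ℝ) / 2) - 1) with hP
  have hPc : Continuous P :=
    ((continuous_norm.pow 2).add continuous_const).rpow_const fun z =>
      Or.inl (ne_of_gt (add_pos_of_nonneg_of_pos (sq_nonneg ‖z‖) one_pos))
  have hP0 : ∀ z, 0 ≤ P z := fun z => Real.rpow_nonneg (by positivity) _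
  set N : ℝ := (n : ℝ) * ((n : ℝ) - 2) with hN
  have hsub : ∀ t : ℝ, 0 < t →
      ∫ y, ψ y * -lap (ker (t ^ 2) x) y = ∫ z, N * (ψ (x + t • z) * P z) := by
    intro t ht
    have e1 : ∫ y, ψ y * -lap (ker (t ^ 2) x) y =
        ∫ w, ψ (x + w) * (N * t ^ 2 * (‖w‖ ^ 2 + t ^ 2) ^ (-((n : ℝ) / 2) - 1)) := by
      rw [← integral_add_left_eq_self (fun y => ψ y * -lap (ker (t ^ 2) x) y) x]
      refine integral_congr_ae (Eventually.of_forall fun w => ?_)
      simp only [lap_ker (pow_pos ht 2), add_sub_cancel_left, hN]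
      ring
    have h2 := Measure.integral_comp_smul_of_nonneg (μ := (volume : Measure (EuclideanSpace ℝ (Fin n))))
      (fun w => ψ (x + w) * (N * t ^ 2 * (‖w‖ ^ 2 + t ^ 2) ^ (-((n : ℝ) / 2) - 1))) t
      (hR := ht.le)
    rw [finrank_euclideanSpace_fin, smul_eq_mul] at h2
    have e3 : (fun z : EuclideanSpace ℝ (Fin n) => ψ (x + t • z) *
        (N * t ^ 2 * (‖t • z‖ ^ 2 + t ^ 2) ^ (-((n : ℝ) / 2) - 1))) =
        fun z => (t ^ n)⁻¹ * (N * (ψ (x + t • z) * P z)) := by
      funext z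
      have hb : (‖t • z‖ ^ 2 + t ^ 2) ^ (-((n : ℝ) / 2) - 1) = (t ^ n)⁻¹ * (t ^ 2)⁻¹ * P z := by
        rw [norm_smul, Real.norm_eq_abs, abs_of_pos ht,
          show (t * ‖z‖) ^ 2 + t ^ 2 = t ^ 2 * (‖z‖ ^ 2 + 1) by ring,
          Real.mul_rpow (by positivity) (by positivity), hP]
        congr 1
        rw [Real.rpow_sub_one (by positivity), ← Real.rpow_natCast t 2, ← Real.rpow_mul ht.le,
          ← Real.rpow_natCast t n, ← Real.rpow_neg ht.le, div_eq_mul_inv]
        congr 2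
        push_cast
        ring
      rw [hb]
      field_simp
    rw [e3, integral_const_mul] at h2
    rw [e1]
    exact (mul_left_cancel₀ (inv_ne_zero (pow_pos ht n).ne') h2).symm
  have hlim : Tendsto (fun t : ℝ => ∫ z, N * (ψ (x + t • z) * P z)) (𝓝[>] 0)
      (𝓝 (∫ z, N * (ψ x * P z))) := by
    refine tendsto_integral_filter_of_dominated_convergence (fun z => |N| * (D * P z))
      (Eventually.of_forall fun t => by
        exact (continuous_const.mul ((hψ.comp (by fun_prop)).mul hPc)).aestronglyMeasurable)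
      (Eventually.of_forall fun t => Eventually.of_forall fun z => ?_)
      (((integrable_profile n).const_mul D).const_mul _) (Eventually.of_forall fun z => ?_)
    · rw [Real.norm_eq_abs, abs_mul, abs_mul (ψ _), abs_of_nonneg (hP0 z)]
      exact mul_le_mul_of_nonneg_left (mul_le_mul_of_nonneg_right (hD _) (hP0 z)) (abs_nonneg _)
    · refine Tendsto.mono_left ?_ nhdsWithin_le_nhds
      have : Continuous fun t : ℝ => N * (ψ (x + t • z) * P z) := by fun_prop
      simpa using this.tendsto 0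
  rw [show kerMass n * ψ x = ∫ z, N * (ψ x * P z) by
    simp only [kerMass, integral_const_mul, hN, hP]; ring]
  exact hlim.congr' (eventually_mem_nhdsWithin.mono fun t ht => (hsub t ht).symm)

theorem support_pd_subset (φ : EuclideanSpace ℝ (Fin n) → ℝ) (i : Fin n) :
    tsupport (pd i φ) ⊆ tsupport φ :=
  closure_minimal (fun z hz => by
    by_contra h
    exact hz (pd_eq_zero_of_notMem i h)) (isClosed_tsupport φ)

theorem hasCompactSupport_pd {φ : EuclideanSpace ℝ (Fin n) → ℝ} (hc : HasCompactSupport φ)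
    (i : Fin n) : HasCompactSupport (pd i φ) :=
  hc.of_isClosed_subset (isClosed_tsupport _) (support_pd_subset φ i)

/-- The derivative of the kernel against a Laplacian. -/
theorem integral_pd_ker_lap (he : 0 < e) (x : EuclideanSpace ℝ (Fin n))
    {φ : EuclideanSpace ℝ (Fin n) → ℝ} (hφ : ContDiff ℝ 2 φ) (hc : HasCompactSupport φ) (j : Fin n) :
    ∫ y, pd j (ker e x) y * lap φ y = -∫ y, lap (ker e x) y * pd j φ y := by
  set K := ker e x with hKdef
  have hK : ContDiff ℝ 2 K := contDiff_ker he x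
  have hd : ∀ i, ContDiff ℝ 1 (pd i φ) := fun i => contDiff_pd hφ i
  have hKd : ∀ i, ContDiff ℝ 1 (pd i K) := fun i => contDiff_pd hK i
  have hc' : ∀ i, HasCompactSupport (pd i φ) := hasCompactSupport_pd hc
  have hcc : ∀ (i k : Fin n), Continuous (pd k (pd i φ)) := fun i k =>
    ((hd i).continuous_fderiv (by norm_num)).clm_apply continuous_const
  have hck : ∀ (i k : Fin n), Continuous (pd k (pd i K)) := fun i k =>
    ((hKd i).continuous_fderiv (by norm_num)).clm_apply continuous_const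
  have hi1 : ∀ i, Integrable fun y => pd j K y * pd i (pd i φ) y := fun i =>
    ((hKd j).continuous.mul (hcc i i)).integrable_of_hasCompactSupport
      (hasCompactSupport_pd (hc' i) i).mul_left
  have hi2 : ∀ i, Integrable fun y => pd i (pd i K) y * pd j φ y := fun i =>
    ((hck i i).mul (hd j).continuous).integrable_of_hasCompactSupport (hc' j).mul_left
  simp only [lap, Finset.mul_sum, Finset.sum_mul]
  rw [integral_finsetSum _ fun i _ => hi1 i, integral_finsetSum _ fun i _ => hi2 i,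
    ← Finset.sum_neg_distrib]
  refine Finset.sum_congr rfl fun i _ => ?_
  have e1 := integral_pd_mul isOpen_univ (hKd j).contDiffOn (hd i) (hc' i) (subset_univ _) i
  have e2 := integral_pd_mul isOpen_univ (hKd i).contDiffOn (hd i) (hc' i) (subset_univ _) j
  have e3 := integral_pd_mul isOpen_univ (hKd i).contDiffOn (hd j) (hc' j) (subset_univ _) i
  have s1 : ∫ y, pd i (pd j K) y * pd i φ y = ∫ y, pd j (pd i K) y * pd i φ y :=
    integral_congr_ae (Eventually.of_forall fun y => by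
      simp only
      rw [pd_symm isOpen_univ hK.contDiffOn (mem_univ y) i j])
  have s2 : ∫ y, pd i K y * pd j (pd i φ) y = ∫ y, pd i K y * pd i (pd j φ) y :=
    integral_congr_ae (Eventually.of_forall fun y => by
      simp only
      rw [pd_symm isOpen_univ hφ.contDiffOn (mem_univ y) i j])
  linarith

/-- A smooth function against the Laplacian of a function cut off to a set away from the origin. -/
theorem integral_lap_cutoff {G η w : EuclideanSpace ℝ (Fin n) → ℝ} (hG : ContDiff ℝ 2 G)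
    (hη : ContDiff ℝ 2 η) (hc : HasCompactSupport η)
    {Ω : Set (EuclideanSpace ℝ (Fin n))} (hΩ : IsOpen Ω) (hs : tsupport η ⊆ Ω)
    (hw : ContDiffOn ℝ 2 w Ω) :
    ∫ y, G y * lap (fun z => η z * w z) y = (∫ y, G y * (η y * lap w y)) -
      ∫ y, w y * (2 * ∑ i, pd i G y * pd i η y + G y * lap η y) := by
  have hηd : ∀ i, ContDiff ℝ 1 (pd i η) := fun i => contDiff_pd hη i
  have hGd : ∀ i, ContDiff ℝ 1 (pd i G) := fun i => contDiff_pd hG i
  have hw1 : ContDiffOn ℝ 1 w Ω := hw.of_le (by norm_num)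
  set ψ : Fin n → EuclideanSpace ℝ (Fin n) → ℝ := fun i y => G y * pd i η y with hψ
  have hψd : ∀ i, ContDiff ℝ 1 (ψ i) := fun i => (hG.of_le (by norm_num)).mul (hηd i)
  have hψc : ∀ i, HasCompactSupport (ψ i) := fun i => (hasCompactSupport_pd hc i).mul_left
  have hψs : ∀ i, tsupport (ψ i) ⊆ Ω := fun i =>
    ((closure_mono fun z hz => right_ne_zero_of_mul hz).trans (support_pd_subset η i)).trans hs
  have ibp : ∀ i, ∫ y, w y * pd i (ψ i) y = -∫ y, pd i w y * ψ i y := fun i =>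
    integral_pd_mul hΩ hw1 (hψd i) (hψc i) (hψs i) i
  have hlw : ContinuousOn (lap w) Ω := continuousOn_finsetSum _ fun i _ =>
    continuousOn_pd hΩ (contDiffOn_pd (m := 1) hΩ hw (by norm_num) i) le_rfl i
  have hle : Continuous (lap η) := continuous_lap hη
  have hpw : ∀ i, ContinuousOn (pd i w) Ω := fun i => continuousOn_pd hΩ hw (by norm_num) i
  have hzero : ∀ y ∉ tsupport η, η y = 0 ∧ (∀ i, pd i η y = 0) ∧ lap η y = 0 := fun y hy =>
    ⟨image_eq_zero_of_notMem_tsupport hy, fun i => pd_eq_zero_of_notMem i hy,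
      Finset.sum_eq_zero fun i _ => pd_eq_zero_of_notMem i fun h => hy (support_pd_subset η i h)⟩
  have hpp : ∀ (i : Fin n) y, pd i (ψ i) y = pd i G y * pd i η y + G y * pd i (pd i η) y :=
    fun i y => by
      rw [hψ, pd_mul (hG.differentiable (by norm_num) y) ((hηd i).differentiable (by norm_num) y)]
      ring
  have hlap : (fun y => G y * lap (fun z => η z * w z) y) = fun y =>
      G y * (η y * lap w y) + ((2 * ∑ i, pd i w y * ψ i y) + G y * (lap η y * w y)) := by
    funext y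
    by_cases hy : y ∈ Ω
    swap
    · obtain ⟨h1, h2, h3⟩ := hzero y fun h => hy (hs h)
      have h0 : tsupport (fun z => η z * w z) ⊆ tsupport η :=
        closure_mono fun z hz => left_ne_zero_of_mul hz
      have : lap (fun z => η z * w z) y = 0 := Finset.sum_eq_zero fun i _ =>
        pd_eq_zero_of_notMem i fun h => hy (hs (h0 (support_pd_subset _ i h)))
      simp [this, h1, h2, h3, hψ]
    · rw [lap_mul hη.contDiffAt (hw.contDiffAt (hΩ.mem_nhds hy)), hψ]
      simp only [mul_add, Finset.mul_sum]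
      rw [add_assoc]
      refine congrArg₂ (· + ·) rfl (congrArg₂ (· + ·) (Finset.sum_congr rfl fun i _ => ?_) rfl)
      ring
  have i1 : Integrable fun y => G y * (η y * lap w y) :=
    integrable_of_support hΩ hc hs (hG.continuous.continuousOn.mul (hη.continuous.continuousOn.mul hlw))
      fun y hy => by simp [(hzero y hy).1]
  have i2 : ∀ i, Integrable fun y => pd i w y * ψ i y := fun i =>
    integrable_of_support hΩ hc hs ((hpw i).mul (hψd i).continuous.continuousOn)
      fun y hy => by simp [hψ, (hzero y hy).2.1 i]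
  have i3 : Integrable fun y => G y * (lap η y * w y) :=
    integrable_of_support hΩ hc hs
      (hG.continuous.continuousOn.mul (hle.continuousOn.mul hw.continuousOn))
      fun y hy => by simp [(hzero y hy).2.2]
  have i4 : ∀ i, Integrable fun y => w y * pd i (ψ i) y := fun i =>
    integrable_of_support hΩ hc hs (hw.continuousOn.mul
      (((hψd i).continuous_fderiv (by norm_num)).clm_apply continuous_const).continuousOn)
      fun y hy => by
        rw [pd_eq_zero_of_notMem i fun h => hy (support_pd_subset η i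
          ((closure_mono fun z hz => right_ne_zero_of_mul hz) h)), mul_zero]
  have isum : Integrable fun y => 2 * ∑ i, pd i w y * ψ i y :=
    (integrable_finsetSum _ fun i _ => i2 i).const_mul 2
  have icomb : Integrable fun y => (2 * ∑ i, pd i w y * ψ i y) + G y * (lap η y * w y) :=
    isum.add i3
  have ifour : Integrable fun y => 2 * ∑ i, w y * pd i (ψ i) y :=
    (integrable_finsetSum _ fun i _ => i4 i).const_mul 2
  rw [hlap, integral_add i1 icomb, integral_add isum i3, integral_const_mul,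
    integral_finsetSum _ fun i _ => i2 i]
  have e : (fun y => w y * (2 * ∑ i, pd i G y * pd i η y + G y * lap η y)) =
      fun y => (2 * ∑ i, w y * pd i (ψ i) y) - G y * (lap η y * w y) := by
    funext y
    simp only [hpp, mul_add, Finset.sum_add_distrib, ← Finset.mul_sum, lap]
    ring
  rw [e, integral_sub ifour i3, integral_const_mul, integral_finsetSum _ fun i _ => i4 i]
  simp only [ibp, Finset.sum_neg_distrib]
  ring

end Vale.Agent.P100.Sector
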