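import Vale.Agent.P100.Sector.Poho.Origin

/-!
P100, the sector argument: the Pohozaev inequality across the origin.
-/

open MeasureTheory Metric Set Filter Topology

namespace Vale.Agent.P100.Sector

open Vale.Agent.P100.Sys
open Vale.Agent.P100.Wt (rw' rw'_eq)

variable {n : ℕ} {A B p q : ℝ} {u v : EuclideanSpace ℝ (Fin n) → ℝ}

/-- The energy density is locally integrable. -/
theorem integrableOn_dens (hn : 3 ≤ n) (hA : -2 < A) (hB : -2 < B) (hp : 0 < p) (hq : 0 < q)
    (h : Sol n A B p q u v) (r : ℝ) : IntegrableOn (dens A B p q u v) (closedBall 0 r) :=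
  integrableOn_dens' hn hA hB hp hq h r

/-- The Pohozaev inequality: the energy of a ball is bounded by the boundary density on a slab. -/
theorem exists_pohozaev (hn : 3 ≤ n) (hA : -2 < A) (hB : -2 < B) (hp : 0 < p) (hq : 0 < q)
    (hsub : (n : ℝ) - 2 < ((n : ℝ) + A) / (p + 1) + ((n : ℝ) + B) / (q + 1)) :
    ∃ C : ℝ, 0 < C ∧ ∀ u v : EuclideanSpace ℝ (Fin n) → ℝ, Sol n A B p q u v →
      ∀ ρ δ : ℝ, 1 ≤ ρ → ρ ≤ 2 → 0 < δ → δ ≤ 1 / 24 →
        energy A B p q u v (ρ - δ) ≤ C / δ * ∫ x in slab n ρ δ, bdry A B p q u v x := by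
  set c₁ := ((n : ℝ) + A) / (p + 1) with hc₁
  set c₂ := ((n : ℝ) + B) / (q + 1) with hc₂
  set d := (c₁ + c₂ - ((n : ℝ) - 2)) / 2 with hd
  have hd0 : 0 < d := by rw [hd]; linarith
  set a₁ := c₁ - d with ha₁
  set a₂ := c₂ - d with ha₂
  obtain ⟨M, hM0, hM⟩ := exists_pd_slabCut n
  set L := 9 + |a₁| + |a₂| with hL
  refine ⟨(n : ℝ) * L * M / d, by positivity, fun u v h ρ δ hρ1 hρ2 hδ hδ' => ?_⟩
  set η := slabCut n ρ δ with hη
  have hρ : 0 < ρ := by linarith
  have hδρ : δ < ρ := by linarith
  have hΩ : IsOpen ({0}ᶜ : Set (EuclideanSpace ℝ (Fin n))) := isOpen_compl_singleton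
  set c := (ρ - δ) / 4 with hc
  have hc0 : 0 < c := by rw [hc]; linarith
  set r := fun k : ℕ => c * (1 / 2 : ℝ) ^ k
  have hr : Tendsto r atTop (𝓝[>] 0) := tendsto_radii hc0
  have hrk : ∀ k, 0 < r k ∧ 2 * r k < ρ - δ := fun k => by
    refine ⟨mul_pos hc0 (pow_pos (by norm_num) k), ?_⟩
    have : r k ≤ c := mul_le_of_le_one_right hc0.le (pow_le_one₀ (by norm_num) (by norm_num))
    rw [hc] at this; linarith
  have hηd : ContDiff ℝ 1 η := contDiff_slabCut (k := 1) ρ δ
  set S := slab n ρ δ
  have hSc : IsCompact S := (isCompact_closedBall (0 : EuclideanSpace ℝ (Fin n)) 4).of_isClosed_subset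
    (isClosed_slab ρ δ) (slab_subset_closedBall (by linarith) (by linarith))
  have hS0 : S ⊆ {0}ᶜ := fun x hx h0 => by
    rw [mem_singleton_iff] at h0
    have := (abs_le.1 (show |‖x‖ - ρ| ≤ δ from hx)).1
    rw [h0, norm_zero] at this
    linarith
  have hbi : IntegrableOn (bdry A B p q u v) S := by
    have hdens : ContinuousOn (dens A B p q u v) {0}ᶜ :=
      ((continuous_norm.continuousOn.rpow_const fun x hx => Or.inl (norm_ne_zero_iff.2 hx)).mul
        (h.contv.rpow_const fun x => Or.inr (by linarith)).continuousOn).add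
      ((continuous_norm.continuousOn.rpow_const fun x hx => Or.inl (norm_ne_zero_iff.2 hx)).mul
        (h.contu.rpow_const fun x => Or.inr (by linarith)).continuousOn)
    have hU := continuousOn_gradAbs h.smoothu
    have hV := continuousOn_gradAbs h.smoothv
    exact (((((hU.mul hV).add (h.contu.continuousOn.mul hV)).add (h.contv.continuousOn.mul hU)).add
      hdens).mono hS0).integrableOn_compact hSc
  set I := ∫ x in S, bdry A B p q u v x with hI
  -- the divergence identity against the punctured cutoff
  have hk : ∀ k, d * ∫ x, dens A B p q u v x * ((1 - cut n (r k) x) * η x) ≤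
      (n : ℝ) * (L * M / δ * I) +
        ∑ i, ∫ x, |pohoZ A B p q a₁ a₂ u v i x * (η x * pd i (cut n (r k)) x)| := by
    intro k
    obtain ⟨hk0, hk1⟩ := hrk k
    set φ := fun x => (1 - cut n (r k) x) * η x with hφ
    have hφd : ContDiff ℝ 1 φ := (contDiff_const.sub (contDiff_cut.of_le (by norm_num))).mul hηd
    have hKc : IsCompact (closedBall (0 : EuclideanSpace ℝ (Fin n)) (ρ + δ) \ ball 0 (r k)) :=
      (isCompact_closedBall _ _).diff isOpen_ball
    have hsupp : ∀ x ∉ closedBall (0 : EuclideanSpace ℝ (Fin n)) (ρ + δ) \ ball 0 (r k), φ x = 0 := by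
      intro x hx
      rw [Set.mem_sdiff, not_and_or, not_not] at hx
      rcases hx with hx | hx
      · rw [mem_closedBall_zero_iff, not_le] at hx
        simp [φ, hη, slabCut_eq_zero hδ hρ hx.le]
      · simp [φ, cut_eq_one hk0 (mem_ball_zero_iff.1 hx).le]
    have hφc : HasCompactSupport φ :=
      HasCompactSupport.of_support_subset_isCompact hKc fun x hx => by
        by_contra hc
        exact hx (hsupp x hc)
    have hts : tsupport φ ⊆ closedBall (0 : EuclideanSpace ℝ (Fin n)) (ρ + δ) \ ball 0 (r k) :=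
      closure_minimal (fun x hx => by by_contra hc; exact hx (hsupp x hc)) hKc.isClosed
    have hK0 : closedBall (0 : EuclideanSpace ℝ (Fin n)) (ρ + δ) \ ball 0 (r k) ⊆ {0}ᶜ :=
      fun x hx h0 => hx.2 (by rw [mem_singleton_iff] at h0; simp [h0, hk0])
    have hZ := fun i => contDiffOn_pohoZ h a₁ a₂ i
    have hint : ∀ i, Integrable fun x => pd i (pohoZ A B p q a₁ a₂ u v i) x * φ x := fun i =>
      integrable_of_support hΩ hKc hK0
        ((continuousOn_pd hΩ (hZ i) le_rfl i).mul hφd.continuous.continuousOn)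
        fun x hx => by simp [hsupp x hx]
    have hint2 : ∀ i, Integrable fun x =>
        |pohoZ A B p q a₁ a₂ u v i x * (η x * pd i (cut n (r k)) x)| := fun i => by
      refine (integrable_of_support hΩ (K := closedBall 0 (2 * r k) \ ball 0 (r k))
        ((isCompact_closedBall _ _).diff isOpen_ball)
        (fun x hx h0 => hx.2 (by rw [mem_singleton_iff] at h0; simp [h0, hk0]))
        ((hZ i).continuousOn.mul ((hηd.continuous.mul
          ((Cmp.contDiff_pd contDiff_cut i).continuous)).continuousOn)) fun x hx => ?_).abs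
      rw [Set.mem_sdiff, not_and_or, not_not] at hx
      rcases hx with hx | hx
      · rw [mem_closedBall_zero_iff, not_le] at hx
        simp [(Cmp.pd_cut_eq_zero hk0 (Or.inr hx)).1 i]
      · simp [(Cmp.pd_cut_eq_zero hk0 (Or.inl (mem_ball_zero_iff.1 hx))).1 i]
    have hdiv : ∀ x, d * (dens A B p q u v x * φ x) =
        ∑ i, pd i (pohoZ A B p q a₁ a₂ u v i) x * φ x := fun x => by
      rw [← Finset.sum_mul]
      by_cases hx : φ x = 0
      · simp [hx]
      · have hx0 : x ≠ 0 := fun e => hx (hsupp x fun hc => (hK0 hc) (by simp [e]))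
        rw [sum_pd_pohoZ hp hq h (by rw [ha₁, ha₂, hd]; ring) hx0, dens_eq, ← hc₁, ← hc₂, ha₁, ha₂]
        ring
    have hb : ∀ i, -∫ x, pohoZ A B p q a₁ a₂ u v i x * pd i φ x ≤ L * M / δ * I +
        ∫ x, |pohoZ A B p q a₁ a₂ u v i x * (η x * pd i (cut n (r k)) x)| := by
      intro i
      have hSi : Integrable (S.indicator fun x => L * M / δ * bdry A B p q u v x) :=
        (integrable_indicator_iff (measurableSet_slab ρ δ)).2 (hbi.const_mul _)
      rw [← integral_neg, hI, ← integral_const_mul, ← integral_indicator (measurableSet_slab ρ δ),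
        ← integral_add hSi (hint2 i)]
      refine integral_mono ?_ (hSi.add (hint2 i)) fun x => ?_
      · exact (integrable_of_support hΩ hKc hK0
          ((hZ i).continuousOn.mul ((hφd.continuous_fderiv (by norm_num)).clm_apply
            continuous_const).continuousOn) fun x hx => by
          have := pd_eq_zero_of_notMem (φ := φ) i fun hc => hx (hts hc)
          rw [pd] at this
          simp [this]).neg
      show -(pohoZ A B p q a₁ a₂ u v i x * pd i φ x) ≤ _
      rw [show pd i φ x = (1 - cut n (r k) x) * pd i η x + -pd i (cut n (r k)) x * η x by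
        rw [hφ, pd_mul ((contDiff_cut.differentiable (by norm_num) x).const_sub 1)
          (hηd.differentiable (by norm_num) x),
          pd_sub (differentiableAt_const _) (contDiff_cut.differentiable (by norm_num) x)]
        simp [pd]]
      have h2 := le_abs_self (pohoZ A B p q a₁ a₂ u v i x * (η x * pd i (cut n (r k)) x))
      suffices -(pohoZ A B p q a₁ a₂ u v i x * ((1 - cut n (r k) x) * pd i η x)) ≤
          S.indicator (fun x => L * M / δ * bdry A B p q u v x) x by linarith
      by_cases hx : x ∈ S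
      swap
      · simp [hη, (hM ρ δ hδ hδρ i x).2 hx, indicator_of_notMem hx]
      rw [indicator_of_mem hx]
      have hxn : ‖x‖ ≤ 3 := by
        linarith [(abs_le.1 (show |‖x‖ - ρ| ≤ δ from hx)).2]
      have hZb : |pohoZ A B p q a₁ a₂ u v i x| ≤ L * bdry A B p q u v x := by
        refine (abs_pohoZ_le hp hq h a₁ a₂ i x).trans ?_
        have g0 := mul_nonneg (gradAbs_nonneg u x) (gradAbs_nonneg v x)
        have g1 := mul_nonneg (h.posu x).le (gradAbs_nonneg v x)
        have g2 := mul_nonneg (h.posv x).le (gradAbs_nonneg u x)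
        have g3 := dens_nonneg h x
        have := mul_le_mul_of_nonneg_right hxn
          (by positivity : 0 ≤ 3 * (gradAbs u x * gradAbs v x) + dens A B p q u v x)
        simp only [hL, bdry]
        nlinarith [abs_nonneg a₁, abs_nonneg a₂]
      refine (neg_le_abs _).trans ?_
      rw [abs_mul, abs_mul, abs_of_nonneg (sub_nonneg.2 cut_le_one)]
      calc |pohoZ A B p q a₁ a₂ u v i x| * ((1 - cut n (r k) x) * |pd i η x|)
          ≤ L * bdry A B p q u v x * (1 * (M / δ)) :=
            mul_le_mul hZb (mul_le_mul (sub_le_self _ cut_nonneg) (hM ρ δ hδ hδρ i x).1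
              (abs_nonneg _) zero_le_one) (mul_nonneg (sub_nonneg.2 cut_le_one) (abs_nonneg _))
              (mul_nonneg (by positivity) (bdry_nonneg h x))
        _ = _ := by ring
    calc d * ∫ x, dens A B p q u v x * ((1 - cut n (r k) x) * η x)
        = ∑ i, ∫ x, pd i (pohoZ A B p q a₁ a₂ u v i) x * φ x := by
          rw [← integral_const_mul, ← integral_finsetSum _ fun i _ => hint i]
          exact integral_congr_ae (Eventually.of_forall hdiv)
      _ = ∑ i, -∫ x, pohoZ A B p q a₁ a₂ u v i x * pd i φ x :=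
          Finset.sum_congr rfl fun i _ => by
            rw [integral_pd_mul hΩ (hZ i) hφd hφc (hts.trans hK0) i, neg_neg]
      _ ≤ _ := (Finset.sum_le_sum fun i _ => hb i).trans_eq (by simp [Finset.sum_add_distrib])
  -- remove the puncture
  have hdi : Integrable fun x => dens A B p q u v x * η x := by
    refine IntegrableOn.integrable_of_forall_notMem_eq_zero (s := closedBall 0 (ρ + δ)) ?_
      fun x hx => ?_
    · exact (integrableOn_dens hn hA hB hp hq h _).mul_continuousOn hηd.continuous.continuousOn
        (isCompact_closedBall _ _)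
    · rw [mem_closedBall_zero_iff, not_le] at hx
      simp [hη, slabCut_eq_zero hδ hρ hx.le]
  have hη1 : ∀ x, 0 ≤ η x ∧ η x ≤ 1 := fun x =>
    ⟨slabCut_nonneg ρ δ x, Real.smoothTransition.le_one _⟩
  have hlim : Tendsto (fun k => ∫ x, dens A B p q u v x * ((1 - cut n (r k) x) * η x)) atTop
      (𝓝 (∫ x, dens A B p q u v x * η x)) := by
    refine tendsto_integral_of_dominated_convergence (fun x => dens A B p q u v x * η x)
      (fun k => ?_) hdi (fun k => Eventually.of_forall fun x => ?_) ?_
    · simp only [mul_comm (1 - cut n (r k) _), ← mul_assoc]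
      exact hdi.aestronglyMeasurable.mul
        (continuous_const.sub contDiff_cut.continuous).aestronglyMeasurable
    · rw [Real.norm_eq_abs, abs_of_nonneg (mul_nonneg (dens_nonneg h x)
        (mul_nonneg (sub_nonneg.2 cut_le_one) (hη1 x).1))]
      exact mul_le_mul_of_nonneg_left (mul_le_of_le_one_left (hη1 x).1 (sub_le_self _ cut_nonneg))
        (dens_nonneg h x)
    · filter_upwards [ae_ne_zero (n := n) (by omega)] with x hx
      exact tendsto_const_nhds.congr' ((one_sub_cut_eventually_one hr hx).mono fun k hk => by simp [hk])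
  have hfin := le_of_tendsto_of_tendsto' (hlim.const_mul d)
    ((tendsto_origin hn hA hB hp hq h a₁ a₂ hη1 hr).const_add ((n : ℝ) * (L * M / δ * I))) hk
  rw [add_zero] at hfin
  have he : energy A B p q u v (ρ - δ) ≤ ∫ x, dens A B p q u v x * η x := by
    rw [energy, ← integral_indicator measurableSet_closedBall]
    refine integral_mono ((integrable_indicator_iff measurableSet_closedBall).2
      (integrableOn_dens hn hA hB hp hq h _)) hdi fun x => ?_
    by_cases hx : x ∈ closedBall (0 : EuclideanSpace ℝ (Fin n)) (ρ - δ)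
    · rw [indicator_of_mem hx, hη, slabCut_eq_one hδ hδρ (mem_closedBall_zero_iff.1 hx), mul_one]
    · rw [indicator_of_notMem hx]
      exact mul_nonneg (dens_nonneg h x) (hη1 x).1
  have e : (n : ℝ) * L * M / d / δ * I = (n : ℝ) * (L * M / δ * I) / d := by ring
  rw [e, le_div_iff₀ hd0]
  linarith [mul_le_mul_of_nonneg_left he hd0.le]

end Vale.Agent.P100.Sector
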