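import Vale.Agent.P100.Sector.Mean

/-!
P100, the sector argument: a function with a prescribed Laplacian off the origin and its gradient
are bounded, inside an annulus, by potentials of the cut off Laplacian and by the integral of the
function over a shell.
-/

open MeasureTheory Metric Set Filter Topology
open scoped ENNReal

namespace Vale.Agent.P100.Sector

open Vale.Agent.P100.Sys
open Vale.Agent.P100.Cmp (pd_comp lap_comp contDiff_pd continuous_lap)

variable {n : ℕ}

/-- A smooth even profile, one for `z ^ 2 ≤ 3 / 4` and zero for `z ^ 2 ≥ 1`. -/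
noncomputable def profile (z : ℝ) : ℝ := Real.smoothTransition (4 * (1 - z ^ 2))

theorem contDiff_profile : ContDiff ℝ 2 profile :=
  Real.smoothTransition.contDiff.comp (contDiff_const.mul (contDiff_const.sub (contDiff_id.pow 2)))

theorem hasCompactSupport_profile : HasCompactSupport profile := by
  refine HasCompactSupport.of_support_subset_isCompact (isCompact_Icc (a := (-1 : ℝ)) (b := 1))
    fun z hz => ?_
  by_contra h
  refine hz (Real.smoothTransition.zero_of_nonpos ?_)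
  rw [mem_Icc, ← abs_le, not_le] at h
  nlinarith [sq_abs z]

theorem exists_profile_bounds : ∃ S : ℝ, 0 < S ∧ ∀ z, |deriv profile z| ≤ S ∧
    |deriv (deriv profile) z| ≤ S := by
  have h1 : ContDiff ℝ 1 (deriv profile) :=
    ((contDiff_succ_iff_deriv (n := 1)).1 (by simpa [one_add_one_eq_two] using contDiff_profile)).2.2
  obtain ⟨S₁, hS₁⟩ := hasCompactSupport_profile.deriv.exists_bound_of_continuous h1.continuous
  obtain ⟨S₂, hS₂⟩ := hasCompactSupport_profile.deriv.deriv.exists_bound_of_continuous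
    (h1.continuous_deriv le_rfl)
  refine ⟨|S₁| + |S₂| + 1, by positivity, fun z => ⟨?_, ?_⟩⟩
  · have := hS₁ z
    rw [Real.norm_eq_abs] at this
    linarith [le_abs_self S₁, abs_nonneg S₂]
  · have := hS₂ z
    rw [Real.norm_eq_abs] at this
    linarith [le_abs_self S₂, abs_nonneg S₁]

/-- The cutoff to the annulus of mean radius `m` and width `h`. -/
noncomputable def annCut (n : ℕ) (m h : ℝ) (y : EuclideanSpace ℝ (Fin n)) : ℝ :=
  profile ((‖y‖ ^ 2 - m ^ 2) / (h / 2 * (2 * m - h / 2)))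

theorem annCut_mem (m h : ℝ) (y : EuclideanSpace ℝ (Fin n)) :
    0 ≤ annCut n m h y ∧ annCut n m h y ≤ 1 :=
  ⟨Real.smoothTransition.nonneg _, Real.smoothTransition.le_one _⟩

theorem contDiff_annCut (m h : ℝ) : ContDiff ℝ 2 (annCut n m h) :=
  contDiff_profile.comp (((contDiff_norm_sq ℝ).sub contDiff_const).div_const _)

section

variable {m h : ℝ} (hh : 0 < h) (hhm : h ≤ m)

include hh hhm

theorem annCut_scale_pos : 0 < h / 2 * (2 * m - h / 2) := mul_pos (by linarith) (by linarith)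

theorem annCut_eq_one {y : EuclideanSpace ℝ (Fin n)} (hy : |‖y‖ - m| ≤ h / 4) :
    annCut n m h y = 1 := by
  have hW := annCut_scale_pos hh hhm
  refine Real.smoothTransition.one_of_one_le ?_
  obtain ⟨h1, h2⟩ := abs_le.1 hy
  have hb : |‖y‖ ^ 2 - m ^ 2| ≤ 3 / 4 * (h / 2 * (2 * m - h / 2)) := by
    rw [show ‖y‖ ^ 2 - m ^ 2 = (‖y‖ - m) * (‖y‖ + m) by ring, abs_mul,
      abs_of_nonneg (by linarith [norm_nonneg y] : 0 ≤ ‖y‖ + m)]
    refine (mul_le_mul hy (by linarith : ‖y‖ + m ≤ 2 * m + h / 4)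
      (by linarith [norm_nonneg y]) (by linarith)).trans ?_
    nlinarith [mul_nonneg hh.le (sub_nonneg.2 hhm)]
  have hz : |(‖y‖ ^ 2 - m ^ 2) / (h / 2 * (2 * m - h / 2))| ≤ 3 / 4 := by
    rw [abs_div, abs_of_pos hW, div_le_iff₀ hW]
    exact hb
  nlinarith [sq_abs ((‖y‖ ^ 2 - m ^ 2) / (h / 2 * (2 * m - h / 2))),
    abs_nonneg ((‖y‖ ^ 2 - m ^ 2) / (h / 2 * (2 * m - h / 2)))]

theorem annCut_eq_zero {y : EuclideanSpace ℝ (Fin n)} (hy : h / 2 < |‖y‖ - m|) :
    annCut n m h y = 0 := by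
  have hW := annCut_scale_pos hh hhm
  refine Real.smoothTransition.zero_of_nonpos ?_
  have hb : h / 2 * (2 * m - h / 2) ≤ |‖y‖ ^ 2 - m ^ 2| := by
    rcases lt_abs.1 hy with h1 | h1
    · rw [abs_of_nonneg (by nlinarith)]
      nlinarith
    · rw [abs_of_nonpos (by nlinarith [norm_nonneg y])]
      nlinarith [norm_nonneg y]
  have hz : 1 ≤ |(‖y‖ ^ 2 - m ^ 2) / (h / 2 * (2 * m - h / 2))| := by
    rw [abs_div, abs_of_pos hW, le_div_iff₀ hW, one_mul]
    exact hb
  nlinarith [sq_abs ((‖y‖ ^ 2 - m ^ 2) / (h / 2 * (2 * m - h / 2)))]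

theorem tsupport_annCut_subset :
    tsupport (annCut n m h) ⊆ {y : EuclideanSpace ℝ (Fin n) | |‖y‖ - m| ≤ h / 2} :=
  closure_minimal (fun _ hy => not_lt.1 fun h' => hy (annCut_eq_zero hh hhm h'))
    (isClosed_le (continuous_norm.sub continuous_const).abs continuous_const)

theorem hasCompactSupport_annCut : HasCompactSupport (annCut n m h) := by
  refine HasCompactSupport.of_support_subset_isCompact (isCompact_closedBall 0 (m + h / 2))
    fun y hy => ?_
  rw [mem_closedBall_zero_iff]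
  linarith [(abs_le.1 (show |‖y‖ - m| ≤ h / 2 from tsupport_annCut_subset hh hhm (subset_closure hy))).2]

theorem tsupport_annCut_compl : tsupport (annCut n m h) ⊆ {0}ᶜ := fun y hy h0 => by
  rw [mem_singleton_iff] at h0
  have := tsupport_annCut_subset hh hhm hy
  rw [h0, mem_ofPred_eq, norm_zero, zero_sub, abs_neg, abs_of_pos (by linarith)] at this
  linarith

theorem annCut_deriv_zero {y : EuclideanSpace ℝ (Fin n)} (hy : |‖y‖ - m| < h / 4) :
    (∀ i, pd i (annCut n m h) y = 0) ∧ lap (annCut n m h) y = 0 := by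
  have hev : ∀ᶠ z in 𝓝 y, |‖z‖ - m| < h / 4 :=
    (isOpen_lt (continuous_norm.sub continuous_const).abs continuous_const).mem_nhds hy
  have key : ∀ i, ∀ z, |‖z‖ - m| < h / 4 → pd i (annCut n m h) z = 0 := fun i z hz => by
    rw [pd_congr (G := fun _ => (1 : ℝ)) ?_ i]
    · simp [pd]
    · exact ((isOpen_lt (continuous_norm.sub continuous_const).abs continuous_const).eventually_mem
        hz).mono fun w hw => annCut_eq_one hh hhm (le_of_lt hw)
  refine ⟨fun i => key i y hy, Finset.sum_eq_zero fun i _ => ?_⟩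
  rw [pd_congr (G := fun _ => (0 : ℝ)) (hev.mono fun z hz => key i z hz) i]
  simp [pd]

end

theorem pd_norm_sq (i : Fin n) (y : EuclideanSpace ℝ (Fin n)) :
    pd i (fun z : EuclideanSpace ℝ (Fin n) => ‖z‖ ^ 2) y = 2 * y i := by
  simpa using pd_base_ker (x := 0) (y := y) (e := 0) i

theorem lap_norm_sq (y : EuclideanSpace ℝ (Fin n)) :
    lap (fun z : EuclideanSpace ℝ (Fin n) => ‖z‖ ^ 2) y = 2 * n := by
  have h : ∀ i : Fin n, pd i (pd i fun z : EuclideanSpace ℝ (Fin n) => ‖z‖ ^ 2) y = 2 := fun i => by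
    simpa using pd_pd_base_ker (x := 0) (y := y) (e := 0) i i
  simp [lap, h, mul_comm]

/-- The derivatives of the annular cutoff. -/
theorem exists_annCut_bounds (n : ℕ) :
    ∃ B : ℝ, 0 < B ∧ ∀ m h : ℝ, 1 ≤ m → m ≤ 3 → 0 < h → h ≤ 1 →
      ∀ y : EuclideanSpace ℝ (Fin n),
        (∀ i, |pd i (annCut n m h) y| ≤ B / h) ∧ |lap (annCut n m h) y| ≤ B / h ^ 2 := by
  obtain ⟨S, hS, hb⟩ := exists_profile_bounds
  refine ⟨12 * S + 4 * S * n + 120 * S, by positivity, fun m h hm hm3 hh hh1 y => ?_⟩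
  have hhm : h ≤ m := by linarith
  set W : ℝ := h / 2 * (2 * m - h / 2) with hW
  have hWp : 0 < W := annCut_scale_pos hh hhm
  have hWh : 3 / 4 * h ≤ W := by rw [hW]; nlinarith
  by_cases hy : y ∈ tsupport (annCut n m h)
  swap
  · refine ⟨fun i => ?_, ?_⟩
    · rw [pd_eq_zero_of_notMem i hy, abs_zero]
      positivity
    · rw [lap, Finset.sum_eq_zero fun i _ => pd_eq_zero_of_notMem i fun h' =>
        hy (support_pd_subset _ i h'), abs_zero]
      positivity
  have hy4 : ‖y‖ ≤ 4 := by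
    linarith [(abs_le.1 (show |‖y‖ - m| ≤ h / 2 from tsupport_annCut_subset hh hhm hy)).2]
  have hder : ∀ t : ℝ, HasDerivAt (fun t => profile ((t - m ^ 2) / W))
      (deriv profile ((t - m ^ 2) / W) / W) t := fun t => by
    have := ((contDiff_profile.differentiable (by norm_num)) ((t - m ^ 2) / W)).hasDerivAt.comp t
      (((hasDerivAt_id t).sub_const (m ^ 2)).div_const W)
    exact this.congr_deriv (by ring)
  have hd1 : ContDiff ℝ 1 (deriv profile) :=
    ((contDiff_succ_iff_deriv (n := 1)).1 (by simpa [one_add_one_eq_two] using contDiff_profile)).2.2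
  have hder2 : ∀ t : ℝ, HasDerivAt (fun t => deriv profile ((t - m ^ 2) / W) / W)
      (deriv (deriv profile) ((t - m ^ 2) / W) / W ^ 2) t := fun t => by
    have := (((hd1.differentiable (by norm_num)) ((t - m ^ 2) / W)).hasDerivAt.comp t
      (((hasDerivAt_id t).sub_const (m ^ 2)).div_const W)).div_const W
    exact this.congr_deriv (by ring_nf)
  set z := (‖y‖ ^ 2 - m ^ 2) / W with hz
  obtain ⟨hz1, hz2⟩ := hb z
  refine ⟨fun i => ?_, ?_⟩
  · have e : pd i (annCut n m h) y = deriv profile z / W * (2 * y i) := by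
      rw [← pd_norm_sq i y]
      exact pd_comp (h1 := fun t => deriv profile ((t - m ^ 2) / W) / W) (hder _)
        ((contDiff_norm_sq ℝ).differentiable (n := 1) (by norm_num) y) i
    have hyi : |y i| ≤ 4 := by
      have h' := PiLp.norm_apply_le y i
      rw [Real.norm_eq_abs] at h'
      linarith
    rw [e, abs_mul, abs_div, abs_of_pos hWp, abs_mul, abs_two, div_mul_eq_mul_div,
      div_le_div_iff₀ hWp hh]
    have h1 := mul_le_mul hz1 (mul_le_mul_of_nonneg_left hyi zero_le_two) (by positivity) hS.le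
    have h2 := mul_le_mul_of_nonneg_right h1 hh.le
    have h3 := mul_le_mul_of_nonneg_left hWh (by positivity : (0:ℝ) ≤ 12 * S)
    have h4 : 0 ≤ (4 * S * n + 120 * S) * W := by positivity
    nlinarith
  · have e : lap (annCut n m h) y = deriv profile z / W * (2 * n) +
        deriv (deriv profile) z / W ^ 2 * ∑ i, (2 * y i) ^ 2 := by
      simp only [← pd_norm_sq _ y, ← lap_norm_sq y]
      exact lap_comp (h1 := fun t => deriv profile ((t - m ^ 2) / W) / W)
        (h2 := fun t => deriv (deriv profile) ((t - m ^ 2) / W) / W ^ 2)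
        (Eventually.of_forall hder) (hder2 _) (contDiff_norm_sq ℝ).contDiffAt
    have hsum : ∑ i, (2 * y i) ^ 2 ≤ 64 := by
      have : ∑ i, (2 * y i) ^ 2 = 4 * ‖y‖ ^ 2 := by
        rw [EuclideanSpace.norm_sq_eq, Finset.mul_sum]
        exact Finset.sum_congr rfl fun i _ => by rw [Real.norm_eq_abs, sq_abs]; ring
      rw [this]
      nlinarith [norm_nonneg y]
    have hsum0 : 0 ≤ ∑ i, (2 * y i) ^ 2 := Finset.sum_nonneg fun i _ => sq_nonneg _
    have t1 : |deriv profile z / W * (2 * n)| ≤ 2 * S * n * (4 / 3) / h ^ 2 := by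
      rw [abs_mul, abs_div, abs_of_pos hWp, abs_of_nonneg (by positivity : (0:ℝ) ≤ 2 * n),
        div_mul_eq_mul_div, div_le_div_iff₀ hWp (by positivity)]
      have h1 := mul_le_mul_of_nonneg_right hz1 (by positivity : (0:ℝ) ≤ 2 * n * h ^ 2)
      have h2 := mul_le_mul_of_nonneg_left
        ((mul_le_of_le_one_right hh.le hh1).trans (by linarith : h ≤ 4 / 3 * W))
        (by positivity : (0:ℝ) ≤ S * (2 * n))
      nlinarith
    have t2 : |deriv (deriv profile) z / W ^ 2 * ∑ i, (2 * y i) ^ 2| ≤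
        64 * S * (16 / 9) / h ^ 2 := by
      rw [abs_mul, abs_div, abs_of_pos (pow_pos hWp 2), abs_of_nonneg hsum0, div_mul_eq_mul_div,
        div_le_div_iff₀ (pow_pos hWp 2) (by positivity)]
      have h1 := mul_le_mul_of_nonneg_right (mul_le_mul hz2 hsum hsum0 hS.le) (sq_nonneg h)
      have h2 := mul_le_mul_of_nonneg_left (pow_le_pow_left₀ (by positivity) hWh 2)
        (by positivity : (0:ℝ) ≤ S * 64 * (16 / 9))
      nlinarith
    rw [e]
    refine (abs_add_le _ _).trans ((add_le_add t1 t2).trans ?_)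
    rw [← add_div]
    exact div_le_div_of_nonneg_right (by nlinarith) (by positivity)

/-- A negative power of a distance at least `h / 8`, divided by a power of `h`. -/
theorem rpow_dist_bound {h d s : ℝ} (hh : 0 < h) (hh1 : h ≤ 1) (hd : h / 8 ≤ d) (hs : 0 ≤ s)
    {j N : ℕ} (hsj : s + j ≤ N) : d ^ (-s) / h ^ j ≤ 8 ^ N * h⁻¹ ^ N := by
  have h8 : 0 < h / 8 := by linarith
  have hsN : s ≤ N := by linarith [(Nat.cast_nonneg j : (0:ℝ) ≤ j)]
  have e1 : (h / 8) ^ (-s) = 8 ^ s * h⁻¹ ^ s := by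
    rw [Real.rpow_neg h8.le, Real.div_rpow hh.le (by norm_num), inv_div, Real.inv_rpow hh.le,
      div_eq_mul_inv]
  have e2 : h⁻¹ ^ s / h ^ j = h⁻¹ ^ (s + j) := by
    rw [Real.rpow_add (inv_pos.2 hh), Real.rpow_natCast, inv_pow, div_eq_mul_inv]
  have h1 := Real.rpow_le_rpow_of_nonpos h8 hd (by linarith : -s ≤ 0)
  rw [e1] at h1
  calc d ^ (-s) / h ^ j ≤ 8 ^ s * h⁻¹ ^ s / h ^ j := div_le_div_of_nonneg_right h1 (by positivity)
    _ = 8 ^ s * h⁻¹ ^ (s + j) := by rw [mul_div_assoc, e2]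
    _ ≤ 8 ^ (N : ℝ) * h⁻¹ ^ (N : ℝ) := mul_le_mul
        (Real.rpow_le_rpow_of_exponent_le (by norm_num) hsN)
        (Real.rpow_le_rpow_of_exponent_le ((one_le_inv₀ hh).2 hh1) hsj)
        (by positivity) (by positivity)
    _ = 8 ^ N * h⁻¹ ^ N := by rw [Real.rpow_natCast, Real.rpow_natCast]

/-- A smooth function against the Laplacian of the cut off function. -/
theorem ofReal_integral_lap_cutoff {G η w f : EuclideanSpace ℝ (Fin n) → ℝ} (hn : 1 ≤ n)
    (hG : ContDiff ℝ 2 G) (hη : ContDiff ℝ 2 η) (hc : HasCompactSupport η)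
    (hs : tsupport η ⊆ {0}ᶜ) (hsh : tsupport η ⊆ shell n) (hη0 : ∀ y, 0 ≤ η y)
    (hwc : Continuous w) (hw0 : ∀ y, 0 ≤ w y) (hw : ContDiffOn ℝ 2 w {0}ᶜ)
    (hf : ∀ y ≠ 0, lap w y = -f y) (hf0 : ∀ y ≠ 0, 0 ≤ f y)
    {x : EuclideanSpace ℝ (Fin n)} {c s D : ℝ} (hc0 : 0 ≤ c)
    (hker : ∀ y, y ≠ x → |G y| ≤ c * ‖x - y‖ ^ (-s))
    (hD : ∀ y, |2 * ∑ i, pd i G y * pd i η y + G y * lap η y| ≤ D) :
    ENNReal.ofReal |∫ y, G y * lap (fun z => η z * w z) y| ≤
      ENNReal.ofReal c * pot s (fun y => η y * f y) x +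
        ENNReal.ofReal (D * ∫ y in shell n, w y) := by
  rw [integral_lap_cutoff hG hη hc isOpen_compl_singleton hs hw]
  refine (ENNReal.ofReal_le_ofReal (abs_sub _ _)).trans (ENNReal.ofReal_add_le.trans
    (add_le_add ?_ ?_))
  · rw [← Real.enorm_eq_ofReal_abs]
    refine (enorm_integral_le_lintegral_enorm _).trans ?_
    rw [pot, ← lintegral_const_mul' _ _ ENNReal.ofReal_ne_top]
    refine lintegral_mono_ae ?_
    have hx : ∀ᵐ y : EuclideanSpace ℝ (Fin n), y ≠ x :=
      compl_mem_ae_iff.2 (volume_singleton_zero hn x)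
    filter_upwards [hx] with y hy
    rw [Real.enorm_eq_ofReal_abs, ← ENNReal.ofReal_mul hc0]
    refine ENNReal.ofReal_le_ofReal ?_
    have e : |η y * lap w y| = η y * f y := by
      by_cases h0 : y = 0
      · have : η y = 0 := image_eq_zero_of_notMem_tsupport fun h => hs h (by simpa using h0)
        simp [this]
      · rw [hf y h0, mul_neg, abs_neg, abs_of_nonneg (mul_nonneg (hη0 y) (hf0 y h0))]
    have hn0 : 0 ≤ η y * f y := e ▸ abs_nonneg _
    rw [abs_mul, e]
    exact (mul_le_mul_of_nonneg_right (hker y hy) hn0).trans_eq (by ring)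
  · refine ENNReal.ofReal_le_ofReal ?_
    rw [← Real.norm_eq_abs, ← integral_const_mul, ← integral_indicator isCompact_shell.measurableSet]
    have hi : IntegrableOn (fun y => D * w y) (shell n) :=
      (continuous_const.mul hwc).continuousOn.integrableOn_compact isCompact_shell
    refine norm_integral_le_of_norm_le (hi.integrable_indicator isCompact_shell.measurableSet)
      (Eventually.of_forall fun y => ?_)
    rw [Real.norm_eq_abs]
    by_cases hy : y ∈ shell n
    · rw [indicator_of_mem hy, abs_mul, abs_of_nonneg (hw0 y), mul_comm D]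
      exact mul_le_mul_of_nonneg_left (hD y) (hw0 y)
    · have hy' : y ∉ tsupport η := fun h => hy (hsh h)
      have hl : lap η y = 0 := Finset.sum_eq_zero fun i _ => pd_eq_zero_of_notMem i fun h =>
        hy' (support_pd_subset η i h)
      simp [indicator_of_notMem hy, hl, pd_eq_zero_of_notMem _ hy']

/-- The derivative terms of a kernel against those of the cutoff. -/
theorem cutoff_terms_le {G η : EuclideanSpace ℝ (Fin n) → ℝ}
    {x y : EuclideanSpace ℝ (Fin n)} {c c' s h B : ℝ} (hh : 0 < h) (hh1 : h ≤ 1) (hs : 0 ≤ s)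
    (hsn : s + 2 ≤ (n : ℝ) + 1) (hc : 0 ≤ c) (hc' : 0 ≤ c') (hB : 0 ≤ B)
    (hfar : ‖y - x‖ < h / 8 → (∀ i, pd i η y = 0) ∧ lap η y = 0)
    (hG : y ≠ x → |G y| ≤ c * ‖y - x‖ ^ (-s))
    (hG' : y ≠ x → ∀ i, |pd i G y| ≤ c' * ‖y - x‖ ^ (-(s + 1)))
    (hη1 : ∀ i, |pd i η y| ≤ B / h) (hη2 : |lap η y| ≤ B / h ^ 2) :
    |2 * ∑ i, pd i G y * pd i η y + G y * lap η y| ≤
      (2 * n * c' + c) * B * 8 ^ (n + 1) * h⁻¹ ^ (n + 1) := by
  rcases lt_or_ge ‖y - x‖ (h / 8) with hd | hd
  · obtain ⟨h1, h2⟩ := hfar hd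
    simp only [h1, h2, mul_zero, Finset.sum_const_zero, add_zero, abs_zero]
    positivity
  have hne : y ≠ x := fun e => by
    rw [e, sub_self, norm_zero] at hd
    linarith
  have b1 := rpow_dist_bound hh hh1 hd (by linarith : 0 ≤ s + 1) (j := 1) (N := n + 1)
    (by push_cast; linarith)
  have b2 := rpow_dist_bound hh hh1 hd hs (j := 2) (N := n + 1) (by push_cast; linarith)
  rw [pow_one] at b1
  set P : ℝ := 8 ^ (n + 1) * h⁻¹ ^ (n + 1)
  have t1 : ∀ i, |pd i G y * pd i η y| ≤ c' * B * P := fun i => by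
    rw [abs_mul]
    refine (mul_le_mul (hG' hne i) (hη1 i) (abs_nonneg _) (by positivity)).trans ?_
    calc c' * ‖y - x‖ ^ (-(s + 1)) * (B / h)
        = c' * B * (‖y - x‖ ^ (-(s + 1)) / h) := by ring
      _ ≤ c' * B * P := mul_le_mul_of_nonneg_left b1 (by positivity)
  have t2 : |G y * lap η y| ≤ c * B * P := by
    rw [abs_mul]
    refine (mul_le_mul (hG hne) hη2 (abs_nonneg _) (by positivity)).trans ?_
    calc c * ‖y - x‖ ^ (-s) * (B / h ^ 2) = c * B * (‖y - x‖ ^ (-s) / h ^ 2) := by ring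
      _ ≤ c * B * P := mul_le_mul_of_nonneg_left b2 (by positivity)
  have t3 : |∑ i, pd i G y * pd i η y| ≤ n * (c' * B * P) := by
    refine (Finset.abs_sum_le_sum_abs _ _).trans ((Finset.sum_le_card_nsmul _ _ _
      fun i _ => t1 i).trans_eq ?_)
    simp
  refine (abs_add_le _ _).trans ?_
  rw [abs_mul 2, abs_two]
  calc 2 * |∑ i, pd i G y * pd i η y| + |G y * lap η y|
      ≤ 2 * (n * (c' * B * P)) + c * B * P := by linarith
    _ = (2 * n * c' + c) * B * 8 ^ (n + 1) * h⁻¹ ^ (n + 1) := by ring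

/-- The representation of a function and its gradient inside an annulus. -/
theorem exists_rep (hn : 3 ≤ n) :
    ∃ C : ℝ, 0 < C ∧ ∀ w f : EuclideanSpace ℝ (Fin n) → ℝ, Continuous w → (∀ y, 0 ≤ w y) →
      ContDiffOn ℝ 2 w {0}ᶜ → (∀ y ≠ 0, lap w y = -f y) → (∀ y ≠ 0, 0 ≤ f y) →
      ∀ r h : ℝ, 1 ≤ r → 0 < h → h ≤ 1 → r + h ≤ 3 →
      ∀ x : EuclideanSpace ℝ (Fin n), r ≤ ‖x‖ → ‖x‖ ≤ r + h / 4 →
        ENNReal.ofReal (w x) ≤ ENNReal.ofReal C *
          (pot ((n : ℝ) - 2) (fun y => annCut n (r + h / 8) h y * f y) x +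
            ENNReal.ofReal (h⁻¹ ^ (n + 1) * ∫ y in shell n, w y)) ∧
        ∀ j, ENNReal.ofReal |pd j w x| ≤ ENNReal.ofReal C *
          (pot ((n : ℝ) - 1) (fun y => annCut n (r + h / 8) h y * f y) x +
            ENNReal.ofReal (h⁻¹ ^ (n + 1) * ∫ y in shell n, w y)) := by
  have hn3 : (3 : ℝ) ≤ n := by exact_mod_cast hn
  obtain ⟨B, hB, hbd⟩ := exists_annCut_bounds n
  have hM := kerMass_pos hn
  set D : ℝ := (2 * n * (((n : ℝ) - 2) * ((n : ℝ) + 1)) + ((n : ℝ) - 2) + 1) * B * 8 ^ (n + 1)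
    with hDdef
  have hn2 : (0 : ℝ) ≤ (n : ℝ) - 2 := by linarith
  have hD0 : 0 < D := by
    have : 0 ≤ 2 * n * (((n : ℝ) - 2) * ((n : ℝ) + 1)) := by positivity
    rw [hDdef]
    positivity
  refine ⟨(n + D) / kerMass n, by positivity,
    fun w f hwc hw0 hw2 hf hf0 r h hr hh hh1 hr3 x hx1 hx2 => ?_⟩
  set m : ℝ := r + h / 8 with hm
  have hhm : h ≤ m := by linarith
  set η : EuclideanSpace ℝ (Fin n) → ℝ := annCut n m h with hη
  set L : ℝ := ∫ y in shell n, w y with hL
  have hL0 : 0 ≤ L := setIntegral_nonneg isCompact_shell.measurableSet fun y _ => hw0 y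
  have hηd : ContDiff ℝ 2 η := contDiff_annCut m h
  have hηc : HasCompactSupport η := hasCompactSupport_annCut hh hhm
  have hηs : tsupport η ⊆ {0}ᶜ := tsupport_annCut_compl hh hhm
  have hηsh : tsupport η ⊆ shell n := fun y hy => by
    obtain ⟨a1, a2⟩ := abs_le.1 (show |‖y‖ - m| ≤ h / 2 from tsupport_annCut_subset hh hhm hy)
    exact mem_shell.2 ⟨by linarith, by linarith⟩
  set φ : EuclideanSpace ℝ (Fin n) → ℝ := fun z => η z * w z with hφ
  have hφsub : tsupport φ ⊆ tsupport η := closure_mono fun z hz => left_ne_zero_of_mul hz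
  have hφd : ContDiff ℝ 2 φ := contDiff_of_tsupport_subset isOpen_compl_singleton
    (hηd.contDiffOn.mul hw2) (hφsub.trans hηs)
  have hφc : HasCompactSupport φ := hηc.mul_right
  have hxm : |‖x‖ - m| < h / 4 := abs_lt.2 ⟨by linarith, by linarith⟩
  have hφev : φ =ᶠ[𝓝 x] w := by
    filter_upwards [(isOpen_lt (continuous_norm.sub continuous_const).abs continuous_const).mem_nhds
      hxm] with z hz
    simp [φ, hη, annCut_eq_one hh hhm (le_of_lt hz)]
  have hfar : ∀ y, ‖y - x‖ < h / 8 → (∀ i, pd i η y = 0) ∧ lap η y = 0 := fun y hy => by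
    refine annCut_deriv_zero hh hhm (abs_lt.2 ⟨?_, ?_⟩) <;>
      linarith [norm_sub_norm_le y x, norm_sub_norm_le x y, norm_sub_rev x y]
  have hbound : ∀ (G : EuclideanSpace ℝ (Fin n) → ℝ) (c c' s : ℝ), ContDiff ℝ 2 G → 0 ≤ c →
      c ≤ n → 2 * n * c' + c ≤ 2 * n * (((n : ℝ) - 2) * ((n : ℝ) + 1)) + ((n : ℝ) - 2) + 1 →
      0 ≤ c' → 0 ≤ s → s + 2 ≤ (n : ℝ) + 1 →
      (∀ y, y ≠ x → |G y| ≤ c * ‖y - x‖ ^ (-s)) →
      (∀ y, y ≠ x → ∀ i, |pd i G y| ≤ c' * ‖y - x‖ ^ (-(s + 1))) →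
      ENNReal.ofReal |∫ y, G y * lap φ y| ≤ ENNReal.ofReal (n + D) *
        (pot s (fun y => η y * f y) x + ENNReal.ofReal (h⁻¹ ^ (n + 1) * L)) := by
    intro G c c' s hG hc hcn hcc hc' hs hsn hk hk'
    refine (ofReal_integral_lap_cutoff (by omega) hG hηd hηc hηs hηsh (fun y => (annCut_mem m h y).1)
      hwc hw0 hw2 hf hf0 (x := x) (s := s) (D := D * h⁻¹ ^ (n + 1)) hc (fun y hy => ?_)
      fun y => ?_).trans ?_
    · rw [norm_sub_rev]
      exact hk y hy
    · obtain ⟨a1, a2⟩ := hbd m h (by linarith) (by linarith) hh hh1 y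
      refine (cutoff_terms_le hh hh1 hs hsn hc hc' hB.le (hfar y) (hk y) (hk' y) a1 a2).trans ?_
      refine mul_le_mul_of_nonneg_right ?_ (by positivity)
      rw [hDdef]
      exact mul_le_mul_of_nonneg_right (mul_le_mul_of_nonneg_right hcc hB.le) (by positivity)
    · rw [mul_add, ← ENNReal.ofReal_mul (by positivity)]
      refine add_le_add (mul_le_mul' (ENNReal.ofReal_le_ofReal (by linarith)) le_rfl)
        (ENNReal.ofReal_le_ofReal ?_)
      rw [← hL, mul_assoc]
      exact mul_le_mul_of_nonneg_right (le_add_of_nonneg_left (Nat.cast_nonneg n)) (by positivity)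
  have hlimit : ∀ (a : ℝ) (T : ℝ≥0∞) (F : ℝ → ℝ),
      Tendsto F (𝓝[>] 0) (𝓝 (kerMass n * a)) → (∀ t : ℝ, 0 < t → ENNReal.ofReal |F t| ≤
        ENNReal.ofReal (n + D) * T) → ENNReal.ofReal |a| ≤ ENNReal.ofReal ((n + D) / kerMass n) * T := by
    intro a T F hF hb
    have h1 : ENNReal.ofReal |kerMass n * a| ≤ ENNReal.ofReal (n + D) * T :=
      le_of_tendsto ((ENNReal.continuous_ofReal.tendsto _).comp hF.abs)
        (eventually_mem_nhdsWithin.mono fun t ht => hb t ht)
    rw [abs_mul, abs_of_pos hM, ENNReal.ofReal_mul hM.le] at h1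
    rw [div_eq_inv_mul, ENNReal.ofReal_mul (inv_nonneg.2 hM.le), mul_assoc]
    refine le_trans (le_of_eq ?_) (mul_le_mul' le_rfl h1)
    rw [← mul_assoc, ← ENNReal.ofReal_mul (inv_nonneg.2 hM.le), inv_mul_cancel₀ hM.ne',
      ENNReal.ofReal_one, one_mul]
  refine ⟨?_, fun j => ?_⟩
  · obtain ⟨Dφ, hDφ⟩ := hφc.exists_bound_of_continuous hφd.continuous
    have hl := tendsto_lap_ker x hφd.continuous fun y => (Real.norm_eq_abs _).symm.le.trans (hDφ y)
    rw [hφev.eq_of_nhds] at hl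
    rw [← abs_of_nonneg (hw0 x)]
    refine hlimit _ _ _ hl fun t ht => ?_
    have he : 0 < t ^ 2 := pow_pos ht 2
    have hK := contDiff_ker (k := 2) he x
    have e : ∫ y, φ y * -lap (ker (t ^ 2) x) y = -∫ y, ker (t ^ 2) x y * lap φ y := by
      rw [Vale.Agent.P100.Cmp.green hK.contDiffOn hφd hφc (hφsub.trans hηs), ← integral_neg]
      exact integral_congr_ae (Eventually.of_forall fun y => by ring)
    rw [e, abs_neg]
    refine hbound _ 1 ((n : ℝ) - 2) _ hK zero_le_one (by linarith) ?_ (by linarith) (by linarith)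
      (by linarith) (fun y hy => ?_) fun y hy i => ?_
    · nlinarith [mul_nonneg (Nat.cast_nonneg n : (0:ℝ) ≤ n) (mul_nonneg hn2 (Nat.cast_nonneg n))]
    · rw [one_mul, abs_of_nonneg (ker_le hn he hy).1]
      exact (ker_le hn he hy).2
    · rw [show (n : ℝ) - 2 + 1 = (n : ℝ) - 1 by ring]
      exact abs_pd_ker_le hn he hy i
  · have hd : ContDiff ℝ 1 (pd j φ) := contDiff_pd hφd j
    obtain ⟨Dφ, hDφ⟩ := (hasCompactSupport_pd hφc j).exists_bound_of_continuous hd.continuous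
    have hl := tendsto_lap_ker x hd.continuous fun y => (Real.norm_eq_abs _).symm.le.trans (hDφ y)
    rw [pd_congr hφev j] at hl
    refine hlimit _ _ _ hl fun t ht => ?_
    have he : 0 < t ^ 2 := pow_pos ht 2
    have e : ∫ y, pd j φ y * -lap (ker (t ^ 2) x) y = ∫ y, pd j (ker (t ^ 2) x) y * lap φ y := by
      rw [integral_pd_ker_lap he x hφd hφc j, ← integral_neg]
      exact integral_congr_ae (Eventually.of_forall fun y => by ring)
    rw [e]
    have hG : ContDiff ℝ 2 (pd j (ker (t ^ 2) x)) :=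
      ((contDiff_ker (k := 3) he x).fderiv_right (m := 2) (by norm_num)).clm_apply contDiff_const
    refine hbound _ ((n : ℝ) - 2) (((n : ℝ) - 2) * ((n : ℝ) + 1)) ((n : ℝ) - 1) hG hn2 (by linarith)
      (by linarith) (by positivity) (by linarith) (by linarith)
      (fun y hy => abs_pd_ker_le hn he hy j) fun y hy i => ?_
    rw [show (n : ℝ) - 1 + 1 = (n : ℝ) by ring]
    exact abs_pd_pd_ker_le hn he hy i j

end Vale.Agent.P100.Sector
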