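import Vale.Agent.P100.Sector.Low

/-!
P100: no positive solution continuous at the origin when a weight is at most `-2`. In scaled
variables the source stays bounded below on a shell, while a continuous function tends to a
constant, whose pairing with the Laplacian of a test function vanishes.
-/

open MeasureTheory Metric Set Filter Topology
open scoped Laplacian

namespace Vale.Agent.P100.Sector

open Vale.Agent.P100.Sys

variable {n : ℕ} {A B p q : ℝ} {u v : EuclideanSpace ℝ (Fin n) → ℝ}

/-- No solution when the first weight is at most `-2`. -/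
theorem not_sol_of_le_neg_two (hn : 3 ≤ n) (hA : A ≤ -2) (hp : 0 ≤ p) :
    ¬ Sol n A B p q u v := by
  intro h
  obtain ⟨κ, c₁, m₂, g₂, hκ, hc₁, -, -, hconst⟩ := exists_test_const hn
  obtain ⟨hfar, hlow, -, -⟩ := hconst 1 one_pos le_rfl 0 (by simp)
  set Ψ : EuclideanSpace ℝ (Fin n) → ℝ := testFun κ 1 0 with hΨ
  have hΨd : ContDiff ℝ 2 Ψ := contDiff_testFun one_pos 0
  have hΨc : HasCompactSupport Ψ := hasCompactSupport_testFun hfar
  have hΨ0 : ∀ y, 0 ≤ Ψ y := fun y => div_nonneg (Vale.Agent.P100.Cmp.ramp_nonneg _) hκ.le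
  set G : EuclideanSpace ℝ (Fin n) → ℝ := lap Ψ with hG
  have hGc : Continuous G := Vale.Agent.P100.Cmp.continuous_lap hΨd
  have hG0 : ∀ y, y ∉ tsupport Ψ → G y = 0 := fun y hy => by
    rw [hG, lap]
    exact Finset.sum_eq_zero fun i _ =>
      pd_eq_zero_of_notMem i fun h' => hy (support_pd_subset _ i h')
  have hGs : HasCompactSupport G := HasCompactSupport.of_support_subset_isCompact hΨc fun y hy => by
    by_contra h'
    exact hy (hG0 y h')
  have hball : tsupport Ψ ⊆ closedBall 0 16 := by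
    refine closure_minimal (fun y hy => ?_) isClosed_closedBall
    rw [mem_closedBall_zero_iff]
    by_contra h'
    refine hy ?_
    show Vale.Agent.P100.Cmp.ramp (κ * ker 1 0 y - 1) / κ = 0
    rw [Vale.Agent.P100.Cmp.ramp_eq_zero (hfar y (by simpa using not_le.1 h')), zero_div]
  have hGi : Integrable G := hGc.integrable_of_hasCompactSupport hGs
  have hgreen := fun (w : EuclideanSpace ℝ (Fin n) → ℝ) hwc hw2 (hwl : ∀ y ≠ 0, lap w y ≤ 0) =>
    green_shell hn (w := w) hwc hw2 (x := 0) (by simp) (fun y hy _ => hwl y hy) hΨd hΨc hΨ0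
      (fun y hy => by
        show Vale.Agent.P100.Cmp.ramp (κ * ker 1 0 y - 1) / κ = 0
        rw [Vale.Agent.P100.Cmp.ramp_eq_zero (hfar y hy), zero_div]) hlow
  have hzero : ∫ y, G y = 0 := by
    have hl : ∀ (k : ℝ) (x : EuclideanSpace ℝ (Fin n)), lap (fun _ => k) x = 0 := fun k x => by
      have e : ∀ i : Fin n, pd i (fun _ : EuclideanSpace ℝ (Fin n) => k) = fun _ => 0 :=
        fun i => funext fun z => by simp [pd]
      simp only [lap, e]
      exact Finset.sum_eq_zero fun i _ => by simp [pd]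
    have e1 := hgreen (fun _ => 1) continuous_const contDiffOn_const (fun x _ => (hl 1 x).le)
    have e2 := hgreen (fun _ => -1) continuous_const contDiffOn_const (fun x _ => (hl (-1) x).le)
    simp only [hl, neg_zero, integral_zero, mul_zero, zero_add, one_mul, neg_one_mul,
      integral_neg, ← hG] at e1 e2
    linarith
  obtain ⟨c', hc', hsrc⟩ := exists_shell_lower (n := n) (by omega) A
  set b : ℝ := (v 0 / 2) ^ p with hb
  have hv0 := h.posv 0
  have hb0 : 0 < b := Real.rpow_pos_of_pos (by linarith) _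
  set M : ℝ := ∫ y, |G y| with hM
  have hM0 : 0 ≤ M := integral_nonneg fun y => abs_nonneg _
  set η : ℝ := c₁ * (c' * b) / (2 * (M + 1)) with hη
  have hη0 : 0 < η := by positivity
  have hev : ∀ᶠ x in 𝓝 (0 : EuclideanSpace ℝ (Fin n)), |u x - u 0| < η ∧ v 0 / 2 < v x :=
    ((continuous_abs.tendsto' _ _ (abs_zero)).comp
      (tendsto_sub_nhds_zero_iff.2 (h.contu.tendsto 0))).eventually_lt_const hη0 |>.and
      ((h.contv.tendsto 0).eventually_const_lt (by linarith))
  obtain ⟨δ, hδ, hδ'⟩ := Metric.eventually_nhds_iff.1 hev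
  set R : ℝ := min 1 (δ / 17) with hR
  have hR0 : 0 < R := lt_min one_pos (by positivity)
  have hR17 : R * 17 ≤ δ := by
    have := min_le_right 1 (δ / 17)
    rw [← hR] at this
    linarith
  have hnear : ∀ y : EuclideanSpace ℝ (Fin n), ‖y‖ ≤ 16 →
      |u (R • y) - u 0| < η ∧ v 0 / 2 < v (R • y) := fun y hy => hδ' (by
    rw [dist_zero_right, norm_smul, Real.norm_eq_abs, abs_of_pos hR0]
    calc R * ‖y‖ ≤ R * 16 := mul_le_mul_of_nonneg_left hy hR0.le
      _ < δ := by linarith)
  have hne : ∀ y : EuclideanSpace ℝ (Fin n), y ≠ 0 → R • y ≠ 0 := fun y hy =>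
    smul_ne_zero hR0.ne' hy
  have hlap : ∀ y ≠ 0, -lap (fun y => u (R • y)) y =
      R ^ (2 + A) * (‖y‖ ^ A * v (R • y) ^ p) := fun y hy => by
    have e := lap_scale u hR0.ne' 1 y
    simp only [one_mul] at e
    rw [e, h.equ _ (hne y hy), norm_smul, Real.norm_eq_abs, abs_of_pos hR0,
      Real.mul_rpow hR0.le (norm_nonneg y), Real.rpow_add hR0, Real.rpow_two]
    ring
  have hmap : MapsTo (fun y : EuclideanSpace ℝ (Fin n) => R • y) {0}ᶜ {0}ᶜ := fun y hy => by
    simpa using hne y (by simpa using hy)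
  have hwc : Continuous fun y => u (R • y) := h.contu.comp (continuous_const_smul R)
  have hzc : Continuous fun y => v (R • y) := h.contv.comp (continuous_const_smul R)
  have hg := hgreen _ hwc (h.smoothu.comp (contDiff_const_smul R).contDiffOn hmap)
    (fun y hy => neg_nonneg.1 (by
      rw [hlap y hy]
      exact mul_nonneg (Real.rpow_nonneg hR0.le _)
        (mul_nonneg (Real.rpow_nonneg (norm_nonneg _) _) (Real.rpow_nonneg (h.posv _).le _))))
  rw [setIntegral_congr_fun isCompact_shell.measurableSet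
    (fun y hy => hlap y (by simpa using shell_subset hy)), integral_const_mul] at hg
  obtain ⟨x₀, hx₀, hmin⟩ := isCompact_shell.exists_isMinOn
    (⟨EuclideanSpace.single ⟨0, by omega⟩ 1, mem_shell.2 (by simp; norm_num)⟩ : (shell n).Nonempty)
    hzc.continuousOn
  have hsource : c' * b ≤ R ^ (2 + A) * ∫ y in shell n, ‖y‖ ^ A * v (R • y) ^ p := by
    have h1 := hsrc (fun y => v (R • y)) p x₀ hp hzc (fun y => h.posv _) hmin
    have h2 : b ≤ v (R • x₀) ^ p := Real.rpow_le_rpow (by linarith)
      (hnear x₀ (by linarith [(mem_shell.1 hx₀).2])).2.le hp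
    have h3 := Real.one_le_rpow_of_pos_of_le_one_of_nonpos hR0 (min_le_left 1 _)
      (by linarith : 2 + A ≤ 0)
    have h4 := mul_le_mul_of_nonneg_left h2 hc'.le
    calc c' * b = 1 * (c' * b) := (one_mul _).symm
      _ ≤ _ := mul_le_mul h3 (h4.trans h1) (by positivity) (Real.rpow_nonneg hR0.le _)
  have hpair : -(η * M) ≤ ∫ y, u (R • y) * G y := by
    have i1 : Integrable fun y => u (R • y) * G y :=
      (hwc.mul hGc).integrable_of_hasCompactSupport hGs.mul_left
    have i2 : Integrable fun y => u (R • y) * G y + η * |G y| := i1.add (hGi.abs.const_mul η)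
    have h0 : ∫ y, u 0 * G y ≤ ∫ y, (u (R • y) * G y + η * |G y|) := by
      refine integral_mono (hGi.const_mul _) i2 fun y => ?_
      by_cases hy : y ∈ tsupport Ψ
      · have h1 := (hnear y (mem_closedBall_zero_iff.1 (hball hy))).1.le
        have h2 := mul_le_mul_of_nonneg_right h1 (abs_nonneg (G y))
        rw [← abs_mul] at h2
        have h3 := neg_abs_le ((u (R • y) - u 0) * G y)
        linarith
      · simp [hG0 y hy]
    rw [integral_const_mul, hzero, mul_zero, integral_add i1 (hGi.abs.const_mul η),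
      integral_const_mul, ← hM] at h0
    linarith
  have hfin : c₁ * (c' * b) ≤ η * M :=
    (mul_le_mul_of_nonneg_left hsource hc₁.le).trans (by rw [← hG] at hg; linarith)
  rw [hη, div_mul_eq_mul_div, le_div_iff₀ (by positivity)] at hfin
  have hpos : 0 < c₁ * (c' * b) := by positivity
  nlinarith

/-- No positive entire solution when a weight is at most `-2`. -/
theorem no_solution_le_neg_two (hn : 3 ≤ n) (hAB : A ≤ -2 ∨ B ≤ -2) (hp : 0 < p) (hq : 0 < q) :
    ¬ ∃ u v : EuclideanSpace ℝ (Fin n) → ℝ, Continuous u ∧ Continuous v ∧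
      (∀ x, 0 < u x ∧ 0 < v x) ∧
      ∀ x ≠ 0, ContDiffAt ℝ 2 u x ∧ ContDiffAt ℝ 2 v x ∧
        -Δ u x = ‖x‖ ^ A * v x ^ p ∧ -Δ v x = ‖x‖ ^ B * u x ^ q := by
  rintro ⟨u, v, hu, hv, hpos, h⟩
  have hs : Sol n A B p q u v := ⟨hu, hv, fun x => (hpos x).1, fun x => (hpos x).2,
    fun x hx => (h x (by simpa using hx)).1.contDiffWithinAt,
    fun x hx => (h x (by simpa using hx)).2.1.contDiffWithinAt,
    fun x hx => by rw [← laplacian_eq_lap (h x hx).1, ← (h x hx).2.2.1, neg_neg],
    fun x hx => by rw [← laplacian_eq_lap (h x hx).2.1, ← (h x hx).2.2.2, neg_neg]⟩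
  rcases hAB with h' | h'
  · exact not_sol_of_le_neg_two hn h' hp.le hs
  · exact not_sol_of_le_neg_two hn h' hq.le hs.swap

end Vale.Agent.P100.Sector
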