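import Mathlib

/-!
P100, the sector argument: potentials `∫ |x - y|^(-s) f(y)` on thin spherical slabs. A three-factor
Hölder inequality bounds their `L^b` norms on a slab by an `L^k` norm of `f` weighted by a power of
the distance to the sphere; this replaces second derivative estimates and embeddings on spheres.
-/

open MeasureTheory Metric Set Filter Topology
open scoped ENNReal Pointwise

namespace Vale.Agent.P100.Sector

variable {n : ℕ}

/-- A thin spherical slab. -/
def slab (n : ℕ) (ρ δ : ℝ) : Set (EuclideanSpace ℝ (Fin n)) := {x | |‖x‖ - ρ| ≤ δ}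

theorem isClosed_slab (ρ δ : ℝ) : IsClosed (slab n ρ δ) :=
  isClosed_le ((continuous_norm.sub continuous_const).abs) continuous_const

theorem measurableSet_slab (ρ δ : ℝ) : MeasurableSet (slab n ρ δ) := (isClosed_slab ρ δ).measurableSet

theorem slab_subset_closedBall {ρ δ : ℝ} (hρ : ρ ≤ 3) (hδ : δ ≤ 1) :
    slab n ρ δ ⊆ closedBall 0 4 := fun x hx => by
  rw [mem_closedBall_zero_iff]
  have h := (abs_le.1 (show |‖x‖ - ρ| ≤ δ from hx)).2
  linarith

/-- The volume of the unit ball. -/
noncomputable def ballVol (n : ℕ) : ℝ :=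
  volume.real (closedBall (0 : EuclideanSpace ℝ (Fin n)) 1)

theorem ballVol_pos (n : ℕ) : 0 < ballVol n := by
  refine ENNReal.toReal_pos (measure_closedBall_pos volume 0 one_pos).ne' ?_
  exact measure_closedBall_lt_top.ne

theorem volume_closedBall_eq (y : EuclideanSpace ℝ (Fin n)) {R : ℝ} (hR : 0 ≤ R) :
    volume (closedBall y R) = ENNReal.ofReal (R ^ n * ballVol n) := by
  rw [← ofReal_measureReal measure_closedBall_lt_top.ne, Measure.addHaar_real_closedBall' volume y hR,
    finrank_euclideanSpace_fin]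
  rfl

/-- A slab meets a ball of radius `R` in volume at most `δ R^(n-1)`: its dilates by the powers of
`1 + 6 δ` are disjoint and stay in a ball of comparable radius. -/
theorem exists_slab_ball (hn : 1 ≤ n) :
    ∃ C : ℝ, 0 < C ∧ ∀ ρ δ : ℝ, 1 / 2 ≤ ρ → ρ ≤ 3 → 0 < δ → δ ≤ 1 / 24 →
      ∀ (y : EuclideanSpace ℝ (Fin n)) (R : ℝ), 0 < R →
        volume (slab n ρ δ ∩ closedBall y R) ≤ ENNReal.ofReal (C * δ * R ^ (n - 1)) := by
  set C₁ : ℝ := 1 + 24 * Real.exp 24 with hC₁
  have hV := ballVol_pos n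
  have hC₁1 : 1 ≤ C₁ := by rw [hC₁]; linarith [Real.exp_pos (24 : ℝ)]
  refine ⟨C₁ ^ n * 4 ^ n * ballVol n, by positivity, fun ρ δ h1 h2 hδ hδ' y R hR => ?_⟩
  -- it suffices to treat radii below four, and radii above `δ`
  wlog hR4 : R ≤ 4 generalizing y R with H
  · have hsub : slab n ρ δ ∩ closedBall y R ⊆ slab n ρ δ ∩ closedBall 0 4 := fun x hx =>
      ⟨hx.1, slab_subset_closedBall h2 (by linarith) hx.1⟩
    refine (measure_mono hsub).trans ((H 0 4 (by norm_num) le_rfl).trans ?_)
    refine ENNReal.ofReal_le_ofReal (mul_le_mul_of_nonneg_left ?_ (by positivity))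
    exact pow_le_pow_left₀ (by norm_num) (not_le.1 hR4).le _
  have key : R ^ (n - 1) * R = R ^ n := by rw [← pow_succ]; congr 1; omega
  rcases le_total R δ with hRδ | hδR
  · refine (measure_mono inter_subset_right).trans ?_
    rw [volume_closedBall_eq y hR.le]
    refine ENNReal.ofReal_le_ofReal ?_
    rw [← key]
    have hA : (1 : ℝ) ≤ C₁ ^ n * 4 ^ n :=
      one_le_mul_of_one_le_of_one_le (one_le_pow₀ hC₁1) (one_le_pow₀ (by norm_num))
    calc R ^ (n - 1) * R * ballVol n ≤ 1 * (R ^ (n - 1) * δ * ballVol n) := by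
          rw [one_mul]
          exact mul_le_mul_of_nonneg_right (mul_le_mul_of_nonneg_left hRδ (by positivity)) hV.le
      _ ≤ C₁ ^ n * 4 ^ n * (R ^ (n - 1) * δ * ballVol n) :=
          mul_le_mul_of_nonneg_right hA (by positivity)
      _ = _ := by ring
  set P := slab n ρ δ ∩ closedBall y R with hP
  set lam : ℕ → ℝ := fun j => (1 + 6 * δ) ^ j with hlam
  set m : ℕ := ⌊R / δ⌋₊ + 1 with hm
  have hlam1 : ∀ j, 1 ≤ lam j := fun j => one_le_pow₀ (by linarith)
  have hlamu : ∀ j < m, lam j ≤ 1 + 6 * R * Real.exp 24 := by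
    intro j hj
    have hjR : (j : ℝ) * δ ≤ R := by
      have : (j : ℝ) ≤ R / δ :=
        (Nat.cast_le.2 (Nat.lt_succ_iff.1 hj)).trans (Nat.floor_le (by positivity))
      rwa [le_div_iff₀ hδ] at this
    have e1 : lam j ≤ Real.exp (6 * R) := by
      refine (pow_le_pow_left₀ (by linarith) (Real.add_one_le_exp (6 * δ) |>.trans' (by linarith)) j).trans ?_
      rw [← Real.exp_nat_mul]
      exact Real.exp_le_exp.2 (by nlinarith)
    refine e1.trans ?_
    -- convexity of the exponential on a bounded interval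
    have e2 : Real.exp (6 * R) - 1 ≤ 6 * R * Real.exp (6 * R) := by
      have := Real.add_one_le_exp (-(6 * R))
      have h' := mul_le_mul_of_nonneg_left this (Real.exp_pos (6 * R)).le
      rw [← Real.exp_add, add_neg_cancel, Real.exp_zero] at h'
      linarith
    have e3 : Real.exp (6 * R) ≤ Real.exp 24 := Real.exp_le_exp.2 (by linarith)
    nlinarith [mul_le_mul_of_nonneg_left e3 (by positivity : (0:ℝ) ≤ 6 * R)]
  have hsub : ∀ j < m, lam j • P ⊆ closedBall y (C₁ * R) := by
    rintro j hj _ ⟨x, hx, rfl⟩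
    rw [mem_closedBall]
    have hxy : ‖x - y‖ ≤ R := by rw [← dist_eq_norm]; exact hx.2
    have hx4 : ‖x‖ ≤ 4 := mem_closedBall_zero_iff.1 (slab_subset_closedBall h2 (by linarith) hx.1)
    have e : lam j • x - y = (lam j - 1) • x + (x - y) := by rw [sub_smul, one_smul]; abel
    show dist (lam j • x) y ≤ C₁ * R
    rw [dist_eq_norm, e]
    refine (norm_add_le _ _).trans ?_
    rw [norm_smul, Real.norm_eq_abs, abs_of_nonneg (by linarith [hlam1 j])]
    have h3 := mul_le_mul (show lam j - 1 ≤ 6 * R * Real.exp 24 by linarith [hlamu j hj]) hx4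
      (norm_nonneg _) (by positivity)
    rw [hC₁]
    linarith
  have hdis : ∀ i j, i < j → Disjoint (lam i • P) (lam j • P) := by
    intro i j hij
    rw [Set.disjoint_left]
    rintro _ ⟨x, hx, rfl⟩ ⟨z, hz, hxz⟩
    have hn1 := congrArg norm hxz
    simp only [norm_smul, Real.norm_eq_abs, abs_of_pos (lt_of_lt_of_le one_pos (hlam1 _))] at hn1
    have hz' := (abs_le.1 (show |‖z‖ - ρ| ≤ δ from hz.1))
    have hx' := (abs_le.1 (show |‖x‖ - ρ| ≤ δ from hx.1))
    have hstep : lam i * (1 + 6 * δ) ≤ lam j := by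
      rw [hlam]; simp only
      rw [← pow_succ]
      exact pow_le_pow_right₀ (by linarith) hij
    have hli := lt_of_lt_of_le one_pos (hlam1 i)
    nlinarith [mul_le_mul_of_nonneg_right hstep (norm_nonneg z), mul_pos hli hδ]
  have hPm : MeasurableSet P := (measurableSet_slab ρ δ).inter measurableSet_closedBall
  have hmeas : ∀ j, MeasurableSet (lam j • P) := fun j =>
    hPm.const_smul_of_ne_zero (lt_of_lt_of_le one_pos (hlam1 j)).ne'
  have hge : ∀ j, volume P ≤ volume (lam j • P) := by
    intro j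
    rw [Measure.addHaar_smul, finrank_euclideanSpace_fin]
    refine le_mul_of_one_le_left' ?_
    rw [abs_of_nonneg (pow_nonneg (zero_le_one.trans (hlam1 j)) _)]
    exact ENNReal.one_le_ofReal.2 (one_le_pow₀ (hlam1 j))
  have hunion : (m : ℝ≥0∞) * volume P ≤ volume (closedBall y (C₁ * R)) := by
    calc (m : ℝ≥0∞) * volume P = ∑ _j ∈ Finset.range m, volume P := by
          rw [Finset.sum_const, Finset.card_range, nsmul_eq_mul]
      _ ≤ ∑ j ∈ Finset.range m, volume (lam j • P) := Finset.sum_le_sum fun j _ => hge j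
      _ = volume (⋃ j ∈ Finset.range m, lam j • P) := by
          rw [measure_biUnion_finset (fun i _ j _ hij => ?_) fun j _ => hmeas j]
          rcases Nat.lt_or_gt_of_ne hij with h | h
          exacts [hdis i j h, (hdis j i h).symm]
      _ ≤ _ := measure_mono (iUnion₂_subset fun j hj => hsub j (Finset.mem_range.1 hj))
  have hPtop : volume P ≠ ⊤ :=
    ((measure_mono inter_subset_right).trans_lt measure_closedBall_lt_top).ne
  rw [← ofReal_measureReal hPtop]
  refine ENNReal.ofReal_le_ofReal ?_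
  have hreal : (m : ℝ) * volume.real P ≤ (C₁ * R) ^ n * ballVol n := by
    have h := ENNReal.toReal_mono measure_closedBall_lt_top.ne hunion
    rw [ENNReal.toReal_mul, ENNReal.toReal_natCast, volume_closedBall_eq y (by positivity),
      ENNReal.toReal_ofReal (by positivity)] at h
    exact h
  have hmR : R / δ ≤ m := by
    rw [hm]; push_cast; exact (Nat.lt_floor_add_one _).le
  have hP0 : 0 ≤ volume.real P := measureReal_nonneg
  have h5 := (mul_le_mul_of_nonneg_right hmR hP0).trans hreal
  rw [div_mul_eq_mul_div, div_le_iff₀ hδ, mul_pow, ← key] at h5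
  have h6 : volume.real P ≤ C₁ ^ n * (R ^ (n - 1)) * ballVol n * δ :=
    le_of_mul_le_mul_left (by linarith) hR
  refine h6.trans ?_
  rw [show C₁ ^ n * R ^ (n - 1) * ballVol n * δ = 1 * (C₁ ^ n * R ^ (n - 1) * ballVol n * δ) by ring,
    show C₁ ^ n * 4 ^ n * ballVol n * δ * R ^ (n - 1) =
      4 ^ n * (C₁ ^ n * R ^ (n - 1) * ballVol n * δ) by ring]
  exact mul_le_mul_of_nonneg_right (one_le_pow₀ (by norm_num)) (by positivity)

/-! ### Kernels -/

/-- A power kernel is integrable against a measure whose balls grow like a higher power. -/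
theorem exists_kernel {a d : ℝ} (had : a < d) :
    ∃ C : ℝ, 0 < C ∧ ∀ (μ : Measure (EuclideanSpace ℝ (Fin n))) (y : EuclideanSpace ℝ (Fin n))
      (K R : ℝ), 0 ≤ K → 0 < R → μ {y} = 0 →
      (∀ r, 0 < r → r ≤ R → μ (closedBall y r) ≤ ENNReal.ofReal (K * r ^ d)) →
      ∫⁻ x in closedBall y R, ENNReal.ofReal (‖x - y‖ ^ (-a)) ∂μ ≤
        ENNReal.ofReal (C * K * R ^ (d - a)) := by
  set r : ℝ := (2 : ℝ) ^ (a - d) with hr
  have hr0 : 0 < r := Real.rpow_pos_of_pos two_pos _
  have hr1 : r < 1 := Real.rpow_lt_one_of_one_lt_of_neg one_lt_two (by linarith)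
  set M : ℝ := max ((2 : ℝ) ^ a) 1 with hM
  have hM1 : 1 ≤ M := le_max_right _ _
  refine ⟨M * (1 - r)⁻¹, by have : 0 < 1 - r := by linarith
                            positivity, fun μ y K R hK hR hy hb => ?_⟩
  set rad : ℕ → ℝ := fun k => R * ((2 : ℝ) ^ k)⁻¹ with hrad
  have hradp : ∀ k, 0 < rad k := fun k => by positivity
  set G : ℕ → EuclideanSpace ℝ (Fin n) → ℝ≥0∞ := fun k =>
    (closedBall y (rad k)).indicator fun _ => ENNReal.ofReal (M * rad k ^ (-a)) with hG
  have hpt : ∀ x ∈ closedBall y R, x ≠ y →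
      ENNReal.ofReal (‖x - y‖ ^ (-a)) ≤ ∑' k, G k x := by
    intro x hx hne
    have hz : 0 < ‖x - y‖ := norm_pos_iff.2 (sub_ne_zero.2 hne)
    have hzR : ‖x - y‖ ≤ R := by rw [← dist_eq_norm]; exact hx
    obtain ⟨k, hk1, hk2⟩ : ∃ k : ℕ, ‖x - y‖ ≤ rad k ∧ rad k < 2 * ‖x - y‖ := by
      classical
      have hex : ∃ k, rad k < 2 * ‖x - y‖ := by
        obtain ⟨k, hk⟩ := exists_pow_lt_of_lt_one (div_pos (mul_pos two_pos hz) hR)
          (by norm_num : (1 / 2 : ℝ) < 1)
        refine ⟨k, ?_⟩
        rw [lt_div_iff₀ hR, one_div, inv_pow] at hk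
        rw [hrad]; linarith
      refine ⟨Nat.find hex, ?_, Nat.find_spec hex⟩
      rcases Nat.eq_zero_or_pos (Nat.find hex) with h0 | h0
      · rw [h0]; simpa [hrad] using hzR
      · have hnot := Nat.find_min hex (Nat.sub_one_lt h0.ne')
        rw [not_lt] at hnot
        have e : ∀ j, rad j = 2 * rad (j + 1) := fun j => by
          simp only [hrad, pow_succ]
          field_simp
        have e' := e (Nat.find hex - 1)
        rw [Nat.sub_add_cancel h0] at e'
        linarith
    refine le_trans ?_ (ENNReal.le_tsum k)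
    rw [hG]
    simp only
    rw [indicator_of_mem (by rw [mem_closedBall, dist_eq_norm]; exact hk1)]
    refine ENNReal.ofReal_le_ofReal ?_
    rcases le_total 0 a with ha | ha
    · have h1 := Real.rpow_le_rpow_of_nonpos (div_pos (hradp k) two_pos) (by linarith : rad k / 2 ≤ ‖x - y‖)
        (by linarith : -a ≤ 0)
      rw [Real.div_rpow (hradp k).le two_pos.le, div_eq_mul_inv, ← Real.rpow_neg two_pos.le, neg_neg]
        at h1
      refine h1.trans ?_
      rw [mul_comm]
      exact mul_le_mul_of_nonneg_right (le_max_left _ _) (Real.rpow_nonneg (hradp k).le _)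
    · exact (Real.rpow_le_rpow hz.le hk1 (by linarith)).trans
        (le_mul_of_one_le_left (Real.rpow_nonneg (hradp k).le _) hM1)
  calc ∫⁻ x in closedBall y R, ENNReal.ofReal (‖x - y‖ ^ (-a)) ∂μ
      ≤ ∫⁻ x in closedBall y R, ∑' k, G k x ∂μ := by
        refine lintegral_mono_ae ?_
        filter_upwards [ae_restrict_mem measurableSet_closedBall,
          ae_restrict_of_ae (show ∀ᵐ x ∂μ, x ≠ y from by rw [ae_iff]; simpa using hy)] with x h1 h2
        exact hpt x h1 h2
    _ ≤ ∫⁻ x, ∑' k, G k x ∂μ := setLIntegral_le_lintegral _ _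
    _ = ∑' k, ENNReal.ofReal (M * rad k ^ (-a)) * μ (closedBall y (rad k)) := by
        rw [lintegral_tsum fun k => (measurable_const.indicator measurableSet_closedBall).aemeasurable]
        exact tsum_congr fun k => lintegral_indicator_const measurableSet_closedBall _
    _ ≤ ∑' k, ENNReal.ofReal (M * K * R ^ (d - a) * r ^ k) := by
        refine ENNReal.tsum_le_tsum fun k => ?_
        refine (mul_le_mul_of_nonneg_left (hb _ (hradp k) ?_) (zero_le)).trans ?_
        · exact mul_le_of_le_one_right hR.le (inv_le_one_of_one_le₀ (one_le_pow₀ one_le_two))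
        rw [← ENNReal.ofReal_mul (by positivity)]
        refine ENNReal.ofReal_le_ofReal (le_of_eq ?_)
        have e : rad k ^ (-a) * rad k ^ d = R ^ (d - a) * r ^ k := by
          rw [← Real.rpow_add (hradp k), hrad]
          simp only
          rw [Real.mul_rpow hR.le (by positivity), hr, ← Real.rpow_natCast ((2:ℝ) ^ (a - d)) k,
            ← Real.rpow_mul two_pos.le, ← Real.rpow_natCast (2:ℝ) k, ← Real.rpow_neg two_pos.le,
            ← Real.rpow_mul two_pos.le]
          congr 2 <;> ring
        calc M * rad k ^ (-a) * (K * rad k ^ d) = M * K * (rad k ^ (-a) * rad k ^ d) := by ring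
          _ = _ := by rw [e]; ring
    _ = ENNReal.ofReal (M * (1 - r)⁻¹ * K * R ^ (d - a)) := by
        rw [← ENNReal.ofReal_tsum_of_nonneg (fun k => by positivity)
          ((summable_geometric_of_lt_one hr0.le hr1).mul_left _), tsum_mul_left,
          tsum_geometric_of_lt_one hr0.le hr1]
        congr 1; ring

end Vale.Agent.P100.Sector
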