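import Vale.Agent.P100.Sector.Slice

/-!
P100, the sector argument: the weighted slice integral of a continuous density is continuous in the
radius and is, for some radius in each interval, at most its average.
-/

open MeasureTheory Metric Set Filter Topology
open scoped ENNReal

namespace Vale.Agent.P100.Sector

variable {n : ℕ}

theorem intervalIntegrable_absPow {θ : ℝ} (hθ1 : θ < 1) {c : ℝ} (hc : 0 ≤ c) :
    IntervalIntegrable (fun t : ℝ => |t| ^ (-θ)) volume (-c) c := by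
  have h1 : IntervalIntegrable (fun t : ℝ => |t| ^ (-θ)) volume 0 c := by
    refine (intervalIntegral.intervalIntegrable_rpow' (by linarith : -1 < -θ)).congr ?_
    intro t ht
    rw [uIoc_of_le hc] at ht
    show t ^ (-θ) = |t| ^ (-θ)
    rw [abs_of_pos ht.1]
  have h2 := h1.comp_sub_left 0
  simp only [zero_sub, abs_neg, sub_self] at h2
  exact h2.symm.trans h1

/-- The weight of the unit sphere is integrable on balls. -/
theorem integrable_sphereWt (hn : 2 ≤ n) {θ : ℝ} (hθ1 : θ < 1) {R : ℝ} (hR : 0 ≤ R) :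
    Integrable ((closedBall (0 : EuclideanSpace ℝ (Fin n)) R).indicator
      fun z => |‖z‖ - 1| ^ (-θ)) := by
  have : Nontrivial (EuclideanSpace ℝ (Fin n)) := by
    refine ⟨0, EuclideanSpace.single ⟨0, by omega⟩ 1, fun h => ?_⟩
    have := congrArg norm h
    simp at this
  set f : ℝ → ℝ := (Iic R).indicator fun r => |r - 1| ^ (-θ) with hf
  have e : (fun z : EuclideanSpace ℝ (Fin n) => f ‖z‖) =
      (closedBall (0 : EuclideanSpace ℝ (Fin n)) R).indicator fun z => |‖z‖ - 1| ^ (-θ) := by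
    funext z
    simp only [hf, indicator, mem_Iic, mem_closedBall_zero_iff]
  rw [← e, integrable_fun_norm_addHaar, finrank_euclideanSpace_fin]
  have hi : IntervalIntegrable (fun r : ℝ => r ^ (n - 1) • |r - 1| ^ (-θ)) volume 0 R := by
    have h := (intervalIntegrable_absPow hθ1 (c := R + 2) (by linarith)).comp_sub_right 1
    simp only [smul_eq_mul]
    refine IntervalIntegrable.continuousOn_mul ?_ (continuous_pow _).continuousOn
    refine h.mono_set ?_
    rw [uIcc_of_le hR, uIcc_of_le (by linarith)]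
    exact Icc_subset_Icc (by linarith) (by linarith)
  have e2 : (fun y : ℝ => y ^ (n - 1) • f y) =
      (Iic R).indicator fun r => r ^ (n - 1) • |r - 1| ^ (-θ) := by
    funext y
    simp only [hf, indicator, mem_Iic, smul_ite, smul_zero]
  rw [e2, IntegrableOn, integrable_indicator_iff measurableSet_Iic, IntegrableOn,
    Measure.restrict_restrict measurableSet_Iic, inter_comm, Ioi_inter_Iic]
  exact (intervalIntegrable_iff_integrableOn_Ioc_of_le hR).1 hi

/-- The real-valued slice integral. -/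
noncomputable def sliceInt (θ : ℝ) (g : EuclideanSpace ℝ (Fin n) → ℝ) (ρ : ℝ) : ℝ :=
  ∫ y, g y * |‖y‖ - ρ| ^ (-θ)

theorem slice_dilate {θ ρ : ℝ} (hρ : 0 < ρ) (g : EuclideanSpace ℝ (Fin n) → ℝ)
    (z : EuclideanSpace ℝ (Fin n)) :
    g (ρ • z) * |‖ρ • z‖ - ρ| ^ (-θ) = ρ ^ (-θ) * (g (ρ • z) * |‖z‖ - 1| ^ (-θ)) := by
  rw [norm_smul, Real.norm_eq_abs, abs_of_pos hρ,
    show ρ * ‖z‖ - ρ = ρ * (‖z‖ - 1) by ring, abs_mul, abs_of_pos hρ,
    Real.mul_rpow hρ.le (abs_nonneg _)]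
  ring

theorem slice_regular (hn : 2 ≤ n) {θ : ℝ} (hθ1 : θ < 1)
    {g : EuclideanSpace ℝ (Fin n) → ℝ} (hc : Continuous g) (hs : HasCompactSupport g)
    (h0 : ∀ y, 0 ≤ g y) :
    ContinuousOn (sliceInt θ g) (Icc 1 2) ∧
      ∀ ρ ∈ Icc (1 : ℝ) 2, sliceWt θ g ρ = ENNReal.ofReal (sliceInt θ g ρ) := by
  obtain ⟨R, hR⟩ := hs.isBounded.subset_closedBall (0 : EuclideanSpace ℝ (Fin n))
  obtain ⟨M, hM⟩ := hc.bounded_above_of_compact_support hs
  set R' := max R 0
  have hgz : ∀ y, R' < ‖y‖ → g y = 0 := fun y hy =>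
    image_eq_zero_of_notMem_tsupport fun h => by
      have := mem_closedBall_zero_iff.1 (hR h)
      linarith [le_max_left R 0]
  set K := (closedBall (0 : EuclideanSpace ℝ (Fin n)) (2 * R')).indicator
    fun z => |‖z‖ - 1| ^ (-θ) with hK
  have hKi : Integrable K := integrable_sphereWt hn hθ1 (by positivity)
  set F : ℝ → EuclideanSpace ℝ (Fin n) → ℝ := fun ρ z => g (ρ • z) * |‖z‖ - 1| ^ (-θ) with hF
  have hFm : ∀ ρ, AEStronglyMeasurable (F ρ) volume := fun ρ =>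
    (((hc.comp (continuous_const_smul ρ)).measurable).mul
      (((measurable_norm.sub_const 1).abs).pow_const _)).aestronglyMeasurable
  have hbd : ∀ ρ, 1 / 2 < ρ → ∀ z, ‖F ρ z‖ ≤ M * K z := by
    intro ρ hρ z
    have hM0 : 0 ≤ M := (norm_nonneg _).trans (hM 0)
    by_cases hz : z ∈ closedBall (0 : EuclideanSpace ℝ (Fin n)) (2 * R')
    · rw [hK, indicator_of_mem hz, hF, norm_mul, Real.norm_eq_abs (|_| ^ (-θ)),
        abs_of_nonneg (Real.rpow_nonneg (abs_nonneg _) _)]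
      exact mul_le_mul_of_nonneg_right (hM _) (Real.rpow_nonneg (abs_nonneg _) _)
    · rw [mem_closedBall_zero_iff, not_le] at hz
      have : g (ρ • z) = 0 := hgz _ (by
        rw [norm_smul, Real.norm_eq_abs, abs_of_pos (by linarith)]
        have := mul_le_mul_of_nonneg_right hρ.le (norm_nonneg z)
        linarith)
      simp only [hF, this, zero_mul, norm_zero]
      exact mul_nonneg hM0 (indicator_nonneg (fun _ _ => Real.rpow_nonneg (abs_nonneg _) _) _)
  have hFi : ∀ ρ, 1 / 2 < ρ → Integrable (F ρ) := fun ρ hρ =>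
    (hKi.const_mul M).mono' (hFm ρ) (Eventually.of_forall (hbd ρ hρ))
  have hcF : ∀ ρ₀, 1 / 2 < ρ₀ → ContinuousAt (fun ρ => ∫ z, F ρ z) ρ₀ := fun ρ₀ h₀ =>
    continuousAt_of_dominated (Eventually.of_forall hFm)
      (by filter_upwards [Ioi_mem_nhds h₀] with ρ hρ using Eventually.of_forall (hbd ρ hρ)) (hKi.const_mul M)
      (Eventually.of_forall fun z => by rw [hF]; fun_prop)
  have key : ∀ ρ, 0 < ρ → sliceInt θ g ρ = ρ ^ n * ρ ^ (-θ) * ∫ z, F ρ z := by
    intro ρ hρ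
    have h := Measure.integral_comp_smul (volume : Measure (EuclideanSpace ℝ (Fin n)))
      (fun y => g y * |‖y‖ - ρ| ^ (-θ)) ρ
    simp only [slice_dilate hρ, finrank_euclideanSpace_fin, smul_eq_mul, integral_const_mul] at h
    rw [abs_of_pos (by positivity)] at h
    rw [sliceInt, mul_assoc, hF, h]
    field_simp
  refine ⟨fun ρ hρ => ContinuousAt.continuousWithinAt ?_, fun ρ hρ => ?_⟩
  · have h1 : 0 < ρ := by linarith [hρ.1]
    refine (ContinuousAt.congr (f := fun ρ => ρ ^ n * ρ ^ (-θ) * ∫ z, F ρ z) ?_ ?_)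
    · exact ((continuousAt_id.pow n).mul
        (Real.continuousAt_rpow_const _ _ (Or.inl h1.ne'))).mul (hcF ρ (by linarith [hρ.1]))
    · filter_upwards [Ioi_mem_nhds h1] with t ht using (key t ht).symm
  · have h1 : 0 < ρ := by linarith [hρ.1]
    have hi : Integrable fun y => g y * |‖y‖ - ρ| ^ (-θ) := by
      rw [← integrable_comp_smul_iff volume _ h1.ne']
      simp only [slice_dilate h1]
      exact (hFi ρ (by linarith [hρ.1])).const_mul _
    exact (ofReal_integral_eq_lintegral_ofReal hi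
      (Eventually.of_forall fun y => mul_nonneg (h0 y) (Real.rpow_nonneg (abs_nonneg _) _))).symm

theorem slice_radius_bound {θ : ℝ} (hθ : 0 < θ) (hθ1 : θ < 1) :
    ∃ C : ℝ, 0 < C ∧ ∀ r a b : ℝ, a ≤ b → b - a ≤ 1 →
      ∫⁻ ρ in Ioc a b, ENNReal.ofReal (|r - ρ| ^ (-θ)) ≤ ENNReal.ofReal C := by
  set k : ℝ → ℝ := (Ioc (-1 : ℝ) 1).indicator fun t => |t| ^ (-θ) with hk
  have hki : Integrable k := (integrable_indicator_iff measurableSet_Ioc).2
    ((intervalIntegrable_iff_integrableOn_Ioc_of_le (by norm_num)).1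
      (intervalIntegrable_absPow hθ1 zero_le_one))
  have hk0 : ∀ t, 0 ≤ k t := fun t =>
    indicator_nonneg (fun s _ => Real.rpow_nonneg (abs_nonneg s) _) t
  have hpt : ∀ t : ℝ, |t| ^ (-θ) ≤ 1 + k t := by
    intro t
    by_cases ht : t ∈ Ioc (-1 : ℝ) 1
    · rw [hk, indicator_of_mem ht]; linarith
    · have : 1 ≤ |t| := by
        rw [mem_Ioc, not_and_or, not_lt, not_le] at ht
        rcases ht with h | h
        · exact le_trans (by linarith) (neg_le_abs t)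
        · exact h.le.trans (le_abs_self t)
      linarith [Real.rpow_le_one_of_one_le_of_nonpos this (by linarith : -θ ≤ 0), hk0 t]
  refine ⟨1 + ∫ t, k t, by linarith [integral_nonneg (μ := volume) (f := k) hk0], fun r a b hab hb1 => ?_⟩
  calc ∫⁻ ρ in Ioc a b, ENNReal.ofReal (|r - ρ| ^ (-θ))
      ≤ ∫⁻ ρ in Ioc a b, (1 + ENNReal.ofReal (k (r - ρ))) := by
        refine lintegral_mono fun ρ => ?_
        rw [← ENNReal.ofReal_one, ← ENNReal.ofReal_add zero_le_one (hk0 _)]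
        exact ENNReal.ofReal_le_ofReal (hpt _)
    _ ≤ volume (Ioc a b) + ∫⁻ ρ, ENNReal.ofReal (k (r - ρ)) := by
        rw [lintegral_add_left measurable_const, setLIntegral_one]
        exact add_le_add le_rfl (setLIntegral_le_lintegral _ _)
    _ = ENNReal.ofReal (b - a) + ENNReal.ofReal (∫ t, k t) := by
        rw [Real.volume_Ioc, ofReal_integral_eq_lintegral_ofReal hki (Eventually.of_forall hk0)]
        exact congrArg _ (lintegral_sub_left_eq_self (fun t => ENNReal.ofReal (k t)) r)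
    _ ≤ _ := by
        rw [ENNReal.ofReal_add zero_le_one (integral_nonneg hk0)]
        exact add_le_add (ENNReal.ofReal_le_ofReal hb1) le_rfl

/-- The average over an interval of radii of a weighted integral. -/
theorem lintegral_radii {g : EuclideanSpace ℝ (Fin n) → ℝ} (hc : Continuous g)
    (hs : HasCompactSupport g) (h0 : ∀ y, 0 ≤ g y) {k : ℝ → ℝ → ℝ≥0∞}
    (hk : Measurable (Function.uncurry k)) {J : Set ℝ} {c : ℝ}
    (hb : ∀ r, ∫⁻ ρ in J, k r ρ ≤ ENNReal.ofReal c) :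
    Measurable (fun ρ => ∫⁻ y, ENNReal.ofReal (g y) * k ‖y‖ ρ) ∧
      ∫⁻ ρ in J, ∫⁻ y, ENNReal.ofReal (g y) * k ‖y‖ ρ ≤ ENNReal.ofReal (c * ∫ y, g y) := by
  have hm : Measurable fun p : ℝ × EuclideanSpace ℝ (Fin n) =>
      ENNReal.ofReal (g p.2) * k ‖p.2‖ p.1 :=
    (hc.measurable.comp measurable_snd).ennreal_ofReal.mul
      (hk.comp ((measurable_norm.comp measurable_snd).prodMk measurable_fst))
  refine ⟨hm.lintegral_prod_right', ?_⟩
  rw [lintegral_lintegral_swap hm.aemeasurable, mul_comm c,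
    ENNReal.ofReal_mul (integral_nonneg h0),
    ofReal_integral_eq_lintegral_ofReal (hc.integrable_of_hasCompactSupport hs)
      (Eventually.of_forall h0), ← lintegral_mul_const _ hc.measurable.ennreal_ofReal]
  refine lintegral_mono fun y => ?_
  rw [lintegral_const_mul _ (show Measurable fun ρ => k ‖y‖ ρ from
    hk.comp (measurable_const.prodMk measurable_id))]
  exact mul_le_mul' le_rfl (hb _)

/-- A radius near which both weighted slice integrals are at most their averages. -/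
theorem exists_good_radius (hn : 2 ≤ n) {θ : ℝ} (hθ : 0 < θ) (hθ1 : θ < 1) :
    ∃ C : ℝ, 0 < C ∧ ∀ g₁ g₂ : EuclideanSpace ℝ (Fin n) → ℝ,
      Continuous g₁ → HasCompactSupport g₁ → (∀ y, 0 ≤ g₁ y) →
      Continuous g₂ → HasCompactSupport g₂ → (∀ y, 0 ≤ g₂ y) →
      ∀ a b : ℝ, 1 ≤ a → a < b → b ≤ 2 →
        ∃ ρ δ : ℝ, 0 < δ ∧ δ ≤ 1 / 24 ∧ a ≤ ρ - δ ∧ ρ + δ ≤ b ∧
          (∫ y in slab n ρ δ, g₁ y) ≤ δ * (C / (b - a) * ((∫ y, g₁ y) + 1)) ∧
          (∫ y in slab n ρ δ, g₂ y) ≤ δ * (C / (b - a) * ((∫ y, g₂ y) + 1)) ∧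
          ∀ ρ', |ρ' - ρ| ≤ δ →
            sliceWt θ g₁ ρ' ≤ ENNReal.ofReal (C / (b - a) * ((∫ y, g₁ y) + 1)) ∧
            sliceWt θ g₂ ρ' ≤ ENNReal.ofReal (C / (b - a) * ((∫ y, g₂ y) + 1)) := by
  obtain ⟨Cθ, hCθ, hrad⟩ := slice_radius_bound hθ hθ1
  refine ⟨3 * (2 * Cθ + 4) + 1, by positivity,
    fun g₁ g₂ c₁ s₁ p₁ c₂ s₂ p₂ a b ha hab hb => ?_⟩
  obtain ⟨u₁, e₁⟩ := slice_regular hn hθ1 c₁ s₁ p₁
  obtain ⟨u₂, e₂⟩ := slice_regular hn hθ1 c₂ s₂ p₂
  obtain ⟨η₁, hη₁, v₁⟩ := Metric.uniformContinuousOn_iff.1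
    (isCompact_Icc.uniformContinuousOn_of_continuous u₁) 1 one_pos
  obtain ⟨η₂, hη₂, v₂⟩ := Metric.uniformContinuousOn_iff.1
    (isCompact_Icc.uniformContinuousOn_of_continuous u₂) 1 one_pos
  set L := b - a with hL
  have hL0 : 0 < L := by linarith
  have hL1 : L ≤ 1 := by linarith
  set δ := min (min (η₁ / 2) (η₂ / 2)) (min (1 / 24) (L / 8)) with hδdef
  have hδ : 0 < δ := by positivity
  have hδ24 : δ ≤ 1 / 24 := (min_le_right _ _).trans (min_le_left _ _)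
  have hδL : δ ≤ L / 8 := (min_le_right _ _).trans (min_le_right _ _)
  have hδ₁ : δ ≤ η₁ / 2 := (min_le_left _ _).trans (min_le_left _ _)
  have hδ₂ : δ ≤ η₂ / 2 := (min_le_left _ _).trans (min_le_right _ _)
  set J := Ioc (a + δ) (b - δ) with hJ
  set kW : ℝ → ℝ → ℝ≥0∞ := fun r ρ => ENNReal.ofReal (|r - ρ| ^ (-θ)) with hkW
  set kS : ℝ → ℝ → ℝ≥0∞ := fun r ρ => (closedBall r δ).indicator (fun _ => (1 : ℝ≥0∞)) ρ with hkS
  have mW : Measurable (Function.uncurry kW) :=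
    (((measurable_fst.sub measurable_snd).abs).pow_const _).ennreal_ofReal
  have mS : Measurable (Function.uncurry kS) :=
    Measurable.ite (measurableSet_le (measurable_snd.dist measurable_fst) measurable_const)
      measurable_const measurable_const
  have bW : ∀ r, ∫⁻ ρ in J, kW r ρ ≤ ENNReal.ofReal Cθ := fun r =>
    hrad r _ _ (by linarith) (by linarith)
  have bS : ∀ r, ∫⁻ ρ in J, kS r ρ ≤ ENNReal.ofReal (2 * δ) := fun r => by
    refine (setLIntegral_le_lintegral _ _).trans_eq ?_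
    rw [lintegral_indicator_const measurableSet_closedBall, one_mul, Real.volume_closedBall]
  have eS : ∀ g : EuclideanSpace ℝ (Fin n) → ℝ, Continuous g → HasCompactSupport g →
      (∀ y, 0 ≤ g y) → ∀ ρ, (∫⁻ y, ENNReal.ofReal (g y) * kS ‖y‖ ρ) =
        ENNReal.ofReal (∫ y in slab n ρ δ, g y) := by
    intro g hc hs h0 ρ
    rw [ofReal_integral_eq_lintegral_ofReal (hc.integrable_of_hasCompactSupport hs).integrableOn
      (Eventually.of_forall h0), ← lintegral_indicator (measurableSet_slab ρ δ)]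
    refine lintegral_congr fun y => ?_
    simp only [hkS, indicator, slab, mem_ofPred_eq, mem_closedBall, Real.dist_eq, mul_ite, mul_one,
      mul_zero, abs_sub_comm ρ]
    by_cases hy : |‖y‖ - ρ| ≤ δ <;> simp [hy]
  have eW : ∀ g : EuclideanSpace ℝ (Fin n) → ℝ, (∀ y, 0 ≤ g y) → ∀ ρ,
      (∫⁻ y, ENNReal.ofReal (g y) * kW ‖y‖ ρ) = sliceWt θ g ρ := by
    intro g h0 ρ
    exact lintegral_congr fun y => (ENNReal.ofReal_mul (h0 y)).symm
  set I₁ := ∫ y, g₁ y
  set I₂ := ∫ y, g₂ y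
  have hI₁ : 0 ≤ I₁ := integral_nonneg p₁
  have hI₂ : 0 ≤ I₂ := integral_nonneg p₂
  set G : ℝ → ℝ≥0∞ := fun ρ =>
    ENNReal.ofReal (I₁ + 1)⁻¹ * (∫⁻ y, ENNReal.ofReal (g₁ y) * kW ‖y‖ ρ) +
    ENNReal.ofReal (I₂ + 1)⁻¹ * (∫⁻ y, ENNReal.ofReal (g₂ y) * kW ‖y‖ ρ) +
    ENNReal.ofReal (δ * (I₁ + 1))⁻¹ * (∫⁻ y, ENNReal.ofReal (g₁ y) * kS ‖y‖ ρ) +
    ENNReal.ofReal (δ * (I₂ + 1))⁻¹ * (∫⁻ y, ENNReal.ofReal (g₂ y) * kS ‖y‖ ρ) with hG
  have hsum : ∫⁻ ρ in J, G ρ ≤ ENNReal.ofReal (2 * Cθ + 4) := by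
    obtain ⟨w₁, x₁⟩ := lintegral_radii c₁ s₁ p₁ mW bW
    obtain ⟨w₂, x₂⟩ := lintegral_radii c₂ s₂ p₂ mW bW
    obtain ⟨w₃, x₃⟩ := lintegral_radii c₁ s₁ p₁ mS bS
    obtain ⟨w₄, x₄⟩ := lintegral_radii c₂ s₂ p₂ mS bS
    have hq : ∀ I : ℝ, 0 ≤ I → I / (I + 1) ≤ 1 := fun I hI =>
      (div_le_one (by linarith)).2 (by linarith)
    simp only [hG]
    rw [lintegral_add_left (((w₁.const_mul _).fun_add (w₂.const_mul _)).fun_add (w₃.const_mul _)),
      lintegral_add_left ((w₁.const_mul _).fun_add (w₂.const_mul _)),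
      lintegral_add_left (w₁.const_mul _), lintegral_const_mul _ w₁, lintegral_const_mul _ w₂,
      lintegral_const_mul _ w₃, lintegral_const_mul _ w₄]
    refine (add_le_add (add_le_add (add_le_add (mul_le_mul' le_rfl x₁) (mul_le_mul' le_rfl x₂))
      (mul_le_mul' le_rfl x₃)) (mul_le_mul' le_rfl x₄)).trans ?_
    simp only [← ENNReal.ofReal_mul, inv_nonneg, add_nonneg hI₁ zero_le_one,
      add_nonneg hI₂ zero_le_one, mul_nonneg hδ.le (add_nonneg hI₁ zero_le_one),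
      mul_nonneg hδ.le (add_nonneg hI₂ zero_le_one)]
    rw [← ENNReal.ofReal_add, ← ENNReal.ofReal_add, ← ENNReal.ofReal_add]
    · refine ENNReal.ofReal_le_ofReal ?_
      have h1 := mul_le_mul_of_nonneg_left (hq I₁ hI₁) hCθ.le
      have h2 := mul_le_mul_of_nonneg_left (hq I₂ hI₂) hCθ.le
      have h3 : (δ * (I₁ + 1))⁻¹ * (2 * δ * I₁) = 2 * (I₁ / (I₁ + 1)) := by field_simp
      have h4 : (δ * (I₂ + 1))⁻¹ * (2 * δ * I₂) = 2 * (I₂ / (I₂ + 1)) := by field_simp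
      have h5 : (I₁ + 1)⁻¹ * (Cθ * I₁) = Cθ * (I₁ / (I₁ + 1)) := by ring
      have h6 : (I₂ + 1)⁻¹ * (Cθ * I₂) = Cθ * (I₂ / (I₂ + 1)) := by ring
      linarith [hq I₁ hI₁, hq I₂ hI₂]
    all_goals positivity
  set M := 3 * (2 * Cθ + 4) / L with hM
  obtain ⟨ρ, hρ, hGρ⟩ : ∃ ρ ∈ J, G ρ ≤ ENNReal.ofReal M := by
    by_contra hne
    push Not at hne
    have h : ∫⁻ _ρ in J, ENNReal.ofReal M ≤ ENNReal.ofReal (2 * Cθ + 4) :=
      le_trans (setLIntegral_mono' measurableSet_Ioc fun ρ hρ => (hne ρ hρ).le) hsum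
    rw [setLIntegral_const, hJ, Real.volume_Ioc, ← ENNReal.ofReal_mul (by positivity),
      ENNReal.ofReal_le_ofReal_iff (by positivity)] at h
    have e : M * L = 3 * (2 * Cθ + 4) := by rw [hM]; field_simp
    have h' : M * (3 * L / 4) ≤ M * (b - δ - (a + δ)) :=
      mul_le_mul_of_nonneg_left (by linarith) (by positivity)
    linarith
  have conv : ∀ c k : ℝ, 0 < c → ∀ X : ℝ≥0∞, ENNReal.ofReal c⁻¹ * X ≤ ENNReal.ofReal k →
      X ≤ ENNReal.ofReal (c * k) := by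
    intro c k hc X hX
    calc X = ENNReal.ofReal c * (ENNReal.ofReal c⁻¹ * X) := by
          rw [← mul_assoc, ← ENNReal.ofReal_mul hc.le, mul_inv_cancel₀ hc.ne', ENNReal.ofReal_one,
            one_mul]
      _ ≤ _ := by rw [ENNReal.ofReal_mul hc.le]; exact mul_le_mul' le_rfl hX
  have d₁ := conv _ M (by positivity) _ ((le_self_add.trans le_self_add).trans
    (le_self_add.trans hGρ))
  have d₂ := conv _ M (by positivity) _ ((le_add_self.trans le_self_add).trans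
    (le_self_add.trans hGρ))
  have d₃ := conv _ M (by positivity) _ ((le_add_self.trans le_self_add).trans hGρ)
  have d₄ := conv _ M (by positivity) _ (le_add_self.trans hGρ)
  rw [eW g₁ p₁] at d₁
  rw [eW g₂ p₂] at d₂
  rw [eS g₁ c₁ s₁ p₁, ENNReal.ofReal_le_ofReal_iff (by positivity)] at d₃
  rw [eS g₂ c₂ s₂ p₂, ENNReal.ofReal_le_ofReal_iff (by positivity)] at d₄
  have hρI : ρ ∈ Icc (1 : ℝ) 2 := ⟨by linarith [hρ.1], by linarith [hρ.2]⟩
  have up : ∀ I : ℝ, 0 ≤ I → (I + 1) * M + 1 ≤ (3 * (2 * Cθ + 4) + 1) / L * (I + 1) := by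
    intro I hI
    have h1 : 1 ≤ 1 / L * (I + 1) :=
      one_le_mul_of_one_le_of_one_le ((one_le_div hL0).2 hL1) (by linarith)
    have h2 : (3 * (2 * Cθ + 4) + 1) / L * (I + 1) = (I + 1) * M + 1 / L * (I + 1) := by
      rw [hM]; ring
    linarith
  have up' : ∀ I : ℝ, 0 ≤ I → δ * (I + 1) * M ≤ δ * ((3 * (2 * Cθ + 4) + 1) / L * (I + 1)) := by
    intro I hI
    rw [mul_assoc]
    exact mul_le_mul_of_nonneg_left (by linarith [up I hI]) hδ.le
  refine ⟨ρ, δ, hδ, hδ24, by linarith [hρ.1], by linarith [hρ.2], d₃.trans (up' I₁ hI₁),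
    d₄.trans (up' I₂ hI₂), fun ρ' hρ' => ?_⟩
  have hρ'' := abs_le.1 hρ'
  have hρ'I : ρ' ∈ Icc (1 : ℝ) 2 :=
    ⟨by linarith [hρ.1], by linarith [hρ.2]⟩
  rw [e₁ ρ hρI, ENNReal.ofReal_le_ofReal_iff (by positivity)] at d₁
  rw [e₂ ρ hρI, ENNReal.ofReal_le_ofReal_iff (by positivity)] at d₂
  have f₁ := v₁ ρ' hρ'I ρ hρI (by rw [Real.dist_eq]; linarith)
  have f₂ := v₂ ρ' hρ'I ρ hρI (by rw [Real.dist_eq]; linarith)
  rw [Real.dist_eq, abs_lt] at f₁ f₂
  rw [e₁ ρ' hρ'I, e₂ ρ' hρ'I]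
  exact ⟨ENNReal.ofReal_le_ofReal (by linarith [up I₁ hI₁]),
    ENNReal.ofReal_le_ofReal (by linarith [up I₂ hI₂])⟩

end Vale.Agent.P100.Sector
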