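import Vale.Agent.P100.Sector.Rep
import Vale.Agent.P100.Sector.Factor
import Vale.Agent.P100.Sector.Exponents
import Vale.Agent.P100.Sector.Weight
import Vale.Agent.P100.Sector.Poho

/-!
P100, the sector argument: one step of the energy iteration. The energy of a ball is bounded by a
power less than one of the energy of a larger ball.
-/

open MeasureTheory Metric Set Filter Topology
open scoped ENNReal

namespace Vale.Agent.P100.Sector

open Vale.Agent.P100.Sys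

variable {n : ℕ} {A B p q : ℝ} {u v : EuclideanSpace ℝ (Fin n) → ℝ}

/-- Powers of the norm are bounded on the shell. -/
theorem norm_rpow_le_shell {y : EuclideanSpace ℝ (Fin n)} (hy : y ∈ shell n) (a : ℝ) :
    ‖y‖ ^ a ≤ (3 : ℝ) ^ |a| := by
  obtain ⟨h1, h2⟩ := mem_shell.1 hy
  have hy0 : 0 < ‖y‖ := by linarith
  rcases le_total 0 a with ha | ha
  · rw [abs_of_nonneg ha]
    exact Real.rpow_le_rpow hy0.le h2 ha
  · refine (Real.rpow_le_rpow_of_nonpos (by norm_num : (0 : ℝ) < 1 / 3) (by linarith) ha).trans_eq ?_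
    rw [abs_of_nonpos ha, one_div, Real.inv_rpow (by norm_num), Real.rpow_neg (by norm_num)]

/-- A function continuous off the origin times a cutoff vanishing near it. -/
theorem continuous_cutoff_mul {η f : EuclideanSpace ℝ (Fin n) → ℝ} (hη : Continuous η)
    (hs : tsupport η ⊆ {0}ᶜ) (hf : ContinuousOn f {0}ᶜ) : Continuous fun y => η y * f y := by
  refine continuous_iff_continuousAt.2 fun y => ?_
  by_cases hy : y = 0
  · have h0 : y ∉ tsupport η := fun h => hs h (by simpa using hy)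
    refine continuousAt_const.congr (f := fun _ => (0 : ℝ)) ?_
    filter_upwards [(isClosed_tsupport η).isOpen_compl.mem_nhds h0] with z hz
    rw [image_eq_zero_of_notMem_tsupport hz, zero_mul]
  · exact hη.continuousAt.mul (hf.continuousAt (isOpen_compl_singleton.mem_nhds (by simpa using hy)))

theorem Sol.continuousOn_rhs (h : Sol n A B p q u v) :
    ContinuousOn (fun y => ‖y‖ ^ A * v y ^ p) {0}ᶜ :=
  (continuous_norm.continuousOn.rpow_const fun y hy =>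
      Or.inl (norm_ne_zero_iff.2 (by simpa using hy))).mul
    (h.contv.continuousOn.rpow_const fun y _ => Or.inl (h.posv y).ne')

theorem Sol.rhs_nonneg (h : Sol n A B p q u v) (y : EuclideanSpace ℝ (Fin n)) :
    0 ≤ ‖y‖ ^ A * v y ^ p :=
  mul_nonneg (Real.rpow_nonneg (norm_nonneg _) _) (Real.rpow_nonneg (h.posv y).le _)

theorem Sol.dens_nonneg (h : Sol n A B p q u v) (y : EuclideanSpace ℝ (Fin n)) :
    0 ≤ dens A B p q u v y :=
  add_nonneg (mul_nonneg (Real.rpow_nonneg (norm_nonneg _) _) (Real.rpow_nonneg (h.posv y).le _))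
    (mul_nonneg (Real.rpow_nonneg (norm_nonneg _) _) (Real.rpow_nonneg (h.posu y).le _))

theorem Sol.energy_nonneg (h : Sol n A B p q u v) (r : ℝ) : 0 ≤ energy A B p q u v r :=
  setIntegral_nonneg measurableSet_closedBall fun y _ => h.dens_nonneg y

theorem energy_swap (r : ℝ) : energy B A q p v u r = energy A B p q u v r := by
  refine integral_congr_ae (Eventually.of_forall fun y => ?_)
  simp only [dens]
  ring

/-- The power of a cut off right-hand side, interpolated between its integral and the energy. -/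
theorem cutoff_power_le {p μ : ℝ} (hp : 0 < p) (hμ : 0 ≤ μ) (hμ1 : μ ≤ 1) {η a A d : ℝ}
    (hη : 0 ≤ η) (hη1 : η ≤ 1) (hd : 0 < d) (ha : 0 < a) {G : ℝ} (hG : 0 < G) :
    (η * (d ^ A * a ^ p)) ^ (1 + μ / p) ≤
      G ^ μ * (η * (d ^ A * a ^ p) + η * (d ^ (A / p)) * (d ^ A * a ^ (p + 1)) / G) := by
  set f : ℝ := d ^ A * a ^ p with hf
  have hf0 : 0 < f := mul_pos (Real.rpow_pos_of_pos hd _) (Real.rpow_pos_of_pos ha _)
  rcases hη.eq_or_lt with h0 | hη0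
  · rw [← h0, zero_mul, Real.zero_rpow (by positivity)]
    positivity
  have hx : 0 < η * f := mul_pos hη0 hf0
  set F : ℝ := (η * f) ^ ((p + 1) / p) with hF
  have hF0 : 0 < F := Real.rpow_pos_of_pos hx _
  have hF1 : F ≤ η * d ^ (A / p) * (d ^ A * a ^ (p + 1)) := by
    have e : f ^ ((p + 1) / p) = d ^ (A / p) * (d ^ A * a ^ (p + 1)) := by
      rw [hf, Real.mul_rpow (Real.rpow_nonneg hd.le _) (Real.rpow_nonneg ha.le _),
        ← Real.rpow_mul hd.le, ← Real.rpow_mul ha.le, ← mul_assoc, ← Real.rpow_add hd]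
      congr 2 <;> field_simp; ring
    rw [hF, Real.mul_rpow hη hf0.le, e, mul_assoc η]
    refine mul_le_mul_of_nonneg_right ?_ (by positivity)
    have h1 : 1 ≤ (p + 1) / p := by rw [le_div_iff₀ hp]; linarith
    exact (Real.rpow_le_rpow_of_exponent_ge hη0 hη1 h1).trans_eq (Real.rpow_one η)
  have key := Real.geom_mean_le_arith_mean2_weighted (by linarith : 0 ≤ 1 - μ) hμ hx.le
    (div_pos hF0 hG).le (by ring)
  have e3 : (η * f) ^ (1 + μ / p) = (η * f) ^ (1 - μ) * F ^ μ := by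
    rw [hF, ← Real.rpow_mul hx.le, ← Real.rpow_add hx]
    congr 1
    field_simp
    ring
  have hGμ : G ^ μ ≠ 0 := (Real.rpow_pos_of_pos hG μ).ne'
  have e2 : (η * f) ^ (1 + μ / p) = G ^ μ * ((η * f) ^ (1 - μ) * (F / G) ^ μ) := by
    rw [e3, Real.div_rpow hF0.le hG.le]
    field_simp
  rw [e2]
  refine mul_le_mul_of_nonneg_left (key.trans (add_le_add ?_ ?_)) (Real.rpow_nonneg hG.le _)
  · exact mul_le_of_le_one_left hx.le (by linarith)
  · exact (mul_le_of_le_one_left (div_pos hF0 hG).le hμ1).trans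
      (div_le_div_of_nonneg_right hF1 hG.le)

/-- The integral of the power of a cut off right-hand side. -/
theorem integral_cutoff_power_le (hn : 3 ≤ n) (hA : -2 < A) (hB : -2 < B) (hp : 0 < p) (hq : 0 < q)
    (h : Sol n A B p q u v) {η : EuclideanSpace ℝ (Fin n) → ℝ} (hη : Continuous η)
    (hηc : HasCompactSupport η) (hs : tsupport η ⊆ {0}ᶜ) (hη01 : ∀ y, 0 ≤ η y ∧ η y ≤ 1) {t : ℝ}
    (hsh : tsupport η ⊆ shell n ∩ closedBall 0 t) {μ : ℝ} (hμ : 0 ≤ μ) (hμ1 : μ ≤ 1) :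
    (∫ y, (η y * (‖y‖ ^ A * v y ^ p)) ^ (1 + μ / p)) ≤
      (1 + energy A B p q u v t) ^ μ *
        ((∫ y in shell n, ‖y‖ ^ A * v y ^ p) + (3 : ℝ) ^ |A / p|) := by
  set G : ℝ := 1 + energy A B p q u v t with hG
  have hG1 : 1 ≤ G := le_add_of_nonneg_right (h.energy_nonneg t)
  set S : ℝ := (3 : ℝ) ^ |A / p| with hS
  have hS0 : 0 < S := Real.rpow_pos_of_pos (by norm_num) _
  have i1 : IntegrableOn (fun y => ‖y‖ ^ A * v y ^ p) (shell n) :=
    (h.continuousOn_rhs.mono shell_subset).integrableOn_compact isCompact_shell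
  have i2 : IntegrableOn (dens A B p q u v) (closedBall 0 t) :=
    integrableOn_dens hn hA hB hp hq h t
  have hg : Integrable fun y => (η y * (‖y‖ ^ A * v y ^ p)) ^ (1 + μ / p) := by
    have hc : Continuous fun y => (η y * (‖y‖ ^ A * v y ^ p)) ^ (1 + μ / p) :=
      (continuous_cutoff_mul hη hs h.continuousOn_rhs).rpow_const fun y => Or.inr (by positivity)
    refine hc.integrable_of_hasCompactSupport (HasCompactSupport.of_support_subset_isCompact hηc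
      fun y hy => ?_)
    by_contra hy'
    refine hy ?_
    simp only [image_eq_zero_of_notMem_tsupport hy', zero_mul]
    exact Real.zero_rpow (by positivity)
  have j1 : Integrable ((shell n).indicator fun y => G ^ μ * (‖y‖ ^ A * v y ^ p)) :=
    IntegrableOn.integrable_indicator (Integrable.const_mul i1 _) isCompact_shell.measurableSet
  have j2 : Integrable ((closedBall 0 t).indicator fun y => G ^ μ * (S / G) * dens A B p q u v y) :=
    IntegrableOn.integrable_indicator (Integrable.const_mul i2 _) measurableSet_closedBall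
  have hmono : (∫ y, (η y * (‖y‖ ^ A * v y ^ p)) ^ (1 + μ / p)) ≤
      ∫ y, ((shell n).indicator (fun y => G ^ μ * (‖y‖ ^ A * v y ^ p)) y +
        (closedBall 0 t).indicator (fun y => G ^ μ * (S / G) * dens A B p q u v y) y) := by
    refine integral_mono hg (j1.add j2) fun y => ?_
    show _ ≤ (shell n).indicator _ y + (closedBall 0 t).indicator _ y
    have hG0 : 0 < G := by linarith
    have hGμ : 0 < G ^ μ := Real.rpow_pos_of_pos hG0 _
    by_cases hy : y ∈ tsupport η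
    · obtain ⟨hys, hyb⟩ := hsh hy
      rw [indicator_of_mem hys, indicator_of_mem hyb]
      have hd : 0 < ‖y‖ := by linarith [(mem_shell.1 hys).1]
      refine (cutoff_power_le hp hμ hμ1 (hη01 y).1 (hη01 y).2 hd (h.posv y) hG0).trans ?_
      rw [mul_add]
      refine add_le_add (mul_le_mul_of_nonneg_left
        (mul_le_of_le_one_left (h.rhs_nonneg y) (hη01 y).2) hGμ.le) ?_
      rw [mul_assoc (G ^ μ), div_mul_eq_mul_div]
      refine mul_le_mul_of_nonneg_left (div_le_div_of_nonneg_right (mul_le_mul ?_ ?_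
        (mul_nonneg (Real.rpow_nonneg hd.le _) (Real.rpow_nonneg (h.posv y).le _)) hS0.le) hG0.le)
        hGμ.le
      · exact (mul_le_of_le_one_left (Real.rpow_nonneg hd.le _) (hη01 y).2).trans
          (norm_rpow_le_shell hys _)
      · exact le_add_of_nonneg_right
          (mul_nonneg (Real.rpow_nonneg hd.le _) (Real.rpow_nonneg (h.posu y).le _))
    · rw [image_eq_zero_of_notMem_tsupport hy, zero_mul, Real.zero_rpow (by positivity)]
      exact add_nonneg (indicator_nonneg (fun z _ => mul_nonneg hGμ.le (h.rhs_nonneg z)) _)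
        (indicator_nonneg (fun z _ => mul_nonneg (by positivity) (h.dens_nonneg z)) _)
  rw [integral_add j1 j2, integral_indicator isCompact_shell.measurableSet,
    integral_indicator measurableSet_closedBall, integral_const_mul, integral_const_mul] at hmono
  have e : S / G * energy A B p q u v t ≤ S := by
    rw [div_mul_eq_mul_div, div_le_iff₀ (by linarith)]
    exact mul_le_mul_of_nonneg_left (by linarith) hS0.le
  refine hmono.trans ?_
  rw [mul_add, mul_assoc]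
  exact add_le_add le_rfl (mul_le_mul_of_nonneg_left e (Real.rpow_nonneg (by linarith) _))

/-- A power of a slice bound. -/
theorem slice_power_le {M Z h G μ m : ℝ} (hM : 0 ≤ M) (hZ : 0 < Z) (hh : 0 < h) (hh1 : h ≤ 1)
    (hG : 1 ≤ G) (hm : 0 < m) (hm1 : m ≤ 1) (hMle : M ≤ Z * h⁻¹ * G ^ μ) :
    M ^ m ≤ (Z + 1) * h⁻¹ * G ^ (μ * m) := by
  have hG0 : 0 < G := by linarith
  have hi : 1 ≤ (Z + 1) * h⁻¹ :=
    one_le_mul_of_one_le_of_one_le (by linarith) ((one_le_inv₀ hh).2 hh1)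
  calc M ^ m ≤ ((Z + 1) * h⁻¹ * G ^ μ) ^ m := by
        refine Real.rpow_le_rpow hM (hMle.trans ?_) hm.le
        have : 0 ≤ h⁻¹ * G ^ μ := by positivity
        linarith
    _ = ((Z + 1) * h⁻¹) ^ m * G ^ (μ * m) := by
        rw [Real.mul_rpow (by positivity) (by positivity), ← Real.rpow_mul hG0.le]
    _ ≤ (Z + 1) * h⁻¹ * G ^ (μ * m) := by
        refine mul_le_mul_of_nonneg_right ?_ (by positivity)
        exact (Real.rpow_le_rpow_of_exponent_le hi hm1).trans_eq (Real.rpow_one _)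

/-- The gradient and the value together, by the higher potential. -/
theorem grad_value_le (hn : 1 ≤ n) {CR L : ℝ} (hCR : 0 < CR)
    {w F : EuclideanSpace ℝ (Fin n) → ℝ} (hF : ∀ y, 0 ≤ F y)
    (hF4 : ∀ y ∉ closedBall (0 : EuclideanSpace ℝ (Fin n)) 4, F y = 0)
    {x : EuclideanSpace ℝ (Fin n)} (hx : ‖x‖ ≤ 4) (hw0 : 0 ≤ w x)
    (hw1 : ENNReal.ofReal (w x) ≤
      ENNReal.ofReal CR * (pot ((n : ℝ) - 2) F x + ENNReal.ofReal L))
    (hwj : ∀ j, ENNReal.ofReal |pd j w x| ≤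
      ENNReal.ofReal CR * (pot ((n : ℝ) - 1) F x + ENNReal.ofReal L)) :
    ENNReal.ofReal (gradAbs w x + w x) ≤ ENNReal.ofReal (CR * ((n : ℝ) + 8)) *
      (pot ((n : ℝ) - 1) F x + ENNReal.ofReal L) := by
  rw [gradAbs, ENNReal.ofReal_add (Finset.sum_nonneg fun i _ => abs_nonneg _) hw0,
    ENNReal.ofReal_sum_of_nonneg fun i _ => abs_nonneg _, mul_add CR,
    ENNReal.ofReal_add (by positivity) (by positivity), add_mul]
  refine add_le_add ?_ (hw1.trans ?_)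
  · refine (Finset.sum_le_sum fun j _ => hwj j).trans_eq ?_
    rw [Finset.sum_const, Finset.card_univ, Fintype.card_fin, nsmul_eq_mul, mul_comm CR,
      ENNReal.ofReal_mul (Nat.cast_nonneg n), ENNReal.ofReal_natCast, mul_assoc]
  · rw [ENNReal.ofReal_mul hCR.le, mul_assoc, mul_add (ENNReal.ofReal 8)]
    refine mul_le_mul' le_rfl (add_le_add ?_ ?_)
    · have := pot_le_pot_succ (n := n) hn (s := (n : ℝ) - 2) hF hF4 (x := x) hx
      rwa [show (n : ℝ) - 2 + 1 = (n : ℝ) - 1 by ring] at this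
    · exact le_mul_of_one_le_left zero_le (by simp)

/-- The boundary density at a point where both representations are available. -/
theorem bdry_pointwise (hn : 1 ≤ n) (h : Sol n A B p q u v) {CR L : ℝ} (hCR : 0 < CR)
    {F₁ F₂ : EuclideanSpace ℝ (Fin n) → ℝ} (hF₁ : ∀ y, 0 ≤ F₁ y) (hF₂ : ∀ y, 0 ≤ F₂ y)
    (hF₁4 : ∀ y ∉ closedBall (0 : EuclideanSpace ℝ (Fin n)) 4, F₁ y = 0)
    (hF₂4 : ∀ y ∉ closedBall (0 : EuclideanSpace ℝ (Fin n)) 4, F₂ y = 0)
    {x : EuclideanSpace ℝ (Fin n)} (hx : ‖x‖ ≤ 4)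
    (e₁ : F₁ x = ‖x‖ ^ A * v x ^ p) (e₂ : F₂ x = ‖x‖ ^ B * u x ^ q)
    (hu1 : ENNReal.ofReal (u x) ≤
      ENNReal.ofReal CR * (pot ((n : ℝ) - 2) F₁ x + ENNReal.ofReal L))
    (huj : ∀ j, ENNReal.ofReal |pd j u x| ≤
      ENNReal.ofReal CR * (pot ((n : ℝ) - 1) F₁ x + ENNReal.ofReal L))
    (hv1 : ENNReal.ofReal (v x) ≤
      ENNReal.ofReal CR * (pot ((n : ℝ) - 2) F₂ x + ENNReal.ofReal L))
    (hvj : ∀ j, ENNReal.ofReal |pd j v x| ≤
      ENNReal.ofReal CR * (pot ((n : ℝ) - 1) F₂ x + ENNReal.ofReal L)) :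
    ENNReal.ofReal (bdry A B p q u v x) ≤
      ENNReal.ofReal (CR * ((n : ℝ) + 8) * (CR * ((n : ℝ) + 8))) *
          ((pot ((n : ℝ) - 1) F₁ x + ENNReal.ofReal L) * (pot ((n : ℝ) - 1) F₂ x + ENNReal.ofReal L)) +
        (ENNReal.ofReal CR *
            ((pot ((n : ℝ) - 2) F₂ x + ENNReal.ofReal L) * ENNReal.ofReal (F₁ x)) +
          ENNReal.ofReal CR *
            ((pot ((n : ℝ) - 2) F₁ x + ENNReal.ofReal L) * ENNReal.ofReal (F₂ x))) := by
  have hu2 := grad_value_le hn hCR hF₁ hF₁4 hx (h.posu x).le hu1 huj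
  have hv2 := grad_value_le hn hCR hF₂ hF₂4 hx (h.posv x).le hv1 hvj
  have hgu : 0 ≤ gradAbs u x + u x :=
    add_nonneg (Finset.sum_nonneg fun i _ => abs_nonneg _) (h.posu x).le
  have hle : bdry A B p q u v x ≤
      (gradAbs u x + u x) * (gradAbs v x + v x) + (v x * F₁ x + u x * F₂ x) := by
    have huv := mul_pos (h.posu x) (h.posv x)
    simp only [bdry, dens, e₁, e₂, Real.rpow_add_one (h.posv x).ne',
      Real.rpow_add_one (h.posu x).ne']
    linarith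
  refine (ENNReal.ofReal_le_ofReal hle).trans (ENNReal.ofReal_add_le.trans (add_le_add ?_
    (ENNReal.ofReal_add_le.trans (add_le_add ?_ ?_))))
  · rw [ENNReal.ofReal_mul hgu, ENNReal.ofReal_mul (by positivity), mul_mul_mul_comm]
    exact mul_le_mul' hu2 hv2
  · rw [ENNReal.ofReal_mul (h.posv x).le, ← mul_assoc]
    exact mul_le_mul' hv1 le_rfl
  · rw [ENNReal.ofReal_mul (h.posu x).le, ← mul_assoc]
    exact mul_le_mul' hu1 le_rfl

/-- A product of two slab functions with known norms. -/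
theorem lintegral_prod_bound {ρ δ b b' a a' k : ℝ} (hδ : 0 < δ) (hb : 0 < b) (hb' : 0 < b')
    (hbb : b + b' = 1) (ha : 0 ≤ a) (hk : 0 ≤ k)
    {X Y : EuclideanSpace ℝ (Fin n) → ℝ≥0∞} (hX : Measurable X) (hY : Measurable Y)
    (nX : slabNorm n ρ δ (1 / b) X ≤ ENNReal.ofReal (δ ^ b * a))
    (nY : slabNorm n ρ δ (1 / b') Y ≤ ENNReal.ofReal (δ ^ b' * a')) :
    ∫⁻ x in slab n ρ δ, ENNReal.ofReal k * (X x * Y x) ≤ ENNReal.ofReal (δ * (k * a * a')) := by
  rw [lintegral_const_mul' _ _ ENNReal.ofReal_ne_top]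
  refine (mul_le_mul' le_rfl ((lintegral_slab_mul_le (one_div_pos.2 hb) (one_div_pos.2 hb')
    (by rw [one_div_one_div, one_div_one_div]; exact hbb) hX hY).trans (mul_le_mul' nX nY))).trans_eq ?_
  rw [← ENNReal.ofReal_mul (by positivity), ← ENNReal.ofReal_mul hk]
  congr 1
  have e : δ ^ b * δ ^ b' = δ := by rw [← Real.rpow_add hδ, hbb, Real.rpow_one]
  calc k * (δ ^ b * a * (δ ^ b' * a')) = δ ^ b * δ ^ b' * (k * a * a') := by ring
    _ = δ * (k * a * a') := by rw [e]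

theorem Sol.bdry_nonneg (h : Sol n A B p q u v) (x : EuclideanSpace ℝ (Fin n)) :
    0 ≤ bdry A B p q u v x := by
  have g1 : ∀ w : EuclideanSpace ℝ (Fin n) → ℝ, 0 ≤ gradAbs w x := fun w =>
    Finset.sum_nonneg fun i _ => abs_nonneg _
  exact add_nonneg (add_nonneg (add_nonneg (mul_nonneg (g1 u) (g1 v))
    (mul_nonneg (h.posu x).le (g1 v))) (mul_nonneg (h.posv x).le (g1 u))) (h.dens_nonneg x)

theorem Sol.continuousOn_bdry (h : Sol n A B p q u v) :
    ContinuousOn (bdry A B p q u v) {0}ᶜ := by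
  have hg : ∀ w : EuclideanSpace ℝ (Fin n) → ℝ, ContDiffOn ℝ 2 w {0}ᶜ →
      ContinuousOn (gradAbs w) {0}ᶜ := fun w hw =>
    continuousOn_finsetSum _ fun i _ =>
      (continuousOn_pd isOpen_compl_singleton hw (by norm_num) i).abs
  have hd : ContinuousOn (dens A B p q u v) {0}ᶜ :=
    ((continuous_norm.continuousOn.rpow_const fun y hy =>
        Or.inl (norm_ne_zero_iff.2 (by simpa using hy))).mul
      (h.contv.continuousOn.rpow_const fun y _ => Or.inl (h.posv y).ne')).add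
    ((continuous_norm.continuousOn.rpow_const fun y hy =>
        Or.inl (norm_ne_zero_iff.2 (by simpa using hy))).mul
      (h.contu.continuousOn.rpow_const fun y _ => Or.inl (h.posu y).ne'))
  exact ((((hg u h.smoothu).mul (hg v h.smoothv)).add
    (h.contu.continuousOn.mul (hg v h.smoothv))).add
    (h.contv.continuousOn.mul (hg u h.smoothu))).add hd

/-- A slice bound obtained from an averaged integral. -/
theorem average_power_le {Cw h g S G μ m : ℝ} {N : ℕ} (hCw : 0 < Cw) (hg0 : 0 ≤ g) (hh : 0 < h)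
    (hh1 : h ≤ 1) (hN : N ≠ 0) (hG : 1 ≤ G) (hμ : 0 ≤ μ) (hm : 0 < m) (hm1 : m ≤ 1) (hS : 0 < S)
    (hg : g ≤ G ^ μ * S) :
    (Cw / (h / 4) * (g + 1)) ^ m ≤ (4 * Cw * (S + 1) + 1) * h⁻¹ ^ N * G ^ (μ * m) := by
  refine (slice_power_le (Z := 4 * Cw * (S + 1)) (by positivity) (by positivity) hh hh1 hG hm hm1
    ?_).trans (mul_le_mul_of_nonneg_right (mul_le_mul_of_nonneg_left
      (le_self_pow₀ ((one_le_inv₀ hh).2 hh1) hN) (by positivity)) (by positivity))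
  rw [show Cw / (h / 4) * (g + 1) = 4 * Cw * h⁻¹ * (g + 1) by field_simp,
    show 4 * Cw * (S + 1) * h⁻¹ * G ^ μ = 4 * Cw * h⁻¹ * ((S + 1) * G ^ μ) by ring]
  refine mul_le_mul_of_nonneg_left ?_ (by positivity)
  linarith [Real.one_le_rpow hG hμ]

/-- A potential norm bound in terms of the energy. -/
theorem pot_norm_le {C' δ b Z Cu P Ge Mp : ℝ} (hC' : 0 < C') (hCu : 0 ≤ Cu) (hP : 0 ≤ P)
    (hδ : 0 ≤ δ) (hGe : 1 ≤ Ge) (hMp : Mp ≤ Z * P * Ge) :
    ENNReal.ofReal (C' * δ ^ b * (Mp + P * Cu)) ≤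
      ENNReal.ofReal (δ ^ b * (C' * (Z + Cu) * P * Ge)) := by
  refine ENNReal.ofReal_le_ofReal ?_
  have h1 : Mp + P * Cu ≤ (Z + Cu) * P * Ge := by
    have : P * Cu ≤ P * Cu * Ge := le_mul_of_one_le_right (by positivity) hGe
    linarith
  exact (mul_le_mul_of_nonneg_left h1 (by positivity)).trans_eq (by ring)

/-- What a good radius provides: slice and slab bounds for both cut off right-hand sides. -/
structure RadiusData (n : ℕ) (θ m₁ m₂ r h P Z₁ Z₂ X₁ X₂ ρ δ M₁ M₂ : ℝ)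
    (F₁ F₂ : EuclideanSpace ℝ (Fin n) → ℝ) : Prop where
  δpos : 0 < δ
  δle : δ ≤ 1 / 24
  low : r ≤ ρ - δ
  high : ρ + δ ≤ r + h / 4
  M₁0 : 0 ≤ M₁
  M₂0 : 0 ≤ M₂
  slice₁ : ∀ ρ', |ρ' - ρ| ≤ δ → sliceWt θ (fun y => F₁ y ^ (1 / m₁)) ρ' ≤ ENNReal.ofReal M₁
  slice₂ : ∀ ρ', |ρ' - ρ| ≤ δ → sliceWt θ (fun y => F₂ y ^ (1 / m₂)) ρ' ≤ ENNReal.ofReal M₂
  slab₁ : (∫ y in slab n ρ δ, F₁ y ^ (1 / m₁)) ≤ δ * M₁
  slab₂ : (∫ y in slab n ρ δ, F₂ y ^ (1 / m₂)) ≤ δ * M₂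
  power₁ : M₁ ^ m₁ ≤ Z₁ * P * X₁
  power₂ : M₂ ^ m₂ ≤ Z₂ * P * X₂

/-- The cut off right-hand side. -/
noncomputable def rhsCut (E r h s : ℝ) (w : EuclideanSpace ℝ (Fin n) → ℝ)
    (y : EuclideanSpace ℝ (Fin n)) : ℝ :=
  annCut n (r + h / 8) h y * (‖y‖ ^ E * w y ^ s)

theorem rhsCut_facts (h : Sol n A B p q u v) {r h' : ℝ} (hr : 1 ≤ r) (hh : 0 < h') (hh1 : h' ≤ 1)
    (hr3 : r + h' ≤ 3) :
    Continuous (rhsCut A r h' p v) ∧ (∀ y, 0 ≤ rhsCut A r h' p v y) ∧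
      ∀ y ∉ closedBall (0 : EuclideanSpace ℝ (Fin n)) 4, rhsCut A r h' p v y = 0 := by
  have hhm : h' ≤ r + h' / 8 := by linarith
  refine ⟨continuous_cutoff_mul (contDiff_annCut _ _).continuous (tsupport_annCut_compl hh hhm)
    h.continuousOn_rhs, fun y => mul_nonneg (annCut_mem _ _ y).1 (h.rhs_nonneg y), fun y hy => ?_⟩
  rw [mem_closedBall_zero_iff, not_le] at hy
  show annCut n (r + h' / 8) h' y * _ = 0
  rw [annCut_eq_zero hh hhm (lt_abs.2 (Or.inl (by linarith))), zero_mul]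

/-- The representation, with the universal bound for the mass over the shell. -/
theorem rep_bounds {CR Cu : ℝ}
    {w : EuclideanSpace ℝ (Fin n) → ℝ} {F : EuclideanSpace ℝ (Fin n) → ℝ} {P s : ℝ} (hP : 0 ≤ P)
    {x : EuclideanSpace ℝ (Fin n)} {a : ℝ} (hw : (∫ y in shell n, w y) ≤ Cu)
    (ha : ENNReal.ofReal a ≤ ENNReal.ofReal CR *
      (pot s F x + ENNReal.ofReal (P * ∫ y in shell n, w y))) :
    ENNReal.ofReal a ≤ ENNReal.ofReal CR * (pot s F x + ENNReal.ofReal (P * Cu)) :=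
  ha.trans (mul_le_mul' le_rfl (add_le_add le_rfl (ENNReal.ofReal_le_ofReal
    (mul_le_mul_of_nonneg_left hw hP))))

/-- The integral of the boundary density over a good slab. -/
theorem exists_slab_estimate (hn : 3 ≤ n) (A B : ℝ) {p q : ℝ} (hp : 0 < p) (hq : 0 < q)
    (hpq : 1 < p * q) {θ m₁ m₂ D Z₁ Z₂ : ℝ} (hθ : 0 < θ) (hθ1 : θ < 1) (hm10 : 0 < m₁)
    (hm11 : m₁ < 1) (hm20 : 0 < m₂) (hm21 : m₂ < 1) (hDe : D = m₁ + m₂ - 1) (hD0 : 0 < D)
    (hb1 : 0 < m₁ - D / 2) (hb2 : 0 < m₂ - D / 2)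
    (hc1 : (n : ℝ) - 1 < n - (n - θ) * m₁ + (n - 1) * (m₁ - D / 2))
    (hc2 : (n : ℝ) - 1 < n - (n - θ) * m₂ + (n - 1) * (m₂ - D / 2))
    (hc3 : (n : ℝ) - 2 < n - (n - θ) * m₁ + (n - 1) * (1 - m₂))
    (hc4 : (n : ℝ) - 2 < n - (n - θ) * m₂ + (n - 1) * (1 - m₁))
    (hZ₁ : 0 ≤ Z₁) (hZ₂ : 0 ≤ Z₂) :
    ∃ T : ℝ, 0 ≤ T ∧ ∀ u v : EuclideanSpace ℝ (Fin n) → ℝ, Sol n A B p q u v →
      ∀ r h X₁ X₂ ρ δ M₁ M₂ : ℝ, 1 ≤ r → 0 < h → h ≤ 1 → r + h ≤ 2 → 1 ≤ X₁ → 1 ≤ X₂ →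
        RadiusData n θ m₁ m₂ r h (h⁻¹ ^ (n + 1)) Z₁ Z₂ X₁ X₂ ρ δ M₁ M₂
          (rhsCut A r h p v) (rhsCut B r h q u) →
        (∫ x in slab n ρ δ, bdry A B p q u v x) ≤
          δ * (T * (h⁻¹ ^ (n + 1)) ^ 2 * (X₁ * X₂)) := by
  obtain ⟨CR, hCR, hrep⟩ := exists_rep hn
  obtain ⟨Cu, hCu, huniv⟩ := exists_universal hn A B hp hq hpq
  obtain ⟨CA, hCA, hXu⟩ := exists_pot_norm (n := n) (s := (n : ℝ) - 1) (m := m₁)
    (b := 1 / (m₁ - D / 2)) (by omega) hm10 hm11 (one_div_pos.2 hb1)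
    (by rw [one_div_one_div]; linarith) hθ hθ1 (by rw [div_div_eq_mul_div, div_one]; exact hc1)
  obtain ⟨CB, hCB, hXv⟩ := exists_pot_norm (n := n) (s := (n : ℝ) - 1) (m := m₂)
    (b := 1 / (m₂ - D / 2)) (by omega) hm20 hm21 (one_div_pos.2 hb2)
    (by rw [one_div_one_div]; linarith) hθ hθ1 (by rw [div_div_eq_mul_div, div_one]; exact hc2)
  obtain ⟨CC, hCC, hYu⟩ := exists_pot_norm (n := n) (s := (n : ℝ) - 2) (m := m₁)
    (b := 1 / (1 - m₂)) (by omega) hm10 hm11 (one_div_pos.2 (by linarith))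
    (by rw [one_div_one_div]; linarith) hθ hθ1 (by rw [div_div_eq_mul_div, div_one]; exact hc3)
  obtain ⟨CD, hCD, hYv⟩ := exists_pot_norm (n := n) (s := (n : ℝ) - 2) (m := m₂)
    (b := 1 / (1 - m₁)) (by omega) hm20 hm21 (one_div_pos.2 (by linarith))
    (by rw [one_div_one_div]; linarith) hθ hθ1 (by rw [div_div_eq_mul_div, div_one]; exact hc4)
  set c : ℝ := CR * ((n : ℝ) + 8) with hc
  refine ⟨c * c * (CA * (Z₁ + Cu)) * (CB * (Z₂ + Cu)) + CR * (CD * (Z₂ + Cu)) * Z₁ +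
    CR * (CC * (Z₁ + Cu)) * Z₂, by positivity,
    fun u v h r h' X₁ X₂ ρ δ M₁ M₂ hr hh hh1 hr2 hX₁ hX₂ hd => ?_⟩
  set P : ℝ := h'⁻¹ ^ (n + 1) with hP
  have hP0 : 0 ≤ P := by positivity
  obtain ⟨F₁c, F₁0, F₁4⟩ := rhsCut_facts h hr hh hh1 (by linarith)
  obtain ⟨F₂c, F₂0, F₂4⟩ := rhsCut_facts h.swap hr hh hh1 (by linarith)
  obtain ⟨hIu, hIv, -, -⟩ := huniv u v h
  have hδ := hd.δpos
  have hδ' := hd.δle
  have hρ1 : 1 ≤ ρ := by linarith [hd.low]
  have hρ2 : ρ ≤ 2 := by linarith [hd.high]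
  set F₁ := rhsCut A r h' p v with hF₁
  set F₂ := rhsCut B r h' q u with hF₂
  have hpt : ∀ x ∈ slab n ρ δ, ENNReal.ofReal (bdry A B p q u v x) ≤
      ENNReal.ofReal (c * c) * ((pot ((n : ℝ) - 1) F₁ x + ENNReal.ofReal (P * Cu)) *
          (pot ((n : ℝ) - 1) F₂ x + ENNReal.ofReal (P * Cu))) +
        (ENNReal.ofReal CR * ((pot ((n : ℝ) - 2) F₂ x + ENNReal.ofReal (P * Cu)) *
            ENNReal.ofReal (F₁ x)) +
          ENNReal.ofReal CR * ((pot ((n : ℝ) - 2) F₁ x + ENNReal.ofReal (P * Cu)) *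
            ENNReal.ofReal (F₂ x))) := by
    intro x hx
    obtain ⟨a1, a2⟩ := abs_le.1 (show |‖x‖ - ρ| ≤ δ from hx)
    have hx1 : r ≤ ‖x‖ := by linarith [hd.low]
    have hx2 : ‖x‖ ≤ r + h' / 4 := by linarith [hd.high]
    have hη1 : annCut n (r + h' / 8) h' x = 1 :=
      annCut_eq_one hh (by linarith) (abs_le.2 ⟨by linarith, by linarith⟩)
    have ru := hrep u (fun y => ‖y‖ ^ A * v y ^ p) h.contu (fun y => (h.posu y).le) h.smoothu h.equ
      (fun y _ => h.rhs_nonneg y) r h' hr hh hh1 (by linarith) x hx1 hx2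
    have rv := hrep v (fun y => ‖y‖ ^ B * u y ^ q) h.contv (fun y => (h.posv y).le) h.smoothv h.eqv
      (fun y _ => h.swap.rhs_nonneg y) r h' hr hh hh1 (by linarith) x hx1 hx2
    exact bdry_pointwise (by omega) h hCR F₁0 F₂0 F₁4 F₂4 (by linarith)
      (show annCut n (r + h' / 8) h' x * _ = _ by rw [hη1, one_mul])
      (show annCut n (r + h' / 8) h' x * _ = _ by rw [hη1, one_mul])
      (rep_bounds hP0 hIu ru.1) (fun k => rep_bounds hP0 hIu (ru.2 k))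
      (rep_bounds hP0 hIv rv.1) (fun k => rep_bounds hP0 hIv (rv.2 k))
  have hL0 : 0 ≤ P * Cu := by positivity
  have nXU := (hXu ρ δ M₁ (P * Cu) hρ1 hρ2 hδ hδ' hd.M₁0 hL0 F₁ F₁c F₁0 F₁4 hd.slice₁).trans
    (pot_norm_le hCA hCu.le hP0 hδ.le hX₁ hd.power₁)
  have nXV := (hXv ρ δ M₂ (P * Cu) hρ1 hρ2 hδ hδ' hd.M₂0 hL0 F₂ F₂c F₂0 F₂4 hd.slice₂).trans
    (pot_norm_le hCB hCu.le hP0 hδ.le hX₂ hd.power₂)
  have nYU := (hYu ρ δ M₁ (P * Cu) hρ1 hρ2 hδ hδ' hd.M₁0 hL0 F₁ F₁c F₁0 F₁4 hd.slice₁).trans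
    (pot_norm_le hCC hCu.le hP0 hδ.le hX₁ hd.power₁)
  have nYV := (hYv ρ δ M₂ (P * Cu) hρ1 hρ2 hδ hδ' hd.M₂0 hL0 F₂ F₂c F₂0 F₂4 hd.slice₂).trans
    (pot_norm_le hCD hCu.le hP0 hδ.le hX₂ hd.power₂)
  rw [one_div_one_div (m₁ - D / 2)] at nXU
  rw [one_div_one_div (m₂ - D / 2)] at nXV
  rw [one_div_one_div (1 - m₂)] at nYU
  rw [one_div_one_div (1 - m₁)] at nYV
  have nW₁ : slabNorm n ρ δ (1 / m₁) (fun x => ENNReal.ofReal (F₁ x)) ≤
      ENNReal.ofReal (δ ^ m₁ * (Z₁ * P * X₁)) :=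
    (slabNorm_density_le hm10 hδ.le hd.M₁0 F₁c F₁0 (by linarith) (by linarith) hd.slab₁).trans
      (ENNReal.ofReal_le_ofReal (mul_le_mul_of_nonneg_left hd.power₁ (by positivity)))
  have nW₂ : slabNorm n ρ δ (1 / m₂) (fun x => ENNReal.ofReal (F₂ x)) ≤
      ENNReal.ofReal (δ ^ m₂ * (Z₂ * P * X₂)) :=
    (slabNorm_density_le hm20 hδ.le hd.M₂0 F₂c F₂0 (by linarith) (by linarith) hd.slab₂).trans
      (ENNReal.ofReal_le_ofReal (mul_le_mul_of_nonneg_left hd.power₂ (by positivity)))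
  have mX : ∀ (k : ℝ) (F : EuclideanSpace ℝ (Fin n) → ℝ), Continuous F →
      Measurable fun x => pot k F x + ENNReal.ofReal (P * Cu) := fun k F hF =>
    (measurable_pot _ hF).add_const _
  have mW₁ : Measurable fun x => ENNReal.ofReal (F₁ x) :=
    ENNReal.measurable_ofReal.comp F₁c.measurable
  have mW₂ : Measurable fun x => ENNReal.ofReal (F₂ x) :=
    ENNReal.measurable_ofReal.comp F₂c.measurable
  have hlint : ∫⁻ x in slab n ρ δ, ENNReal.ofReal (bdry A B p q u v x) ≤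
      ENNReal.ofReal (δ * ((c * c * (CA * (Z₁ + Cu)) * (CB * (Z₂ + Cu)) +
        CR * (CD * (Z₂ + Cu)) * Z₁ + CR * (CC * (Z₁ + Cu)) * Z₂) * P ^ 2 * (X₁ * X₂))) := by
    refine (setLIntegral_mono' (measurableSet_slab ρ δ) hpt).trans ?_
    have mA : Measurable fun x => (pot ((n : ℝ) - 1) F₁ x + ENNReal.ofReal (P * Cu)) *
        (pot ((n : ℝ) - 1) F₂ x + ENNReal.ofReal (P * Cu)) := (mX _ F₁ F₁c).mul (mX _ F₂ F₂c)
    have mB : Measurable fun x => (pot ((n : ℝ) - 2) F₂ x + ENNReal.ofReal (P * Cu)) *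
        ENNReal.ofReal (F₁ x) := (mX _ F₂ F₂c).mul mW₁
    rw [lintegral_add_left (mA.const_mul _), lintegral_add_left (mB.const_mul _)]
    have ha₁ : 0 ≤ CA * (Z₁ + Cu) * P * X₁ := by positivity
    have ha₂ : 0 ≤ CD * (Z₂ + Cu) * P * X₂ := by positivity
    have ha₃ : 0 ≤ CC * (Z₁ + Cu) * P * X₁ := by positivity
    refine (add_le_add (lintegral_prod_bound hδ hb1 hb2 (by linarith) ha₁ (mul_self_nonneg c)
        (mX _ F₁ F₁c) (mX _ F₂ F₂c) nXU nXV)
      (add_le_add (lintegral_prod_bound hδ (by linarith) hm10 (by linarith) ha₂ hCR.le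
          (mX _ F₂ F₂c) mW₁ nYV nW₁)
        (lintegral_prod_bound hδ (by linarith) hm20 (by linarith) ha₃ hCR.le
          (mX _ F₁ F₁c) mW₂ nYU nW₂))).trans ?_
    rw [← ENNReal.ofReal_add (by positivity) (by positivity),
      ← ENNReal.ofReal_add (by positivity) (by positivity)]
    exact ENNReal.ofReal_le_ofReal (le_of_eq (by ring))
  have hslab : IsCompact (slab n ρ δ) := (isCompact_closedBall 0 4).of_isClosed_subset
    (isClosed_slab ρ δ) (slab_subset_closedBall (by linarith) (by linarith))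
  have hsl0 : slab n ρ δ ⊆ ({0}ᶜ : Set (EuclideanSpace ℝ (Fin n))) := fun x hx h0 => by
    rw [mem_singleton_iff] at h0
    have := (abs_le.1 (show |‖x‖ - ρ| ≤ δ from hx)).1
    rw [h0, norm_zero] at this
    linarith [hd.low]
  rwa [← ofReal_integral_eq_lintegral_ofReal
    ((h.continuousOn_bdry.mono hsl0).integrableOn_compact hslab)
    (Eventually.of_forall h.bdry_nonneg), ENNReal.ofReal_le_ofReal_iff (by positivity)] at hlint

/-- Every interval contains a good radius. -/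
theorem exists_radius_data (hn : 3 ≤ n) (hA : -2 < A) (hB : -2 < B) (hp : 0 < p) (hq : 0 < q)
    (hpq : 1 < p * q) {θ m₁ m₂ μ : ℝ} (hθ : 0 < θ) (hθ1 : θ < 1) (hm10 : 0 < m₁) (hm11 : m₁ ≤ 1)
    (hm20 : 0 < m₂) (hm21 : m₂ ≤ 1) (hμ0 : 0 ≤ μ) (hμ1 : μ ≤ 1) (ek1 : 1 + μ / p = 1 / m₁)
    (ek2 : 1 + 1 / q = 1 / m₂) :
    ∃ Z₁ Z₂ : ℝ, 0 ≤ Z₁ ∧ 0 ≤ Z₂ ∧ ∀ u v : EuclideanSpace ℝ (Fin n) → ℝ, Sol n A B p q u v →
      ∀ r t : ℝ, 1 ≤ r → r < t → t ≤ 2 → ∃ ρ δ M₁ M₂ : ℝ,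
        RadiusData n θ m₁ m₂ r (t - r) ((t - r)⁻¹ ^ (n + 1)) Z₁ Z₂
          ((1 + energy A B p q u v t) ^ (μ * m₁)) ((1 + energy A B p q u v t) ^ (1 * m₂))
          ρ δ M₁ M₂ (rhsCut A r (t - r) p v) (rhsCut B r (t - r) q u) := by
  obtain ⟨Cu, hCu, huniv⟩ := exists_universal hn A B hp hq hpq
  obtain ⟨Cw, hCw, hwt⟩ := exists_good_radius (n := n) (by omega) hθ hθ1
  set S₁ : ℝ := Cu + (3 : ℝ) ^ |A / p| with hS₁
  set S₂ : ℝ := Cu + (3 : ℝ) ^ |B / q| with hS₂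
  have hS₁0 : 0 < S₁ := add_pos hCu (Real.rpow_pos_of_pos (by norm_num) _)
  have hS₂0 : 0 < S₂ := add_pos hCu (Real.rpow_pos_of_pos (by norm_num) _)
  refine ⟨4 * Cw * (S₁ + 1) + 1, 4 * Cw * (S₂ + 1) + 1, by positivity, by positivity,
    fun u v h r t hr hrt ht => ?_⟩
  set h' : ℝ := t - r with hh'
  have hh : 0 < h' := by linarith
  have hh1 : h' ≤ 1 := by linarith
  set G : ℝ := 1 + energy A B p q u v t with hG
  have hG1 : 1 ≤ G := le_add_of_nonneg_right (h.energy_nonneg t)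
  have hhm : h' ≤ r + h' / 8 := by linarith
  have hηc : HasCompactSupport (annCut n (r + h' / 8) h') := hasCompactSupport_annCut hh hhm
  have hηsh : tsupport (annCut n (r + h' / 8) h') ⊆ shell n ∩ closedBall 0 t := fun y hy => by
    obtain ⟨a1, a2⟩ := abs_le.1
      (show |‖y‖ - (r + h' / 8)| ≤ h' / 2 from tsupport_annCut_subset hh hhm hy)
    exact ⟨mem_shell.2 ⟨by linarith, by linarith⟩, mem_closedBall_zero_iff.2 (by linarith)⟩
  obtain ⟨F₁c, F₁0, F₁4⟩ := rhsCut_facts h hr hh hh1 (by linarith)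
  obtain ⟨F₂c, F₂0, F₂4⟩ := rhsCut_facts h.swap hr hh hh1 (by linarith)
  obtain ⟨-, -, hIfu, hIfv⟩ := huniv u v h
  have hg₁ : (∫ y, rhsCut A r h' p v y ^ (1 / m₁)) ≤ G ^ μ * S₁ := by
    rw [← ek1]
    exact (integral_cutoff_power_le hn hA hB hp hq h (contDiff_annCut _ _).continuous hηc
      (tsupport_annCut_compl hh hhm) (annCut_mem _ _) hηsh hμ0 hμ1).trans
        (mul_le_mul_of_nonneg_left (add_le_add hIfu le_rfl) (Real.rpow_nonneg (by linarith) _))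
  have hg₂ : (∫ y, rhsCut B r h' q u y ^ (1 / m₂)) ≤ G ^ (1 : ℝ) * S₂ := by
    have e := integral_cutoff_power_le hn hB hA hq hp h.swap (contDiff_annCut _ _).continuous hηc
      (tsupport_annCut_compl hh hhm) (annCut_mem _ _) hηsh zero_le_one le_rfl
    rw [energy_swap, ek2] at e
    exact e.trans (mul_le_mul_of_nonneg_left (add_le_add hIfv le_rfl)
      (Real.rpow_nonneg (by linarith) _))
  have hsupp : ∀ (F : EuclideanSpace ℝ (Fin n) → ℝ) (k : ℝ), k ≠ 0 →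
      (∀ y ∉ closedBall (0 : EuclideanSpace ℝ (Fin n)) 4, F y = 0) →
      HasCompactSupport fun y => F y ^ k := fun F k hk hF =>
    HasCompactSupport.of_support_subset_isCompact (isCompact_closedBall 0 4) fun y hy => by
      by_contra hy'
      refine hy ?_
      show F y ^ k = 0
      rw [hF y hy', Real.zero_rpow hk]
  obtain ⟨ρ, δ, hδ, hδ', hρ1, hρ2, hs₁, hs₂, hsl⟩ := hwt (fun y => rhsCut A r h' p v y ^ (1 / m₁))
    (fun y => rhsCut B r h' q u y ^ (1 / m₂))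
    (F₁c.rpow_const fun _ => Or.inr (one_div_pos.2 hm10).le)
    (hsupp _ _ (one_div_pos.2 hm10).ne' F₁4) (fun y => Real.rpow_nonneg (F₁0 y) _)
    (F₂c.rpow_const fun _ => Or.inr (one_div_pos.2 hm20).le)
    (hsupp _ _ (one_div_pos.2 hm20).ne' F₂4) (fun y => Real.rpow_nonneg (F₂0 y) _)
    r (r + h' / 4) hr (by linarith) (by linarith)
  rw [show r + h' / 4 - r = h' / 4 by ring] at hs₁ hs₂ hsl
  have i1 : 0 ≤ ∫ y, rhsCut A r h' p v y ^ (1 / m₁) :=
    integral_nonneg fun y => Real.rpow_nonneg (F₁0 y) _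
  have i2 : 0 ≤ ∫ y, rhsCut B r h' q u y ^ (1 / m₂) :=
    integral_nonneg fun y => Real.rpow_nonneg (F₂0 y) _
  exact ⟨ρ, δ, _, _, hδ, hδ', hρ1, hρ2, by positivity, by positivity,
    fun ρ' h' => (hsl ρ' h').1, fun ρ' h' => (hsl ρ' h').2, hs₁, hs₂,
    average_power_le hCw i1 hh hh1 (Nat.succ_ne_zero n) hG1 hμ0 hm10 hm11 hS₁0 hg₁,
    average_power_le hCw i2 hh hh1 (Nat.succ_ne_zero n) hG1 zero_le_one hm20 hm21 hS₂0 hg₂⟩

/-- One step of the iteration. -/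
theorem exists_step (hn : 3 ≤ n) (hA : -2 < A) (hB : -2 < B) (hp : 0 < p) (hq : 0 < q)
    (hpq : 1 < p * q)
    (hsub : (n : ℝ) - 2 < ((n : ℝ) + A) / (p + 1) + ((n : ℝ) + B) / (q + 1))
    (hcond : ((n : ℝ) - 1) * (p * q - 1) < 2 * (p * (q + 1))) :
    ∃ C γ : ℝ, 0 < C ∧ 0 ≤ γ ∧ γ < 1 ∧ ∀ u v : EuclideanSpace ℝ (Fin n) → ℝ, Sol n A B p q u v →
      ∀ r t : ℝ, 1 ≤ r → r < t → t ≤ 2 →
        1 + energy A B p q u v r ≤
          C * ((t - r)⁻¹ ^ (n + 1)) ^ 2 * (1 + energy A B p q u v t) ^ γ := by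
  obtain ⟨m₁, m₂, D, θ, hθ, hθ1, hm10, hm11, hm20, hm21, hm2e, hDe, hD0, hb1, hb2, hμ1, hγ,
    hc1, hc2, hc3, hc4⟩ := exists_exponents hn hp hq hpq hcond
  set μ : ℝ := (1 / m₁ - 1) * p with hμdef
  have hμ0 : 0 ≤ μ := mul_nonneg (sub_nonneg.2 (one_le_one_div hm10 hm11.le)) hp.le
  have eμ : μ * m₁ = (1 - m₁) * p := by
    rw [hμdef]; field_simp
  have ek1 : 1 + μ / p = 1 / m₁ := by
    rw [hμdef, mul_div_assoc, div_self hp.ne', mul_one]; ring
  have ek2 : 1 + 1 / q = 1 / m₂ := by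
    rw [hm2e, one_div_div]; field_simp
  obtain ⟨Z₁, Z₂, hZ₁, hZ₂, hdata⟩ := exists_radius_data hn hA hB hp hq hpq hθ hθ1 hm10 hm11.le
    hm20 hm21.le hμ0 hμ1 ek1 ek2
  obtain ⟨T, hT, hest⟩ := exists_slab_estimate hn A B hp hq hpq hθ hθ1 hm10 hm11 hm20 hm21 hDe
    hD0 hb1 hb2 hc1 hc2 hc3 hc4 hZ₁ hZ₂
  obtain ⟨Cp, hCp, hpoho⟩ := exists_pohozaev hn hA hB hp hq hsub
  refine ⟨1 + Cp * T, μ * m₁ + 1 * m₂, by positivity,
    add_nonneg (mul_nonneg hμ0 hm10.le) (by linarith), by linarith,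
    fun u v h r t hr hrt ht => ?_⟩
  obtain ⟨ρ, δ, M₁, M₂, hd⟩ := hdata u v h r t hr hrt ht
  set G : ℝ := 1 + energy A B p q u v t with hG
  have hG1 : 1 ≤ G := le_add_of_nonneg_right (h.energy_nonneg t)
  have hG₁ : 1 ≤ G ^ (μ * m₁) := Real.one_le_rpow hG1 (mul_nonneg hμ0 hm10.le)
  have hG₂ : 1 ≤ G ^ (1 * m₂) := Real.one_le_rpow hG1 (by linarith)
  have hb := hest u v h r (t - r) _ _ ρ δ M₁ M₂ hr (by linarith) (by linarith) (by linarith)
    hG₁ hG₂ hd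
  rw [← Real.rpow_add (by linarith : 0 < G)] at hb
  have hE : energy A B p q u v r ≤ energy A B p q u v (ρ - δ) :=
    setIntegral_mono_set (integrableOn_dens hn hA hB hp hq h _)
      (Eventually.of_forall fun y => h.dens_nonneg y)
      (Eventually.of_forall fun y hy => closedBall_subset_closedBall hd.low hy)
  have hbound := (hpoho u v h ρ δ (by linarith [hd.low, hd.δpos]) (by linarith [hd.high, hd.δpos])
    hd.δpos hd.δle).trans (mul_le_mul_of_nonneg_left hb (div_nonneg hCp.le hd.δpos.le))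
  set Y : ℝ := ((t - r)⁻¹ ^ (n + 1)) ^ 2 * G ^ (μ * m₁ + 1 * m₂) with hY
  have hY1 : 1 ≤ Y := one_le_mul_of_one_le_of_one_le
    (one_le_pow₀ (one_le_pow₀ ((one_le_inv₀ (by linarith)).2 (by linarith))))
    (Real.one_le_rpow hG1 (add_nonneg (mul_nonneg hμ0 hm10.le) (by linarith)))
  have hδ := hd.δpos
  have e : ∀ a b : ℝ, Cp / δ * (δ * (T * a * b)) = Cp * T * (a * b) := fun a b => by field_simp
  rw [e, ← hY] at hbound
  calc 1 + energy A B p q u v r ≤ Y + Cp * T * Y := by linarith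
    _ = _ := by rw [hY]; ring

end Vale.Agent.P100.Sector
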